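import Crest.Agent.X212.Rad94.Wkb
import Crest.Agent.X212.Wal14.Defs
import Crest.Agent.X212.Map77.IsB
import Crest.Agent.X212.End3.Dec

/-!
# Row 212, GL-WALL-PSC (helper94): LEAF INJ, and the symmetries with their support
-/

set_option autoImplicit false
set_option linter.unusedSectionVars false
noncomputable section
open scoped Manifold ContDiff Topology InnerProductSpace
open MeasureTheory Set Function Filter Real

namespace Crest.Agent.X212.Rad94
open An An.Pre Sob92 Prm93 Mod61 Nd18 Eqv71 Nk89 Ker54 Cyf70 Sym93 Map77 Wal14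
open Grp76 (Nice mA hs_iff Pg_iff)
open Wz78 (nab SA adcL)
open Rf65 (ParY)

variable {E : Type} [NormedAddCommGroup E] [NormedSpace ℝ E] [FiniteDimensional ℝ E]
  [MeasurableSpace E] [BorelSpace E]
  {HM : Type} [TopologicalSpace HM] {I : ModelWithCorners ℝ E HM} [I.Boundaryless]
  {M : Type} [TopologicalSpace M] [ChartedSpace HM M] [IsManifold I ∞ M]
  [MeasurableSpace M] [T2Space M] [BorelSpace M] [SecondCountableTopology M]
  {κ : Type} [Fintype κ] {lam : Type} [Fintype lam]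
  {T : Type} [NormedAddCommGroup T] [NormedSpace ℝ T] [FiniteDimensional ℝ T]
  {𝔉 : Fam I M (Option κ) lam T} {δ R η : ℝ} {X : Ends 𝔉 δ} {t : T} {g : M → ℝ}
  {N : Type} [NormedAddCommGroup N] [NormedSpace ℝ N]

section wt
variable (d : Dr X t η g) (ht : t ∈ 𝔉.Q)
include d

theorem dr_end : ∃ b ≥ X.R, ∀ a, ∃ c, ∀ x ∈ (X.P a).U b,
    g x = (η * (X.P a).sg - δ) * ((X.P a).sg * (X.P a).K.tm x) + c := by
  obtain ⟨b, hb⟩ := d.lit
  refine ⟨max b X.R, le_max_right _ _, fun a => (hb a).imp fun c hc x hx => ?_⟩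
  obtain ⟨z, hz, rfl⟩ := (X.okP a).exists_ψ hx
  have hz' : max b X.R < (X.P a).sg * z.2 := hz
  rw [hc z (show b < _ from (le_max_left _ _).trans_lt hz'),
    (X.okP a).tm ((le_max_right _ _).trans hz'.le)]
  rcases (X.P a).sg_cases with k | k <;> rw [k] <;> ring

include ht

theorem cb_D0 (a : Option κ) : 𝔉.F0.Cb (𝔉.F0.D a g) := by
  rw [(mix_inv X.ok ht).D]
  exact Cb_sum _ fun b _ => Cb_smul ((X.ok.sSi a b).cb t ht) (d.cb b)

theorem cb_eg : 𝔉.F0.Cb fun x => exp (g x) := by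
  obtain ⟨b, hb, h⟩ := dr_end d
  obtain ⟨C, hC⟩ := End3.dom_of_ends X hb (continuous_const (y := (1 : ℝ))) (fun _ => one_pos)
    (sm_exp d.sm).continuous fun a => let ⟨c, hc⟩ := h a; ⟨exp c, fun x hx => by
      have h1 : 0 < (X.P a).sg * (X.P a).K.tm x := (X.R0.trans_le hb).trans hx.2
      have h2 : η * (X.P a).sg - δ ≤ 0 := by
        rcases (X.P a).sg_cases with k | k <;> rw [k] <;> linarith [d.pos, d.le]
      rw [mul_one, norm_of_nonneg (exp_pos _).le, exp_le_exp, hc x hx]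
      linarith [mul_nonpos_of_nonpos_of_nonneg h2 h1.le]⟩
  exact cb_exp d.sm (cb_D0 d ht) (c := C) fun x => by
    linarith [add_one_le_exp (g x), (le_abs_self _).trans (hC x)]

theorem wd_exp : Wd 𝔉 t (fun a => (𝔉.G t).F.D a g) fun x => exp (g x) :=
  ⟨cb_eg d ht, fun _ => exp_pos _, fun a x => (D_exp _ d.sm a x).trans (mul_comm _ _)⟩

/-- bounded functions living on the incoming ends decay in the weight `e^g` -/
theorem nice_w (hR : X.R ≤ R) {ξ : M → N} (hξ : 𝔉.F0.Cb ξ)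
    (hs : ∀ a, (X.P a).sg = -1 ∨ ∀ x ∈ (X.P a).U R, ξ x = 0) :
    Nice 𝔉.F0.toPre fun x => exp (g x) • ξ x := by
  refine ⟨Cb_smul (cb_eg d ht) hξ, fun j => ?_⟩
  have l2 : ∀ {ξ : M → N}, 𝔉.F0.Cb ξ → (∀ a, (X.P a).sg = -1 ∨ ∀ x ∈ (X.P a).U R, ξ x = 0) →
      MemLp (fun x => exp (g x) • ξ x) 2 𝔉.F0.μ := fun {ξ} hξ hs => by
    obtain ⟨b, hb, h⟩ := dr_end d
    have c := X.wt.sm.continuous
    have hδ := X.δ0
    have c1 := (Cb.sm (Cb_smul (cb_eg d ht) hξ)).continuous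
    obtain ⟨B, hB⟩ := hξ
    obtain ⟨C, hC⟩ := End3.dom_of_ends X (hb.trans (le_max_left b R))
      (θ := fun x => exp (-((δ + η) / δ) * X.ψ x)) (by fun_prop) (fun _ => exp_pos _) c1 fun a => by
        obtain ⟨c, hc⟩ := h a
        refine ⟨exp c * |B 0|, fun x hx => ?_⟩
        rcases hs a with k | k
        · rw [norm_smul, norm_of_nonneg (exp_pos _).le, hc x (End.U_mono _ (le_max_left _ _) hx),
            (X.okP a).wt x (End.U_mono _ (hb.trans (le_max_left b R)) hx), mul_right_comm,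
            ← exp_add, ← mul_assoc _ δ, neg_mul, div_mul_cancel₀ _ hδ.ne', add_comm c, k,
            show η * -1 - δ = -(δ + η) by ring]
          exact mul_le_mul_of_nonneg_left ((CB_bound (hB.2 0) x).trans (le_abs_self _)) (exp_pos _).le
        · rw [k x (End.U_mono _ (le_max_right _ _) hx), smul_zero, norm_zero]
          positivity
    exact ((End3.memLp_om X (lt_add_of_pos_right δ d.pos)).const_mul C).mono'
      c1.aestronglyMeasurable (.of_forall hC)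
  induction j generalizing ξ with
  | zero => exact l2 hξ hs
  | succ j ih =>
    refine ⟨l2 hξ hs, fun a => ?_⟩
    rw [← D_def, D_exp_smul _ d.sm (Cb.sm hξ)]
    refine ih (Cb_add (Cb_D hξ a) (Cb_smul (cb_D0 d ht a) hξ)) fun b => (hs b).imp_right
      fun k x hx => ?_
    rw [k x hx, smul_zero, add_zero, D_def, dv_congr (v := fun _ => 0)
      (((End.isOpen_U _ _).eventually_mem hx).mono k), dv_const]
    rfl

end wt

/-- **LEAF INJ** -/
theorem injAt (X : Ends 𝔉 δ) : InjAt X := fun o r k y η g ζ ξ v hk d cb mem hξ a row => by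
  refine inj_fmt X.ok hk (wd_exp d y.ht) (Cb.sm cb) mem hξ ζ (add_comm ξ _ ▸ a) fun x => ?_
  have e := congrArg (𝔉.F0.val k o.Pg · x) row
  simp only [sgm, _root_.add_apply, val_add, Pi.add_apply] at e
  rw [← Is.dC_apply, ← Is.val_drift o X.ok d.cb (by omega)]
  exact e.trans (map_zero (𝔉.F0.ev k o.Pg x))

variable {o : Ref 𝔉} {r : ℕ}

/-- **the symmetries** with their support (`Sym93.exists_sy` with the last clause) -/
theorem exists_sy' (hl : X.Lit o R) (h0 : o.Φ0 = 0) (y : Pnt o r) {S : Type} [Fintype S]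
    {j : S → X.A} (hj : Injective j) (act : ∀ i, X.Act (j i)) {L : S → Type}
    [∀ i, AddCommGroup (L i)] [∀ i, Module ℝ (L i)]
    {ζ : ∀ i, L i →ₗ[ℝ] (X.P (j i)).Y.M → o.m.A} (hζ : ∀ i, Injective (ζ i))
    (par : ∀ i s, ∀ t ∈ 𝔉.Q, ParY (X.P (j i)).D ((X.P (j i)).sl o (R + 1) t) (ζ i s))
    (irr : ∀ i, ∀ x ∈ (X.P (j i)).U X.R, (∃ x' ∈ connectedComponent x, y.cfg.Φ x' ≠ 0) ∨
      ¬Red (𝔉.G y.t).F y.cfg (connectedComponent x)) {L₀ : Type} [AddCommGroup L₀] [Module ℝ L₀]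
    {c₀ : L₀ →ₗ[ℝ] ℝ} (hz : ∀ s, (c₀ s : ℂ) • y.z = 0 → s = 0) :
    ∃ (ξ : (L₀ × ∀ i, L i) →ₗ[ℝ] M → o.m.A) (c : (L₀ × ∀ i, L i) →ₗ[ℝ] ℝ),
      Sy y ξ c ∧ (∀ s, Mb o (ξ s)) ∧ ∀ s a, (∀ i, j i ≠ a) → ∀ x ∈ (X.P a).U R, ξ s x = 0 := by
  have H := X.ok
  let ξ : (L₀ × ∀ i, L i) →ₗ[ℝ] M → o.m.A :=
    ∑ i, ex (X.P (j i)) R ∘ₗ ζ i ∘ₗ LinearMap.proj i ∘ₗ .snd ℝ _ _
  have e : ∀ s, ξ s = fun x => ∑ i, ex (X.P (j i)) R (ζ i (s.2 i)) x := fun s =>
    funext fun x => by simp [ξ]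
  have pb : ∀ s, Pb o (⋃ a, (X.P a).U (R + 1))ᶜ (ξ s) := fun s =>
    e s ▸ Pb.sum fun i => pb_ex X hl (act i) y.ht (par i _)
  refine ⟨ξ, c₀ ∘ₗ .fst ℝ _ _, ⟨fun s => (pb s).inf H (X.cov' _) h0 y _, fun s η hη h1 h2 h3 =>
    Prod.ext (hz _ h3) (funext fun i => hζ i (funext fun w => ?_))⟩,
    fun s => (pb s).mb H (X.cov' _) y.ht, fun s a ne x hx => (congrFun (e s) x).trans
      (Finset.sum_eq_zero fun i _ => ex_off fun k => disjoint_left.1 (X.dis (ne i))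
        (End.U_mono _ hl.le k) (End.U_mono _ hl.le hx))⟩
  have h := X.okP (j i)
  have C : o.m.IsConn 𝔉.B (𝔉.G y.t) (o.W y.t y.α) := (y.ad0 H).conn
  have hs : Sm I (ξ s - η) := (Cb.sm (pb s).cb).sub ((hs_iff H).1 hη).1.sm
  have hg : ∀ x, (ξ s - η) x ∈ o.m.gS x := fun x => sub_mem ((Pg_iff H x _).1 ((pb s).mem x)).1
    ((Pg_iff H x _).1 (((hs_iff H).1 hη).2 x)).1
  have z : ∀ x ∈ (X.P (j i)).U X.R, (ξ s - η) x = 0 := fun x hx => by
    rcases irr i x hx with ⟨x', k1, k2⟩ | k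
    · have k3 := End14.const_cc (h := fun x => ⟪(ξ s - η) x, (ξ s - η) x⟫_ℝ) (𝔉.G y.t).F.toPre
        isClopen_univ (fun z _ => ⟨(SA.inner (hs z) (hs z)).md, fun a => by
          rw [Pre.D_def, Wz78.dv_inner a (Wz78.adW_skw C a z) (hs z) (hs z), h1 a z]; simp⟩)
        trivial k1
      have k4 := Std94.norm_g_apply H.B (Std94.pmx o.ok x') (hg x') (y.cfg.Φ x')
      have k5 := h2 x'
      rw [show (c₀ ∘ₗ LinearMap.fst ℝ _ _) s = 0 from (congrArg c₀ (hz _ h3)).trans (map_zero _),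
        zero_smul, add_zero] at k5
      rw [show opL ((ξ s - η) x') (y.cfg.Φ x') = 0 from k5, Grp76.p_Pp H (y.pΦ H x'), norm_zero, eq_comm,
        mul_eq_zero, norm_eq_zero, div_eq_zero_iff, norm_eq_zero, or_iff_left four_ne_zero] at k4
      rw [k4.resolve_right k2, inner_zero_left] at k3
      exact inner_self_eq_zero.1 k3.symm
    · exact by_contra fun k' => k ⟨_, ⟨hs.contMDiffOn, fun x _ => hg x, fun a x _ => h1 a x⟩, x,
        mem_connectedComponent, k'⟩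
  rw [Prod.snd_zero, Pi.zero_apply, map_zero]
  refine norm_le_zero_iff.1 (le_of_forall_pos_le_add fun ε hε => ?_)
  obtain ⟨K, hK, k1⟩ := End14.hs_small H.sup hη hε
  obtain ⟨b, hb⟩ := X.exists_ht hK
  have k2 : max b (R + 1) < (X.P (j i)).sg * ((X.P (j i)).sg * (max b (R + 1) + 1)) := by
    rw [End.sg_sg]; exact lt_add_one _
  generalize (X.P (j i)).sg * (max b (R + 1) + 1) = t at k2
  have k3 : X.R < (X.P (j i)).sg * t := by linarith [le_max_right b (R + 1), hl.le]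
  have k4 := h.ψ_mem (z := (w, t)) le_rfl k3
  have k5 := k1 _ (hb _ _ ⟨k4.1, by rw [h.tm k3.le]; exact (le_max_left _ _).trans_lt k2⟩)
  rw [← sub_eq_zero.1 (z _ k4), e] at k5
  beta_reduce at k5
  rw [Finset.sum_eq_single i (fun i' _ ne => ex_off fun k => disjoint_left.1 (X.dis (hj.ne ne))
    (End.U_mono _ hl.le k) k4) (by simp), ex_ψ (h.src k3.le), End.θZ,
    hc_one ((le_max_right _ _).trans k2.le), one_smul] at k5
  simpa using k5

end Crest.Agent.X212.Rad94
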