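import Crest.Agent.X212.Rad94.Wkc
import Crest.Agent.X212.Rad94.Wkd
import Crest.Agent.X212.Spl54.Fr

/-!
# Row 212, GL-WALL-PSC (helper94): LEAF LOW
-/

set_option autoImplicit false
set_option linter.unusedSectionVars false
noncomputable section
open scoped Manifold ContDiff Topology InnerProductSpace
open MeasureTheory Set Function Filter

namespace Crest.Agent.X212.Rad94
open An M Nd18 Mod61 Nk89 Cht98 Rf65 Eqv71 Wrd81 Pte3 Sym93 Wal14 Map77
open An.Job (SolOn StrOn)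

variable {Wi : Type} {X : Mf 4} {A κ lam : Type} [Fintype A] [Fintype κ] [Fintype lam]
  [DecidableEq lam] {M : Mark X A κ} {W : World M} {N : ML M lam} {Λ : Lns W N}
  {A' h : Type} [Fintype A'] [DecidableEq A'] [Fintype h] {r n : ℕ}
  {J : Job Wi Λ A' h r n} {c : M.Cl} {σ : Cel A'} {p : Prt A A' h} {U : Type} [Fintype U] {δ : ℝ}
  {b : Bp J c} {E : EC b p U δ} {q : Wi →₀ ℝ} {y : J.Obc c} {x : Pnt E.o r} {ψ : E.K}

/-- the symmetries with their support (`Sym93.sy_ex` with the last clause) -/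
theorem sy_ex' (H : CS σ E) (pj : PJ J c) (S : SolE p E.μ σ q y) (R : E.RepC y x ψ)
    (h0 : E.o.Φ0 = 0) {P₁ : Set (Reg A)} (h1 : P₁ ⊆ p.P)
    (h2 : ∀ π ∈ P₁, y.TF π ∨ ¬Red (J.G c y.s).F y.x (W.pc c π)) :
    ∃ (ξ : (Fin (min r 1 + stb y P₁) → ℝ) →ₗ[ℝ] (W.Z c).M → E.o.m.A) (c' : _ →ₗ[ℝ] ℝ),
      Sy x ξ c' ∧ (∀ s, Ker54.Mb E.o (ξ s)) ∧
        ∀ s, ∀ i ∉ EdP c P₁, ∀ z ∈ (en E i).U E.R, ξ s z = 0 := by
  have : Fintype (EdP c P₁) := Fintype.ofFinite _
  have hi : ∀ i : EdP c P₁, i.1 ∈ EdP c p.P := fun ⟨_, π, k, e⟩ => ⟨π, h1 k, e⟩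
  obtain ⟨u, ζ, e, -⟩ := R.e
  obtain ⟨ξ, c', k1, k2, k5⟩ := exists_sy' H.lit h0 x (j := Subtype.val) (S := EdP c P₁)
    Subtype.val_injective (fun i => (H.act_iff H.eo.d0 H.eo.d1).2 (hi i))
    (L := fun i => Clr59.parS (J.xs i.1.1).D ((en E i.1).sl E.o (E.R + 1) x.t))
    (ζ := fun i => Submodule.subtype _) (fun i => Subtype.val_injective)
    (fun i s => par_all H pj S R (hi i) s.2) (fun ⟨i, π, k3, k4⟩ z hz => by
      have hπ := H.pok.pc π (h1 k3)
      have k := H.same S.toSolOn R.s e (h1 k3)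
      have := H.ok.end_sub (t := J.Θ b.s) ⟨i.1.2.2, b.br, b.O, i.1.2.1⟩ (P := {π})
        (fun _ e => e ▸ hπ) ⟨π, rfl, k4⟩ hz.1
      rw [un_one] at this
      rw [cc_pc hπ this]
      exact (h2 π k3).imp k.sp.1 (mt k.red.2))
    (L₀ := Fin (min r 1) → ℝ) (c₀ := ∑ i, LinearMap.proj i) fun s hs => funext fun i => by
      have : Subsingleton (Fin (min r 1)) := Fin.subsingleton_iff_le_one.2 (min_le_right _ _)
      rcases H.nz S.toSolOn R.s e with k | k
      · exact (show Fin (min r 1) → False from k ▸ Fin.elim0) i |>.elim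
      · rw [Fintype.sum_subsingleton _ i] at hs
        exact Complex.ofReal_eq_zero.1 ((smul_eq_zero.1 hs).resolve_right
          (norm_ne_zero_iff.1 (k.trans_ne one_ne_zero)))
  have := fun i : EdP c P₁ => have := J.conn_xs i.1.1
    fin_par (H.ok.xs i.1.1).1.yd (adm_sl H i.1 x.ht)
  let l := LinearEquiv.ofFinrankEq (R := ℝ) (Fin (min r 1 + stb y P₁) → ℝ) ((Fin (min r 1) → ℝ) ×
    ∀ i : EdP c P₁, Clr59.parS (J.xs i.1.1).D ((en E i.1).sl E.o (E.R + 1) x.t)) (by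
      rw [Module.finrank_prod, Module.finrank_fin_fun, Module.finrank_fin_fun,
        Module.finrank_pi_fintype, stb, ← finsum_set_coe_eq_finsum_mem]
      exact congrArg _ ((finsum_eq_sum_of_fintype (α := EdP c P₁) _).trans (Finset.sum_congr rfl
        fun i _ => (dz_sl H S.toSolOn R (hi i)).symm.trans Clr59.dz_def)))
  exact ⟨ξ ∘ₗ l.toLinearMap, c' ∘ₗ l.toLinearMap, ⟨fun s => k1.inf _, fun s η a1 a2 a3 a4 =>
    l.map_eq_zero_iff.1 (k1.2 _ η a1 a2 a3 a4)⟩, fun s => k2 _,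
    fun s i hi => k5 _ i fun j e => hi (e ▸ j.2)⟩

/-- the slices are flat and the equations are the unperturbed ones far out -/
theorem end_hyp (H : CS σ E) (pj : PJ J c) (S : SolOn p σ q y) (ch : E.Ch δ σ E.μ y x ψ)
    {i : Ed c} (ha : H.ee.Act i) (k k0) :
    Rdc90.Bs (H.ee.P i).D ((H.ee.P i).sl E.o (E.R + 1) x.t) ∧
      (H.ee.P i).Loc E.o 8 δ E.R (EC.tot b p U δ q) x.t k k0
        (eq0 (H.ee.P i).D.B (H.ee.P i).D.G 0 0 0) := by
  have hi := (H.act_iff H.eo.d0 H.eo.d1).1 ha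
  obtain ⟨a1, a2⟩ := lim_eqv H S ch.rep hi
  have bs := ch.go.bs i hi
  obtain ⟨C, c1, c2⟩ := Spl54.tot_cpt (U := U) (δ := δ) H.toPG pj H.hb q x.ht
  exact ⟨Spl54.bs_sl H.ee H.lit ch.z x.ht (Add46.flt_eqv bs.ok a1 (adm_sl H i x.ht)
    (Add46.eqv_symm bs.ok (adm_sl H i x.ht) a1 a2) bs.flat), Spl54.loc_cpt H.ee c1 c2
      (Add46.eZ_nil (D := (H.ee.P i).D) (pj.nil _ i.1.2).1 ▸
        Add46.loc_eq0 H.ee H.lit ha (pj.nil _ i.1.2).1 k k0)⟩

variable (J) in
/-- **LEAF LOW** -/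
theorem lowL : LowL J := fun σ c V _ _ q δ y x p b E x' ψ K η g usf inj dr ze => by
  have H := K.cs
  have S := K.se
  have ch := K.ch
  have G := H.th_ok (Adm := fun _ => True) (K := fun _ => False) (d := 0)
    (fun _ _ _ _ _ _ => id) (fun _ => False.elim) fun _ _ _ => False.elim
  have C := H.cu_ok (fun _ => False) (0 + 2 * r + Module.finrank ℝ (Tq p V) - 2 * n - (min r 1 : ℕ))
  obtain ⟨ξ, c', sy, mb, sp⟩ := sy_ex' H K.ph.pj S ch.rep ch.z (P₁ := {hp x true})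
    (fun _ e => by rw [K.P]; exact .inl e) fun _ e => .inl (e ▸ K.tf)
  obtain ⟨u, ζ, e, -⟩ := ch.rep.e
  have a := C.ax G
  have af := H.sm.aff.tot H.F H.sm.sm q
  obtain ⟨Z, _, _, Q, B, hQ, est⟩ := usf E.o E.R r n _ 8 _ _ x' η g (by norm_num) H.lit af
    (G.repF () q) dr fun i ha k k0 =>
      let ⟨a1, a2⟩ := end_hyp H K.ph.pj S.toSolOn ch ha k k0; ⟨a1, ze i, a2⟩
  have d : ix δ y p.P p.P' + 2 * r + Module.finrank ℝ (Tq p V) - 2 * n - (min r 1 : ℕ) =
      (Module.finrank ℝ (Fin (min r 1 + stb y {hp x true}) → ℝ) + 2 * Fintype.card p.H : ℤ) := by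
    have := K.dm
    rw [dm] at this
    rw [Module.finrank_fin_fun, K.stb, Module.finrank_prod, Module.finrank_fintype_fun_eq_card,
      Module.finrank_fintype_fun_eq_card, ← Nat.card_eq_fintype_card (α := p.V),
      ← Nat.card_eq_fintype_card (α := p.H), Nat.card_coe_set_eq, Nat.card_coe_set_eq]
    have := K.r0
    omega
  have z1 : ‖x'.z‖ = 1 := (H.nz S.toSolOn ch.rep.s e).resolve_left K.r0
  refine low_sym H.F (k := 8) (by norm_num) H.cut_sub
    (Gb54.gmE E.o H.F (k := 8) (by norm_num) r H.ee.hdy) (σ := rw q) (f := G.Q.F () q)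
    (A := fun i => (C.ext G).T () i q) (G.repF () q) (fun i => ⟨a.smT () i q, C.T_pt G q () i⟩)
    ((H.th (fun _ => False) 0).tot_mem (natS _ _ n _ _)
      ((H.nat_e H.hb).natP H.F E.o E.o fun _ _ => True)
      (fun w => (H.nat_τ H.hb w).natP H.F E.o E.o fun _ _ => True) q) (nat_rw H)
    (zx H S.toSolOn ch.rep) (H.free S.toSolOn ch.rep.s e S.fr) sy mb
    (d ▸ Gb54.slc_gmE H.F _ x' _ af (K.sp.ch _ _ _ _ _ _ _ _ _ q K.ph S.ov ch))
    (Gb54.tan_gmE H.F _ _ x') (fun i => by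
      have := C.fred G q () i x'
      rwa [C.T_pt] at this) (by
      have := (H.reg_iff G x' ψ).2 K.reg
      unfold Prob.Reg at this
      rwa [funext ((C.ext G).F_eq () q)] at this) (fun s η' v i0 e0 => ?_) hQ (G := |B|)
    fun v e0 => (est v).trans ?_
  · have e1 := congrArg Prod.snd e0
    have e2 : v.2.2.1 = (2 * c' s * Complex.I : ℂ) • x'.z := congrArg Prod.fst i0.z
    have e3 : c' s = 0 := by
      simp only [rowQ, ContinuousLinearMap.prod_apply, ContinuousLinearMap.comp_apply,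
        ContinuousLinearMap.coe_fst', ContinuousLinearMap.coe_snd', innerSL_apply_apply, e2] at e1
      rw [show (2 * c' s * Complex.I : ℂ) • x'.z = (2 * c' s) • (Complex.I • x'.z) by
        rw [mul_smul, ← Complex.coe_smul]; push_cast; rfl, real_inner_smul_right,
        real_inner_self_eq_norm_sq, norm_smul, Complex.norm_I, z1] at e1
      simpa using e1
    refine inj E.o r 8 x' η g η' (ξ s) v (by norm_num) dr (sy.inf s).cb (sy.inf s).mem
      (nice_w dr x'.ht H.lit.le (sy.inf s).cb fun i => ?_) (e3 ▸ i0) (congrArg Prod.fst e0)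
    obtain ⟨i, _ | _⟩ := i
    · refine .inr (sp s _ fun ⟨π, k1, k2⟩ => ?_)
      rw [mem_singleton_iff.1 k1, hp] at k2
      split_ifs at k2 <;> simp at k2
    · exact .inl rfl
  · refine (mul_le_mul_of_nonneg_right (le_abs_self B) (by positivity)).trans
      (mul_le_mul_of_nonneg_left (add_le_add_left ?_ _) (abs_nonneg B))
    exact max_le ((congrArg norm e0).trans_le (norm_zero.trans_le (norm_nonneg _)))
      (norm_fst_le (rowQ 8 _ x' v))

end Crest.Agent.X212.Rad94
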