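import Crest.Agent.X212.Rad94.Leaf
import Crest.Agent.X212.Flo2.Lev

/-!
# Row 212, AN-S (helper94): the marks `hi1`, `al1`, `ex1` and the leaves of `Flo2.RadStmt`
-/

set_option autoImplicit false
set_option linter.unusedSectionVars false
noncomputable section
open scoped Manifold ContDiff Topology InnerProductSpace
open MeasureTheory Set Function Filter Real

namespace Crest.Agent.X212.Rad94
open An Cyf70 Sw Sw.En3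
open Flo2 (Gc Ty End Mk Gr Plc Tm Tk bm rt)
open M (Mf pm)

variable {κ lam ν : Type} [Fintype κ] [Fintype lam] [Fintype ν] [DecidableEq ν]

/-- one incoming and one outgoing end, no walls -/
structure Prt (g : Gc κ lam ν) (ι : Bool → g.N) : Prop where
  pin : g.pin = some (ι false)
  pout : g.pout = some (ι true)
  p3 : g.p3 = none
  wl : ∀ c, g.wl c = none

/-- `g` is the family `om + ∑ φ t i • ϖ i` over the piece `Z` that has a reducible solution -/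
structure Dat (g : Gc κ lam ν) (ε : Bool → Ty κ lam ν) : Type 1 where
  ι : Bool → g.N
  h : ∀ s, g.ty (ι s) = ε s
  prt : Prt g ι
  Z : Pz g.X g.nc fun s => (ε s).en
  z : Two Z
  ϖ : Fin g.k → g.X.M → F2 κ
  φ : Tk g.k → Tk g.k
  ψ : Tk g.k → Tk g.k
  r : ℝ
  a₀ : Fo g.X κ
  bg : ∀ t ∈ g.dom, (g.P t).bg = sft Z.bg (fun x => ∑ i, φ t i • ϖ i x) Z.bg.w
  ng : ∀ t ∈ g.dom, ∀ s, ∃ K ∈ (g.P t).nk (ι s), (rt (h s) K).ng = (z.K s).ng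
  base : z.Base ϖ φ ψ r {t | ∀ c, t c ∈ Ioo 0 1} g.dom a₀

/-- **mark `hi1`** -/
def Hi1 (g : Gc κ lam ν) : Prop := ∃ ε, ∃ D : Dat g ε, D.z.Hi D.a₀

/-- **mark `al1`** -/
def Al1 (psc : End κ lam ν → Prop) (tp : Gc κ lam ν → ℚ → Prop) (g : Gc κ lam ν) : Prop :=
  ∃ ε₀ : Ty κ lam ν, ∃ D : Dat g fun _ => ε₀, D.z.Al D.a₀ ∧ psc ε₀.1 ∧ (∃ x < 0, tp g x) ∧
    (∃ K, D.z.Cyl K) ∧ ∃ σ > 0, ∀ t ∈ g.dom, Psc D.Z.bg (fun x => ∑ i, D.φ t i • D.ϖ i x) σ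

/-- exactly one class of solutions for all small forcing forms -/
def Stb {X : Mf 4} {nc : ℕ} (b : Bg X.I X.M κ lam ν nc) : Prop := ∃ j : ℕ, ∃ η > 0, ∀ f, SD b f →
  b.F.CB j f η → ∃ c, (sft b f 1).Sol ⟨0, 0, 0⟩ c ∧ (∃ x, c.Φ x ≠ 0) ∧
    ∀ c', (sft b f 1).Sol ⟨0, 0, 0⟩ c' → ∃ u, Gau X.I u ∧ c' = b.act u c

/-- **mark `ex1`** -/
def Ex1 (g : Gc κ lam ν) : Prop :=
  g.k = 0 ∧ g.nc = 0 ∧ g.pin = none ∧ g.pout = none ∧ g.p3 = none ∧ ∀ t, Stb (g.P t).bg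

section lev
variable {𝓔 : Type} [Fintype 𝓔] {ty : 𝓔 → Ty κ lam ν} {Sl : Type} [Fintype Sl] {g : Gc κ lam ν}
  (p : Plc ty Sl g) (ι : Bool → g.N) (lv : Flo2.Lv 𝓔)

/-- the limits have levels near `l` -/
def Lvl (l : Bool → ℝ) (η : ℝ) (β : Plc.BC (ty := ty) (Sl := Sl) lv) : Prop :=
  ∀ s, |bm lv.μ (nm (β (p.ι (ι s)) s)) - l s| ≤ η

variable {p lv} in
/-- the cell `p.cel` in the canonical form -/
structure Rdx {ε : Bool → Ty κ lam ν} (D : Dat g ε) {W : Type} (yt : lv.YT ty W) (τ : Tm g W)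
    (L : D.z.Lv D.ϖ D.φ g.dom lv.w (fun _ => bm lv.μ) W)
    (tr : Plc.BC (ty := ty) (Sl := Sl) lv → BCs L.en) : Prop where
  nm : ∀ β s, nm (tr β s s) = nm (β (p.ι (D.ι s)) s)
  crit : ∀ β s, Crit (β (p.ι (D.ι s)) s) → Crit (tr β s s)
  unq : ∀ β l η, (∀ s (v : (lv.e ty (p.ι (D.ι s)).1).YC), Crit v → |bm lv.μ (En3.nm v) - l s| ≤ η →
    Eqv (β (p.ι (D.ι s)) s) v) → L.Unq l η (tr β)
  sol : ∀ β q, ∀ t ∈ g.dom, ∀ c, ((p.fam lv yt τ).P t).Sol β q c ↔ (L.P t).Sol (tr β) q c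
  eqv : ∀ t ∈ g.dom, ∀ c c', ((p.fam lv yt τ).P t).Eqv c c' ↔ (L.P t).Eqv c c'
  inf : ∀ j b, (p.site lv yt).Inf j b ↔ j = p.ι (D.ι b)
  n2 : ∀ s, ∀ K ∈ (p.site lv yt).nk (p.ι (D.ι s)), ∀ (c : Cfg g.X.M κ ν) τ',
    En3.nm (sl (K.pb c) (D.z.gm.tt s τ')) = D.z.gm.n2 s c.Φ τ'
  low : ∀ β (y : (p.cel lv yt τ β).Pnt) η, y.1.1 ∈ g.dom →
    (∀ s, ∀ τ' ≥ 0, η ≤ D.z.gm.n2 s y.1.2.Φ τ') → (p.cel lv yt τ β).Low η y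

end lev

variable (G : Gr κ lam ν) (mk : Mk κ lam ν)

/-- solutions with limits of levels near `l` are bounded, uniformly in the scale -/
def Sml (g : Gc κ lam ν) (ι : Bool → g.N) (l : Bool → ℝ) : Prop :=
  ∀ (𝓔 : Type) [Fintype 𝓔] (ty : 𝓔 → Ty κ lam ν) (Sl : Type) [Fintype Sl] (p : Plc ty Sl g),
    (∀ ε, (ty ε).1.OK mk) → ∃ μ₀, ∀ μ ≥ μ₀, ∃ C, ∃ η > 0, ∃ w₀ > 0, ∀ lv : Flo2.Lv 𝓔,
      lv.μ = μ → lv.w ≤ w₀ → ∀ (Γ : lv.Cx ty) (W : Type) (yt : lv.YT ty W) (τ : Tm g W), τ.OK →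
        EvQ fun q => ∀ β, p.InV Γ β → Lvl p ι lv l η β → ∀ y ∈ p.M lv yt τ β q, ∀ x, ‖y.1.2.Φ x‖ ≤ C

/-- LEAF SMALL (23, frequency bounds) -/
def SmallStmt : Prop := ∀ g : Gc κ lam ν, g.Gd mk → ∀ ι, Prt g ι → ∃ Λ, ∀ l : Bool → ℝ,
  0 < l false → Λ ≤ l true → Sml mk g ι l

/-- LEAF NRC: without reducible solutions there are no bounded solutions -/
def NrcStmt : Prop := ∀ g : Gc κ lam ν, g.Gd mk → ∀ ι, Prt g ι → g.NoRed →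
  ∀ (𝓔 : Type) [Fintype 𝓔] (ty : 𝓔 → Ty κ lam ν) (Sl : Type) [Fintype Sl] (p : Plc ty Sl g),
    (∀ ε, (ty ε).1.OK mk) → ∃ μ₀, ∀ μ ≥ μ₀, ∀ C, ∃ w₀ > 0, ∀ lv : Flo2.Lv 𝓔, lv.μ = μ → lv.w ≤ w₀ →
      ∀ (Γ : lv.Cx ty) (W : Type) (yt : lv.YT ty W) (τ : Tm g W), τ.OK →
        EvQ fun q => ∀ β, p.InV Γ β → ∀ y ∈ p.M lv yt τ β q, ∃ x, C < ‖y.1.2.Φ x‖

/-- generators with degrees in `S` belong to the tower; `dg l` is the degree of the eigenvalue `l` -/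
structure TwId (ε : Ty κ lam ν) (dg : ℝ → ℚ) (S : Set ℚ) : Prop where
  mono : StrictMonoOn dg {l | 0 < l ∧ Ev ε.en l}
  big : ∀ Λ, ∃ n, ∀ l > 0, Ev ε.en l → n ≤ dg l → Λ ≤ l
  lab : ∀ x ∈ S, ∀ μ > 0, ∀ η > 0, ∃ w₀ > 0, ∀ lv : Flo2.Lv Unit, lv.μ = μ → lv.w ≤ w₀ →
    ∀ (Γ : lv.Cx fun _ => ε) i, G.d lv () ((Γ.g ()).x i) = x → ∃ l ∈ Ioo 0 μ, Ev ε.en l ∧ dg l = x ∧
      |bm μ (nm ((Γ.g ()).x i)) - l| ≤ η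
  ex : ∀ l > 0, Ev ε.en l → ∀ μ > l, ∃ η₁ > 0, ∀ η > 0, ∃ w₀ > 0, ∀ lv : Flo2.Lv Unit, lv.μ = μ →
    lv.w ≤ w₀ → ∀ Γ : lv.Cx fun _ => ε, ∃ i, |bm μ (nm ((Γ.g ()).x i)) - l| ≤ η ∧
      ∀ v : (lv.e (fun _ => ε) ()).YC, Crit v → |bm μ (nm v) - l| ≤ η₁ → Eqv ((Γ.g ()).x i) v

/-- LEAF TWID (23); `A0` may be taken at any reducible point if `Rd0` fails -/
def TwIdStmt : Prop := ∀ ε : Ty κ lam ν, ε.1.OK mk → ε.1.kd = .qhs → Rd0 ε.en →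
  ∃ (dg : ℝ → ℚ) (N : ℚ), TwId G ε dg (Ici N) ∧ (mk.psc ε.1 → TwId G ε dg univ)

/-- LEAF TWHI (23): high degrees have high levels (no `Rd0`) -/
def TwHiStmt : Prop := ∀ ε : Ty κ lam ν, ε.1.OK mk → ε.1.kd = .qhs → ∀ Λ : ℝ, ∃ n : ℚ, ∀ x ≥ n,
  ∃ l ≥ Λ, ∀ μ > 0, ∀ η > 0, ∃ w₀ > 0, ∀ lv : Flo2.Lv Unit, lv.μ = μ → lv.w ≤ w₀ →
    ∀ (Γ : lv.Cx fun _ => ε) i, G.d lv () ((Γ.g ()).x i) = x → |bm μ (nm ((Γ.g ()).x i)) - l| ≤ η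

variable (κ lam ν)

/-- LEAF RIDX -/
def RidxStmt : Prop := ∀ (g : Gc κ lam ν) ε (D : Dat g ε), g.OK → ∀ (𝓔 : Type) [Fintype 𝓔]
  (ty : 𝓔 → Ty κ lam ν) (Sl : Type) [Fintype Sl] (p : Plc ty Sl g) (lv : Flo2.Lv 𝓔) (_ : lv.Cx ty)
  (W : Type) (yt : lv.YT ty W) (τ : Tm g W), τ.OK → ∃ L tr, Rdx (p := p) D yt τ L tr

/-- LEAF RICH: rich terms without walls -/
def RichStmt : Prop := ∀ g : Gc κ lam ν, g.OK → (∀ c, g.wl c = none) →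
  ∃ (W : Type) (τ : Tm g W), τ.OK ∧ τ.Rich

/-- LEAF N0: one class for all small perturbations means index zero -/
def N0Stmt : Prop := ∀ (d : Dt κ lam ν) [Fintype d.𝓔] (Sl : Type) [Fintype Sl] (_ : Ctx d) (X : Mf 4)
  (nc k : ℕ) (s : StS d Sl X) (σ : Cel s nc 0 (Fin k → ℝ)) (D : Set (Fin k → ℝ)), σ.OK → IsCompact D →
  D ⊆ σ.Q → (∀ t ∈ D, (σ.P t).Rich) → (∀ w, ∃ r, 0 ≤ r ∧ ∀ t ∈ σ.Q, (σ.P t).Sz 6 w r) →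
  ∀ n, σ.Ind n → ∀ (C η₀ T : ℝ) (N : d.𝓔 × Sl → Bool → Set ℝ), 0 < η₀ →
    (∀ j b, s.Inf j b → IsClosed (N j b) ∧
      ∀ v : (d.e j.1).YC, Crit v → nm v ∈ N j b → En3.L v = En3.L (σ.β j b)) →
    (EvQ fun q => (∃ y, σ.Sol q y ∧ y.1.1 ∈ interior D ∧
        ∀ y', σ.Sol q y' → y'.1.1 ∈ D → σ.Eqv y y') ∧
      (∀ y : σ.Pnt, y.1.1 ∈ D → (σ.P y.1.1).bg.Sol ((σ.P y.1.1).pt q) y.1.2 → ∃ x, y.1.2.Φ x ≠ 0) ∧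
      ∀ y, σ.Sol q y → y.1.1 ∈ D → σ.Bnd C η₀ y ∧ ∀ j b, ∀ K ∈ s.nk j, K.Inf b →
        ∀ t ∈ K.far b T, nm (sl (K.pb y.1.2) t) ∈ N j b) → n = 0

variable {κ lam ν}

/-- the marks of `mk` are the ones of this file -/
structure Mks : Prop where
  hi1 : ∀ g, mk.hi1 g → Hi1 g
  al1 : ∀ g, mk.al1 g → Al1 mk.psc mk.tp g
  ex1 : ∀ g, mk.ex1 g → Ex1 g

end Crest.Agent.X212.Rad94
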