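import Crest.Agent.X212.Rad96.Defs

/-! **SPL**: masses with simple spectrum in a window are open and dense. -/

set_option autoImplicit false
set_option linter.unusedSectionVars false

noncomputable section

namespace Crest.Agent.X212.Rad94

open Set Filter Topology Function Module
open scoped InnerProductSpace
open Fred93 (Fr)
open Crt72 (Op Op_apply)
open Rad96

theorem fr_le {X : Type*} [AddCommGroup X] [Module ℝ X] {A B : Submodule ℝ X}
    [FiniteDimensional ℝ B] (f : X →ₗ[ℝ] X) (hm : ∀ u ∈ A, f u ∈ B)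
    (hi : ∀ u ∈ A, f u = 0 → u = 0) : finrank ℝ A ≤ finrank ℝ B :=
  LinearMap.finrank_le_finrank_of_injective (f := f.restrict hm)
    ((injective_iff_map_eq_zero _).2 fun u hu =>
      Subtype.ext (hi u u.2 (congrArg Subtype.val hu)))

variable {X₁ X₀ : Type*} [NormedAddCommGroup X₁] [NormedSpace ℝ X₁] [CompleteSpace X₁]
  [NormedAddCommGroup X₀] [InnerProductSpace ℝ X₀] [CompleteSpace X₀]

/-- first order perturbation: the kernel drops to the radical of the perturbation. -/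
theorem pert' {i T : X₁ →L[ℝ] X₀} (hi : IsCompactOperator i) (hT : Fr T 0)
    (hs : ∀ u v, ⟪T u, i v⟫_ℝ = ⟪i u, T v⟫_ℝ) {Y : Type*} [TopologicalSpace Y] {Z : Set Y}
    (hZ : IsCompact Z) {c : Y → X₀ →L[ℝ] X₀} (hc : Continuous c) {n : ℕ}
    (hn : ∀ s ∈ Z, ∀ W : Submodule ℝ X₁, W ≤ T.ker →
      (∀ k ∈ W, ∀ k', T k' = 0 → ⟪c s (i k), i k'⟫_ℝ = 0) → finrank ℝ W ≤ n) :
    ∀ᶠ ε in 𝓝[≠] (0 : ℝ), ∀ s ∈ Z, finrank ℝ (T + (ε • c s).comp i).ker ≤ n := by
  have := hT.1.finite_ker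
  obtain ⟨π, hπ⟩ := Submodule.ClosedComplemented.of_finiteDimensional T.ker
  let Q : X₁ →L[ℝ] X₁ := T.ker.subtypeL.comp π
  have hQ : ∀ u, T (Q u) = 0 := fun u => (π u).2
  have hQk : ∀ u, T u = 0 → Q u = u := fun u hu => congrArg Subtype.val (hπ ⟨u, hu⟩)
  let S : ℝ → Y → X₁ →L[ℝ] X₀ := fun ε s =>
    T + (c s).comp (i.comp Q) + ε • (c s).comp (i.comp (1 - Q))
  have hS : Continuous fun z : ℝ × Y => S z.1 z.2 := by
    have := hc.comp (continuous_snd (X := ℝ) (Y := Y))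
    exact (continuous_const.add (this.clm_comp continuous_const)).add
      (continuous_fst.smul (this.clm_comp continuous_const))
  have h0 : ∀ s ∈ Z, Fr (S 0 s) 0 ∧ finrank ℝ (S 0 s).ker ≤ n := fun s hs' => by
    have e : S 0 s = T + (c s).comp (i.comp Q) := by simp [S]
    rw [e]
    refine ⟨hT.add_compact ((hi.comp_clm Q).clm_comp (c s)), ?_⟩
    set A := (T + (c s).comp (i.comp Q)).ker with hA
    have hle : A.map (Q : X₁ →ₗ[ℝ] X₁) ≤ T.ker := by
      rintro _ ⟨u, -, rfl⟩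
      exact hQ u
    have := Submodule.finiteDimensional_of_le hle
    refine (fr_le (B := A.map (Q : X₁ →ₗ[ℝ] X₁)) (Q : X₁ →ₗ[ℝ] X₁) (fun u hu => ⟨u, hu, rfl⟩)
      fun u hu h1 => ?_).trans (hn s hs' _ hle ?_)
    · have hu' : T u + c s (i (Q u)) = 0 := hu
      have h1' : Q u = 0 := h1
      rw [h1', map_zero, map_zero, add_zero] at hu'
      rw [← hQk u hu', h1']
    · rintro _ ⟨u, hu, rfl⟩ k' hk'
      have hu' : T u + c s (i (Q u)) = 0 := hu
      have := congrArg (fun y => ⟪y, i k'⟫_ℝ) hu'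
      simpa [inner_add_left, hs, hk'] using this
  have h1 : ∀ᶠ ε in 𝓝 (0 : ℝ), ∀ s ∈ Z, Fr (S ε s) 0 ∧ finrank ℝ (S ε s).ker ≤ n :=
    hZ.eventually_forall_of_forall_eventually fun s hs' =>
      ((hS.continuousAt (x := (0, s))).eventually (h0 s hs').1.eventually').mono
        fun z hz => ⟨hz.1, hz.2.trans (h0 s hs').2⟩
  filter_upwards [nhdsWithin_le_nhds h1, self_mem_nhdsWithin] with ε h hε s hs'
  have := (h s hs').1.1.finite_ker
  have hQQ : ∀ u, Q (Q u) = Q u := fun u => hQk _ (hQ u)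
  refine (fr_le ((1 - Q + ε • Q : X₁ →L[ℝ] X₁) : X₁ →ₗ[ℝ] X₁) (fun u hu => ?_)
    fun u _ h3 => ?_).trans (h s hs').2
  · have hu' : T u + ε • c s (i u) = 0 := hu
    show S ε s (u - Q u + ε • Q u) = 0
    rw [← hu']
    simp only [S, add_apply, ContinuousLinearMap.comp_apply,
      smul_apply, sub_apply,
      one_apply_eq_self, map_add, map_sub, map_smul, hQQ, hQ]
    module
  · have h3' : u - Q u + ε • Q u = 0 := h3
    have h4 := congrArg Q h3'
    rw [map_add, map_sub, map_smul, hQQ, sub_self, zero_add, map_zero] at h4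
    have h5 : Q u = 0 := (smul_eq_zero.1 h4).resolve_left hε
    simpa [h5] using h3'

variable {Λ : Type*} [NormedAddCommGroup Λ] [NormedSpace ℝ Λ] {i T : X₁ →L[ℝ] X₀}
  {P₁ J₁ : X₁ →L[ℝ] X₁} {P J : X₀ →L[ℝ] X₀} {e : X₁} {hm : Λ →L[ℝ] X₀ →L[ℝ] X₀}

/-- the operator whose kernel is the eigenspace -/
def So (i T : X₁ →L[ℝ] X₀) (P : X₀ →L[ℝ] X₀) (e : X₁) (hm : Λ →L[ℝ] X₀ →L[ℝ] X₀) (w : Λ)
    (l : ℝ) : X₁ →L[ℝ] X₀ := T + (tt (i e) + hm w - l • P).comp i

theorem So_apply (w : Λ) (l : ℝ) (u : X₁) :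
    So i T P e hm w l u = T u + (⟪i e, i u⟫_ℝ • i e + hm w (i u) - l • P (i u)) := rfl

theorem So_cont : Continuous fun z : Λ × ℝ => So i T P e hm z.1 z.2 :=
  continuous_const.add (((continuous_const.add (hm.continuous.comp continuous_fst)).sub
    (continuous_snd.smul continuous_const)).clm_comp continuous_const)

theorem So_add (w v : Λ) (l t s ε : ℝ) : So i T P e hm (w + (ε * t) • v) (l + ε * s) =
    So i T P e hm w l + (ε • (t • hm v - s • P)).comp i := by
  ext u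
  simp only [So_apply, add_apply, ContinuousLinearMap.comp_apply,
    smul_apply, sub_apply, map_add, map_smul]
  module

variable (D : Dat i T (.id ℝ X₀) P₁ J₁ P J e) (M : Mass P J hm)
include D

theorem PP (x : X₀) : P (P x) = P x := by
  have h := D.PJ (J x)
  rw [D.JJ, map_neg] at h
  exact neg_injective h

theorem So_fr (w : Λ) (l : ℝ) : Fr (So i T P e hm w l) 0 := 
  D.fr.add_compact (D.cpt.clm_comp (tt (i e) + hm w - l • P))

include M

theorem Ph (w : Λ) (x : X₀) : P (hm w x) = hm w x :=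
  ext_inner_right ℝ fun y => by
    have := D.Psym (hm w x) y
    simp only [ContinuousLinearMap.id_apply] at this
    rw [this, M.sym, M.hP, M.sym]

theorem So_sym (w : Λ) (l : ℝ) (u v : X₁) :
    ⟪So i T P e hm w l u, i v⟫_ℝ = ⟪i u, So i T P e hm w l v⟫_ℝ := by
  have h1 := D.sym u v
  have h2 := D.Psym (i u) (i v)
  simp only [ContinuousLinearMap.id_apply] at h1 h2
  simp only [So_apply, inner_add_left, inner_add_right, inner_sub_left, inner_sub_right,
    real_inner_smul_left, real_inner_smul_right, h1, h2, M.sym]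
  rw [real_inner_comm (i e) (i u)]
  ring

theorem So_ker (w : Λ) (l : ℝ) : (So i T P e hm w l).ker = Eig i (Op i T (hm w)) P₁ l := by
  have hPe : P (i e) = 0 := by rw [← D.iP, D.Pe, map_zero]
  have hs : ∀ x y, ⟪P x, y⟫_ℝ = ⟪x, P y⟫_ℝ := D.Psym
  have hn : ‖i e‖ = 1 := D.ne
  ext u
  rw [mem_Eig, Op_apply]
  constructor
  · intro hu
    have hu' : T u + (⟪i e, i u⟫_ℝ • i e + hm w (i u) - l • P (i u)) = 0 := hu
    have h1 := congrArg P hu'
    rw [map_add, map_sub, map_add, map_smul, map_smul, hPe, Ph D M, PP D, map_zero, ← D.TP] at h1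
    have h2 : T (u - P₁ u) + ⟪i e, i u⟫_ℝ • i e = 0 := by
      rw [map_sub]
      linear_combination (norm := module) hu' - h1
    have h3 : ⟪i e, i u⟫_ℝ = 0 := by
      have a := congrArg (fun y => ⟪y, i e⟫_ℝ) h2
      have b : ⟪T (u - P₁ u), i e⟫_ℝ = ⟪i (u - P₁ u), T e⟫_ℝ := D.sym _ _
      simp only [inner_add_left, b] at a
      simpa [D.Te, real_inner_smul_left, hn] using a
    rw [h3, zero_smul, add_zero] at h2
    obtain ⟨s, hs'⟩ := D.frm (u - P₁ u) (D.inj (by
      rw [D.iP, map_sub, map_sub, D.iP, PP D, sub_self, map_zero])) h2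
    have h4 : s = 0 := by
      have a := congrArg (fun y => ⟪i e, i y⟫_ℝ) hs'
      simpa [inner_sub_right, h3, D.iP, ← hs, hPe, real_inner_smul_right, hn] using a.symm
    have h5 : P₁ u = u := by
      rw [h4, zero_smul, sub_eq_zero] at hs'
      exact hs'.symm
    refine ⟨h5, ?_⟩
    rw [h3, ← D.iP, h5] at hu'
    linear_combination (norm := module) hu'
  · rintro ⟨h1, h2⟩
    have h3 : P (i u) = i u := by rw [← D.iP, h1]
    have h4 : ⟪i e, i u⟫_ℝ = 0 := by rw [← h3, ← hs, hPe, inner_zero_left]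
    show T u + (⟪i e, i u⟫_ℝ • i e + hm w (i u) - l • P (i u)) = 0
    rw [h4, h3]
    linear_combination (norm := module) h2

theorem So_P {w : Λ} {l : ℝ} {u : X₁} (hu : So i T P e hm w l u = 0) : P (i u) = i u := by
  have : u ∈ Eig i (Op i T (hm w)) P₁ l := So_ker D M w l ▸ hu
  rw [← D.iP, (mem_Eig.1 this).1]

theorem So_J {w : Λ} {l : ℝ} {u : X₁} (hu : So i T P e hm w l u = 0) :
    So i T P e hm w l (J₁ u) = 0 := by
  have h : u ∈ Eig i (Op i T (hm w)) P₁ l := So_ker D M w l ▸ hu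
  have h' : J₁ u ∈ Eig i (Op i T (hm w)) P₁ l := by
    obtain ⟨-, h2⟩ := mem_Eig.1 h
    refine mem_Eig.2 ⟨D.inj (by rw [D.iP, D.iJ, D.PJ]), ?_⟩
    rw [Op_apply] at h2 ⊢
    rw [D.TJ, D.iJ, M.hJ, ← map_add, h2, map_smul]
  rw [← So_ker D M] at h'
  exact h'

/-- eigenvalues are isolated -/
theorem isol (w : Λ) (l : ℝ) :
    ∀ᶠ ε in 𝓝[≠] (0 : ℝ), finrank ℝ (So i T P e hm w (l + ε)).ker ≤ 0 := by
  have h := pert' D.cpt (So_fr D (hm := hm) w l) (So_sym D M w l) (Z := {()}) isCompact_singleton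
    (c := fun _ => (0 : ℝ) • hm 0 - (1 : ℝ) • P) continuous_const (n := 0) fun _ _ W hW h => by
      have : W = ⊥ := (Submodule.eq_bot_iff _).2 fun k hk => by
        have a := h k hk k (hW hk)
        have b : P (i k) = i k := So_P D M (hW hk)
        simp only [zero_smul, one_smul, zero_sub, neg_apply, b, inner_neg_left,
          neg_eq_zero, inner_self_eq_zero] at a
        exact D.inj (a.trans (map_zero i).symm)
      rw [this, finrank_bot]
  filter_upwards [h] with ε hε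
  have := hε () rfl
  rw [← So_add, smul_zero, add_zero, mul_one] at this
  exact this

/-- a non scalar direction on a kernel of dimension `≥ 3` -/
theorem exists_ns (w : Λ) (l : ℝ) (h3 : 3 ≤ finrank ℝ (So i T P e hm w l).ker) :
    ∃ p : Submodule ℝ Λ, p ≠ ⊤ ∧ ∀ v ∉ p, ∀ s : ℝ, ¬ ∀ k k', So i T P e hm w l k = 0 →
      So i T P e hm w l k' = 0 → ⟪hm v (i k), i k'⟫_ℝ = s * ⟪i k, i k'⟫_ℝ := by
  set K := (So i T P e hm w l).ker with hK
  have hf : FiniteDimensional ℝ K := (So_fr D w l).1.finite_ker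
  have unit : ∀ k ∈ K, k ≠ 0 → ∃ c : ℝ, ‖i (c • k)‖ = 1 := fun k _ h0 => by
    have : ‖i k‖ ≠ 0 := norm_ne_zero_iff.2 fun h => h0 (D.inj (h.trans (map_zero i).symm))
    exact ⟨‖i k‖⁻¹, by rw [map_smul, norm_smul, norm_inv, norm_norm, inv_mul_cancel₀ this]⟩
  obtain ⟨x₀, hx₀, hx0⟩ := Submodule.exists_mem_ne_zero_of_ne_bot (p := K) fun h => by
    rw [h, finrank_bot] at h3
    omega
  obtain ⟨cx, hx⟩ := unit x₀ hx₀ hx0
  have hxK : cx • x₀ ∈ K := K.smul_mem _ hx₀
  set x := cx • x₀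
  let f : K →ₗ[ℝ] ℝ × ℝ := ((innerSL ℝ (i x)).comp i : X₁ →ₗ[ℝ] ℝ).domRestrict K |>.prod
    (((innerSL ℝ (J (i x))).comp i : X₁ →ₗ[ℝ] ℝ).domRestrict K)
  obtain ⟨y₀, hy₀, hy0⟩ := Submodule.exists_mem_ne_zero_of_ne_bot (p := f.ker)
    (LinearMap.ker_ne_bot_of_finrank_lt (by simp; omega))
  have hy1 : ⟪i x, i y₀⟫_ℝ = 0 := congrArg Prod.fst (LinearMap.mem_ker.1 hy₀)
  have hy2 : ⟪J (i x), i y₀⟫_ℝ = 0 := congrArg Prod.snd (LinearMap.mem_ker.1 hy₀)
  obtain ⟨cy, hy⟩ := unit y₀ y₀.2 fun h => hy0 (Subtype.ext h)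
  have hyK : cy • (y₀ : X₁) ∈ K := K.smul_mem _ y₀.2
  have hz1 : ⟪i x, i (cy • (y₀ : X₁))⟫_ℝ = 0 := by
    rw [map_smul i cy, real_inner_smul_right, hy1, mul_zero]
  have hz2 : ⟪i x, J (i (cy • (y₀ : X₁)))⟫_ℝ = 0 := by
    have := D.Jskew (i x) (i (cy • (y₀ : X₁)))
    simp only [ContinuousLinearMap.id_apply] at this
    rw [← neg_eq_zero, ← this, map_smul i cy, real_inner_smul_right, hy2, mul_zero]
  set y := cy • (y₀ : X₁)
  let ev : X₀ → X₀ → Λ →L[ℝ] ℝ := fun a b =>
    (innerSL ℝ b).comp ((ContinuousLinearMap.apply ℝ X₀ a).comp hm)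
  have hev : ∀ a b v, ev a b v = ⟪hm v a, b⟫_ℝ := fun a b v => real_inner_comm _ _
  refine ⟨(ev (i x) (i y)).ker ⊓ (ev (i x) (J (i y))).ker ⊓ (ev (i x) (i x) - ev (i y) (i y)).ker,
    fun h => ?_, fun v hv s h => hv ⟨⟨?_, ?_⟩, ?_⟩⟩
  · obtain ⟨v, hv⟩ := M.ns (i x) (i y) (So_P D M hxK) (So_P D M hyK) hx hy
    obtain ⟨⟨a, b⟩, c⟩ : v ∈ (ev (i x) (i y)).ker ⊓ (ev (i x) (J (i y))).ker ⊓
      (ev (i x) (i x) - ev (i y) (i y)).ker := h ▸ Submodule.mem_top
    have a' : ev (i x) (i y) v = 0 := a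
    have b' : ev (i x) (J (i y)) v = 0 := b
    have c' : ev (i x) (i x) v - ev (i y) (i y) v = 0 := c
    rw [hev] at a' b'
    rw [hev, hev, sub_eq_zero] at c'
    tauto
  · show ev (i x) (i y) v = 0
    rw [hev, h x y hxK hyK, hz1, mul_zero]
  · show ev (i x) (J (i y)) v = 0
    rw [hev, ← D.iJ, h x _ hxK (So_J D M hyK), D.iJ, hz2, mul_zero]
  · show ev (i x) (i x) v - ev (i y) (i y) v = 0
    rw [hev, hev, h x x hxK hxK, h y y hyK hyK, real_inner_self_eq_norm_sq,
      real_inner_self_eq_norm_sq, hx, hy, sub_self]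

/-- the kernel drops in a non scalar direction -/
theorem drop_ns (w v : Λ) (l : ℝ) {m : ℕ} (hm' : finrank ℝ (So i T P e hm w l).ker = m + 1)
    (hv : ∀ s : ℝ, ¬ ∀ k k', So i T P e hm w l k = 0 →
      So i T P e hm w l k' = 0 → ⟪hm v (i k), i k'⟫_ℝ = s * ⟪i k, i k'⟫_ℝ) :
    ∀ᶠ z : ℝ × ℝ in 𝓝 (0, l), z.1 ≠ 0 → finrank ℝ (So i T P e hm (w + z.1 • v) z.2).ker ≤ m := by
  have hf : FiniteDimensional ℝ (So i T P e hm w l).ker := (So_fr D w l).1.finite_ker
  have h := pert' D.cpt (So_fr D (hm := hm) w l) (So_sym D M w l)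
    (isCompact_sphere (0 : ℝ × ℝ) 1) (c := fun z => z.1 • hm v - z.2 • P) (by fun_prop) (n := m)
    fun z hz W hW h => by
      by_contra hlt
      have hE : W = (So i T P e hm w l).ker :=
        Submodule.eq_of_le_of_finrank_le hW (by omega)
      have h' : ∀ k k', So i T P e hm w l k = 0 → So i T P e hm w l k' = 0 →
          z.1 * ⟪hm v (i k), i k'⟫_ℝ = z.2 * ⟪i k, i k'⟫_ℝ := fun k k' hk hk' => by
        have a := h k (hE ▸ hk) k' hk'
        simp only [sub_apply, smul_apply, So_P D M hk,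
          inner_sub_left, real_inner_smul_left] at a
        linarith
      by_cases h1 : z.1 = 0
      · obtain ⟨k, hk, hk0⟩ := Submodule.exists_mem_ne_zero_of_ne_bot
          (p := (So i T P e hm w l).ker) fun h => by
            rw [h, finrank_bot] at hm'
            omega
        have a := h' k k hk hk
        have b : ⟪i k, i k⟫_ℝ ≠ 0 := fun h =>
          hk0 (D.inj ((inner_self_eq_zero.1 h).trans (map_zero i).symm))
        rw [h1, zero_mul, eq_comm, mul_eq_zero] at a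
        have c : z = 0 := Prod.ext h1 (a.resolve_right b)
        simp [c] at hz
      · exact hv (z.2 / z.1) fun k k' hk hk' => by
          have := h' k k' hk hk'
          field_simp
          linarith
  obtain ⟨δ, hδ, hb⟩ := Metric.eventually_nhds_iff_ball.1 (eventually_nhdsWithin_iff.1 h)
  filter_upwards [Metric.ball_mem_nhds ((0 : ℝ), l) hδ] with z hz h0
  set u : ℝ × ℝ := z - (0, l) with hu
  have hu0 : ‖u‖ ≠ 0 := norm_ne_zero_iff.2 fun h => h0 (by simpa [hu] using congrArg Prod.fst h)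
  have := hb ‖u‖ (by simpa [hu, dist_eq_norm] using hz) hu0 (‖u‖⁻¹ • u) (by
    rw [mem_sphere_zero_iff_norm, norm_smul, norm_inv, norm_norm, inv_mul_cancel₀ hu0])
  rw [← So_add] at this
  have e1 : ‖u‖ * (‖u‖⁻¹ • u).1 = z.1 := by
    rw [Prod.smul_fst, smul_eq_mul, mul_inv_cancel_left₀ hu0]; simp [hu]
  have e2 : l + ‖u‖ * (‖u‖⁻¹ • u).2 = z.2 := by
    rw [Prod.smul_snd, smul_eq_mul, mul_inv_cancel_left₀ hu0]; simp [hu]
  rwa [e1, e2] at this

omit M in
theorem usc (w : Λ) (l : ℝ) : ∀ᶠ z : Λ × ℝ in 𝓝 (w, l),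
    finrank ℝ (So i T P e hm z.1 z.2).ker ≤ finrank ℝ (So i T P e hm w l).ker :=
  ((So_cont.continuousAt (x := (w, l))).eventually (So_fr D w l).eventually').mono fun _ h => h.2

omit M in
theorem isOpen_le {I : Set ℝ} (hI : IsCompact I) (m : ℕ) :
    IsOpen {w | ∀ l ∈ I, finrank ℝ (So i T P e hm w l).ker ≤ m} :=
  isOpen_iff_mem_nhds.2 fun w hw => hI.eventually_forall_of_forall_eventually fun l hl =>
    (usc D w l).mono fun _ h => h.trans (hw l hl)

theorem fin_spec (w : Λ) {I : Set ℝ} (hI : IsCompact I) :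
    (I \ {l | finrank ℝ (So i T P e hm w l).ker ≤ 0}).Finite :=
  hI.finite_sdiff_of_mem_codiscreteWithin
    (mem_codiscreteWithin_iff_forall_mem_nhdsNE.2 fun l _ => by
      have h : Tendsto (fun x => x - l) (𝓝[≠] l) (𝓝[≠] 0) :=
        tendsto_nhdsWithin_iff.2 ⟨(((continuous_id.sub continuous_const).tendsto' l 0
          (by simp))).mono_left nhdsWithin_le_nhds,
          eventually_mem_nhdsWithin.mono fun x hx => sub_ne_zero.2 hx⟩
      filter_upwards [h.eventually (isol D M w l)] with x hx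
      rw [add_sub_cancel] at hx
      exact Or.inl hx)

theorem step {I : Set ℝ} (hI : IsCompact I) {m : ℕ} (h2 : 2 ≤ m) (w : Λ)
    (hw : ∀ l ∈ I, finrank ℝ (So i T P e hm w l).ker ≤ m + 1) :
    w ∈ closure {w | ∀ l ∈ I, finrank ℝ (So i T P e hm w l).ker ≤ m} := by
  have hF : {l ∈ I | finrank ℝ (So i T P e hm w l).ker = m + 1}.Finite :=
    (fin_spec D M w hI).subset fun l hl => ⟨hl.1, fun h => by
      have a : finrank ℝ (So i T P e hm w l).ker ≤ 0 := h
      have b := hl.2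
      omega⟩
  have := hF.to_subtype
  choose p hp hp' using fun l : {l ∈ I | finrank ℝ (So i T P e hm w l).ker = m + 1} =>
    exists_ns D M w l.1 (by have := l.2.2; omega)
  obtain ⟨v, hv⟩ := Submodule.exists_forall_notMem_of_forall_ne_top p hp
  have h1 : ∀ᶠ t in 𝓝 (0 : ℝ), ∀ l ∈ I,
      t ≠ 0 → finrank ℝ (So i T P e hm (w + t • v) l).ker ≤ m :=
    hI.eventually_forall_of_forall_eventually fun l hl => by
      by_cases h : finrank ℝ (So i T P e hm w l).ker = m + 1
      · exact drop_ns D M w v l h (hp' ⟨l, hl, h⟩ v (hv _))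
      · have hc : Continuous fun z : ℝ × ℝ => (w + z.1 • v, z.2) := by fun_prop
        have := (hc.tendsto' (0, l) (w, l) (by simp)).eventually (usc D (hm := hm) w l)
        have b := hw l hl
        exact this.mono fun z hz _ => by
          have a : finrank ℝ (So i T P e hm (w + z.1 • v) z.2).ker ≤ _ := hz
          omega
  have hc : Continuous fun t : ℝ => w + t • v := by fun_prop
  refine mem_closure_of_tendsto (b := 𝓝[≠] (0 : ℝ)) (f := fun t => w + t • v)
    ((hc.tendsto' 0 w (by simp)).mono_left nhdsWithin_le_nhds) ?_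
  filter_upwards [nhdsWithin_le_nhds h1, self_mem_nhdsWithin] with t ht h0 l hl using ht l hl h0

theorem dense_two {I : Set ℝ} (hI : IsCompact I) :
    Dense {w | ∀ l ∈ I, finrank ℝ (So i T P e hm w l).ker ≤ 2} := by
  have key : ∀ n : ℕ, {w | ∀ l ∈ I, finrank ℝ (So i T P e hm w l).ker ≤ 2 + n} ⊆
      closure {w | ∀ l ∈ I, finrank ℝ (So i T P e hm w l).ker ≤ 2} := fun n => by
    induction n with
    | zero => exact subset_closure
    | succ n ih =>
      exact fun w hw => closure_minimal ih isClosed_closure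
        (step D M hI (Nat.le_add_right 2 n) w hw)
  intro w
  obtain ⟨n, hn⟩ := ((fin_spec D M w hI).image
    fun l => finrank ℝ (So i T P e hm w l).ker).bddAbove
  refine key n fun l hl => ?_
  by_cases h : finrank ℝ (So i T P e hm w l).ker ≤ 0
  · omega
  · exact (hn ⟨l, ⟨hl, h⟩, rfl⟩).trans (Nat.le_add_left _ _)

theorem dense_zero (l : ℝ) :
    Dense {w | ∀ l' ∈ ({l} : Set ℝ), finrank ℝ (So i T P e hm w l').ker ≤ 0} := fun w => by
  obtain ⟨v, hv⟩ := M.one
  have hc : Continuous fun t : ℝ => w - t • v := by fun_prop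
  refine mem_closure_of_tendsto (b := 𝓝[≠] (0 : ℝ)) (f := fun t => w - t • v)
    ((hc.tendsto' 0 w (by simp)).mono_left nhdsWithin_le_nhds) ?_
  filter_upwards [isol D M w l] with t ht l' hl'
  have : So i T P e hm (w - t • v) l' = So i T P e hm w (l + t) := by
    ext u
    simp only [So_apply, map_sub, map_smul, hv, sub_apply,
      smul_apply, mem_singleton_iff.1 hl']
    module
  rwa [this]

theorem notMem_spec (w : Λ) (l : ℝ) : l ∉ Spec i (Op i T (hm w)) P₁ ↔
    finrank ℝ (So i T P e hm w l).ker ≤ 0 := by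
  have hf : FiniteDimensional ℝ (So i T P e hm w l).ker := (So_fr D w l).1.finite_ker
  rw [Nat.le_zero, Submodule.finrank_eq_zero, So_ker D M]
  exact not_not

/-- simple spectrum in a compact window, finitely many forbidden values: open and dense. -/
theorem spl_gen {I : Set ℝ} (hI : IsCompact I) (l : ℝ) :
    IsOpen {w | Simple i (Op i T (hm w)) P₁ I ∧ l ∉ Spec i (Op i T (hm w)) P₁} ∧
    Dense {w | Simple i (Op i T (hm w)) P₁ I ∧ l ∉ Spec i (Op i T (hm w)) P₁} := by
  have : {w | Simple i (Op i T (hm w)) P₁ I ∧ l ∉ Spec i (Op i T (hm w)) P₁} =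
      {w | ∀ l ∈ I, finrank ℝ (So i T P e hm w l).ker ≤ 2} ∩
      {w | ∀ l' ∈ ({l} : Set ℝ), finrank ℝ (So i T P e hm w l').ker ≤ 0} := by
    ext w
    simp only [Simple, notMem_spec D M, mem_ofPred_eq, mem_inter_iff, mem_singleton_iff, forall_eq]
    exact and_congr_left' (forall₂_congr fun l _ => by rw [So_ker D M])
  rw [this]
  exact ⟨(isOpen_le D hI 2).inter (isOpen_le D isCompact_singleton 0),
    (dense_two D M hI).inter_of_isOpen_left (dense_zero D M l) (isOpen_le D hI 2)⟩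

omit D M in
/-- **SPL** -/
theorem spl : SplStmt := fun D M _ => spl_gen D M isCompact_Icc 0

end Crest.Agent.X212.Rad94
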