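import Crest.Agent.X212.Rad94.Defs
import Crest.Agent.X212.Wz78.Lich

/-!
# Row 212, AN-S (helper94): the leaves of `OneStmt`, `KerStmt`, `HdgStmt`
-/

set_option autoImplicit false
set_option linter.unusedSectionVars false
noncomputable section
open scoped Manifold ContDiff Topology InnerProductSpace
open MeasureTheory Set Function Filter Real

namespace Crest.Agent.X212.Rad94
open An Cyf70 Sw Sw.En3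
open M (Mf pm)

variable {κ lam ν : Type} [Fintype κ] [Fintype lam] [Fintype ν] [DecidableEq ν]
  {X : Mf 4} {nc k : ℕ}

section bg
variable (b : Bg X.I X.M κ lam ν nc) (g : Gm X κ lam Bool)

/-- admissible connections and test spinors -/
structure Nr (a₀ : Fo X κ) (δ : ℝ) (a : Fo X κ) (η' : Fin nc → R4 → Eu ν) : Prop where
  a1 : A1 b a
  sup : ∀ x, ‖vc a x - vc a₀ x‖ ≤ δ
  η : ∀ j, b.Tst (b.ct j).Ξ (η' j) ∧ RB b g j (η' j) δ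

/-- solutions of the radial Dirac equation with levels near `l` -/
structure Rs (β : Bool → ℝ → ℝ) (l : Bool → ℝ) (η : ℝ) (a : Fo X κ) (η' : Fin nc → R4 → Eu ν)
    (u : X.M → Eu ν) : Prop where
  sc : Sc b.pp u
  eq : Dz b g a (cm g β u) u = 0
  row : rw b a η' u = 0
  lv : ∀ s, ∀ᶠ τ in atTop, |β s (g.n2 s u τ) - l s| ≤ η

/-- `Rp.Out` at function level -/
structure Out (a₀ : Fo X κ) (β : Bool → ℝ → ℝ) (l : Bool → ℝ) (ε η δ lo up T C : ℝ) : Prop where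
  ex : ∀ a η', Nr b g a₀ δ a η' → ∃ u, Rs b g β l η a η' u
  bnd : ∀ a η' u, Nr b g a₀ δ a η' → Rs b g β l η a η' u → g.q0 u ≤ up ∧
    ∀ s, (∀ τ ≥ 0, g.n2 s u τ ∈ Icc lo up) ∧ ∀ τ ≥ T, |β s (g.n2 s u τ) - l s| ≤ η / 2
  lip : ∀ a η₁ a' η₁' u u', Nr b g a₀ δ a η₁ → Nr b g a₀ δ a' η₁' → Rs b g β l η a η₁ u →
    Rs b g β l η a' η₁' u' → g.Fi (fun _ => ε) (Dz b g a (cm g β u') u') → ∃ z : ℂ, ‖z‖ = 1 ∧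
      g.Q (fun _ => ε) (u' - fun x => cs b.m.J z (u x)) ≤
        C * (g.Q (fun _ => ε) (Dz b g a (cm g β u') u') + ‖rw b a η₁ u'‖ ^ 2)

/-- pointwise algebra -/
structure Alg : Prop where
  dz : ∃ C, ∀ a a' c u x, S1 b a → S1 b a' → Sc b.pp u →
    ‖Dz b g a c u x - Dz b g a' c u x‖ ≤ C * (‖vc (a - a') x‖ * ‖u x‖)
  bil : ∃ B : X.M → Fm (Option κ) ℝ →L[ℝ] Eu ν →L[ℝ] Eu ν, b.F.Cb B ∧ ∀ a a' u x, S1 b a → S1 b a' →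
    Sc b.pp u → b.eD ⟨a, u⟩ x = b.eD ⟨a', u⟩ x + B x (vc (a - a') x) (u x)
  qd : ∃ B : X.M → Eu ν →L[ℝ] Eu ν →L[ℝ] F2 κ, b.F.Cb B ∧ ∀ x u v, b.p2 x (b.qd x u v) = B x u v
  rot : ∀ x (z : ℂ) u, ‖z‖ = 1 → b.pp x u = u →
    b.p2 x (b.qd x (cs b.m.J z u) (cs b.m.J z u)) = b.p2 x (b.qd x u u) ∧ ‖cs b.m.J z u‖ = ‖u‖
  d1 : ∀ a a' x, S1 b a → S1 b a' → d1 b (a - a') x = d1 b a x - d1 b a' x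
  a1 : ∀ a a', A1 b a → A1 b a' → A1 b (a - a') ∧ A1 b (a + a')
  vc : ∀ a, A1 b a ↔ b.F.Cb (vc a) ∧ ∀ x, b.p1 x (vc a x) = vc a x
  lη : ∀ j η η' a u, b.Tst (b.ct j).Ξ η → b.Tst (b.ct j).Ξ η' → S1 b a → Sm X.I u →
    b.lη j (η - η') ⟨a, u⟩ = b.lη j η ⟨a, u⟩ - b.lη j η' ⟨a, u⟩
  exp : ∀ (f : X.M → ℝ) a u, Sm X.I f → (∀ i, b.F.Cb (b.F.D i f)) → b.F.Cb u →
    Gau X.I (fun x => Complex.exp (f x * Complex.I)) ∧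
    (b.act (fun x => Complex.exp (f x * Complex.I)) ⟨a, u⟩).a = (a - fun i => b.F.D i f) ∧
      b.F.Cb (b.act (fun x => Complex.exp (f x * Complex.I)) ⟨a, u⟩).Φ

end bg

variable {e : Bool → En3 κ lam ν} {Z : Pz X nc e} {z : Two Z} {ϖ : Fin k → X.M → F2 κ}
  {φ : (Fin k → ℝ) → Fin k → ℝ} {Dm : Set (Fin k → ℝ)} {w : ℝ} {β : Bool → ℝ → ℝ} {W : Type}

/-- the Dirac operator of `a₀` as an operator with cylindrical ends -/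
structure Two.Dir (z : Two Z) (a₀ : Fo X κ) (L : Lop z.gm (Eu ν) (Eu ν)) : Prop where
  ok : L.OK
  p : L.A.p = Z.bg.pp
  q : L.A.q = Z.bg.pm
  σ : ∀ i x, L.A.σ i x = Z.bg.m.ρ i x * Z.bg.pp x
  app : ∀ u, Sc Z.bg.pp u → L.A.app Z.bg.F u = Z.bg.eD ⟨a₀, u⟩
  Ep : ∀ s y, (L.E s).p y = (e s).cyl.pp (y, 0) ∧ (L.E s).q y = (e s).cyl.pm (y, 0) ∧
    ∀ i, (L.E s).σ i y = (e s).m.ρ i y * (e s).cyl.pp (y, 0)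
  ne : ∀ s, ∃ y, (L.E s).p y ≠ 0
  Eapp : ∀ s (u : Sec (e s).Y.I (L.E s).p), (sop (L.E s)).app (e s).D.F u.1 = A0 (e s) u.1
  sp : ∀ s l, l ∈ L.Spec s ↔ Ev (e s) l
  mult : ∀ s, Smp (e s) → ∀ l ≥ 0, Ev (e s) l → L.mult s l = 2
  gap : ∀ s l γ, L.Gap s l γ → Gp (e s) l γ
  ev : ∀ l, L.Off l → Even (L.ix l)
  EE : ∀ s s', e s = e s' → HEq (L.E s) (L.E s')

namespace Two.Lv
variable (L : z.Lv ϖ φ Dm w β W)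

/-- the equations are unfolded -/
structure Unf (a₀ : Fo X κ) : Prop where
  adm : ∀ t ∈ Dm, ∀ c, (L.P t).bg.Adm c ↔ S1 Z.bg c.a ∧ Sc Z.bg.pp c.Φ
  sol : ∀ q, ∀ t ∈ Dm, ∀ c, (L.P t).bg.Adm c →
    ((L.P t).bg.Sol ((L.P t).pt q) c ↔ L.Eq a₀ q t c)
  act : ∀ q, ∀ t ∈ Dm, ∀ c u, (L.P t).bg.Adm c → Gau X.I u → (L.P t).bg.act u c = Z.bg.act u c ∧
    L.tau q t (Z.bg.act u c) = L.tau q t c ∧ L.rhs q t (Z.bg.act u c) = L.rhs q t c ∧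
    (∀ x, ‖(Z.bg.act u c).Φ x‖ = ‖c.Φ x‖) ∧
    ((L.P t).bg.Sol ((L.P t).pt q) c → (L.P t).bg.Sol ((L.P t).pt q) (Z.bg.act u c))
  rot : ∀ (c : Cfg X.M κ ν) (ζ : ℂ), ‖ζ‖ = 1 → Gau X.I (fun _ : X.M => ζ) ∧
    Z.bg.act (fun _ => ζ) c = ⟨c.a, fun x => cs Z.bg.m.J ζ (c.Φ x)⟩
  sd : ∀ q, ∀ t ∈ Dm, ∀ c : Cfg X.M κ ν, A1 Z.bg c.a → Sc Z.bg.pp c.Φ → Z.bg.F.Cb c.Φ →
    SD Z.bg (L.tau q t c) ∧ SD Z.bg (L.rhs q t c)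
  lim : ∀ x, ∀ t ∈ Dm, ∀ c, (∀ s, Crit (x s s)) → (L.P t).As x c → A1 Z.bg c.a ∧ Z.bg.F.Cb c.Φ ∧
    ∀ s, Tendsto (z.gm.n2 s c.Φ) atTop (𝓝 (nm (x s s)))
  cr : ∀ x, ∀ t ∈ Dm, (∀ s, Crit (x s s)) → (L.P t).Cr x ∧ ∀ s s', (L.P t).Inf s s' ↔ s' = s

/-- bounds of the terms -/
structure Trm : Prop where
  b0 : ∀ δ > 0, EvQ fun q => ∀ t ∈ Dm, ∀ c x, ‖L.tau q t c x‖ ≤ δ
  bk : ∀ δ > 0, ∀ j M, EvQ fun q => ∀ t ∈ Dm, ∀ c : Cfg X.M κ ν, S1 Z.bg c.a → Sc Z.bg.pp c.Φ →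
    z.gm.Ul 1 (vc c.a) M → z.gm.Ul 1 c.Φ M → Z.bg.F.CB j (L.tau q t c) δ
  all : ∀ q j M, ∃ C, ∀ t ∈ Dm, ∀ c : Cfg X.M κ ν, S1 Z.bg c.a → Sc Z.bg.pp c.Φ →
    z.gm.Ul 1 (vc c.a) M → z.gm.Ul 1 c.Φ M → Z.bg.F.CB j (L.tau q t c) C
  lip : ∀ δ > 0, ∀ M, ∀ ε ∈ Ioc (0 : ℝ) 1, EvQ fun q => ∀ t ∈ Dm, ∀ t' ∈ Dm,
    ∀ c c' : Cfg X.M κ ν, S1 Z.bg c.a → Sc Z.bg.pp c.Φ → S1 Z.bg c'.a → Sc Z.bg.pp c'.Φ →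
    Z.bg.F.CB 1 (vc c.a) M → Z.bg.F.CB 1 c.Φ M → Z.bg.F.CB 1 (vc c'.a) M → Z.bg.F.CB 1 c'.Φ M →
    z.gm.Q (fun _ => ε) (L.tau q t c - L.tau q t' c') ≤ δ * (z.gm.Q (fun _ => ε) (vc (c.a - c'.a)) +
      z.gm.Q (fun _ => ε) (c.Φ - c'.Φ) + ‖t - t'‖ ^ 2)
  et : ∀ δ > 0, EvQ fun q => ∀ t ∈ Dm, ∀ j, Z.bg.Tst (Z.bg.ct j).Ξ (L.et q t j) ∧
    RB Z.bg z.gm j (L.et q t j) δ ∧
      ∀ t' ∈ Dm, RB Z.bg z.gm j (L.et q t j - L.et q t' j) (δ * ‖t - t'‖)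

/-- bounded solutions whose levels stay near `l` converge -/
def End (l : Bool → ℝ) (η M lo : ℝ) : Prop := EvQ fun q => ∀ x, (∀ s, Crit (x s s)) →
  L.Unq l η x → ∀ t ∈ Dm, ∀ c, (L.P t).bg.Sol ((L.P t).pt q) c → A1 Z.bg c.a → Z.bg.F.Cb c.Φ →
    (∀ p, ‖c.Φ p‖ ≤ M) → (∀ s, ∀ᶠ τ in atTop, |β s (z.gm.n2 s c.Φ τ) - l s| ≤ η ∧
      lo ≤ z.gm.n2 s c.Φ τ) → ∃ u, Gau X.I u ∧ (L.P t).Sol x q ((L.P t).bg.act u c)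

end Two.Lv

/-- the scalar curvature dominates the mass and the forcing form `om + f` -/
def Psc (b : Bg X.I X.M κ lam ν nc) (f : X.M → F2 κ) (σ : ℝ) : Prop := ∀ x,
  σ + ‖b.ms x‖ ^ 2 + ‖b.om x + f x‖ / 2 +
    ‖b.F.D none b.ms x + (b.A none x * b.ms x - b.ms x * b.A none x)‖ / 2 ≤ Wz78.scal X.I b.F.e b.F.c b.F.Gam x / 8

variable (κ lam ν)

/-- LEAF PSC: solutions on a cylinder of positive scalar curvature are bounded -/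
def PscStmt : Prop := ∀ (X : Mf 4) (nc k : ℕ) (e₀ : En3 κ lam ν) (Z : Pz X nc fun _ : Bool => e₀)
  (z : Two Z) (ϖ : Fin k → X.M → F2 κ) φ Dm K, z.OK ϖ → z.Cyl K → ∀ σ > 0,
    (∀ t ∈ Dm, Psc Z.bg (fun x => ∑ i, φ t i • ϖ i x) σ) → ∀ β : Bool → ℝ → ℝ,
    (∀ s, ContDiff ℝ ∞ (β s) ∧ ∀ r, 1 ≤ r → β s r = 0) → ∃ C, ∀ w ∈ Ioc (0 : ℝ) 1,
      ∀ (W : Type) (L : z.Lv ϖ φ Dm w β W), EvQ fun q => ∀ x,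
        (∀ s, Crit (x s s) ∧ nm (x s s) ≤ 1) → L.Bd C x q

/-- LEAF GM: the geometry is good, pointwise algebra -/
def AlgStmt : Prop := ∀ (X : Mf 4) (nc : ℕ) (e : Bool → En3 κ lam ν) (Z : Pz X nc e) (z : Two Z),
  Z.OK → z.gm.OK ∧ Alg Z.bg z.gm

/-- LEAF DIR -/
def DirStmt : Prop := ∀ (X : Mf 4) (nc : ℕ) (e : Bool → En3 κ lam ν) (Z : Pz X nc e) (z : Two Z) a₀,
  Z.OK → A1 Z.bg a₀ → (∀ s, ∀ δ > 0, ∃ T, ∀ τ ≥ T, ∀ y, ‖vc a₀ (z.gm.pt s τ y)‖ ≤ δ) →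
    ∃ L, z.Dir a₀ L

/-- LEAF CUT: bounds of the cut rows -/
def RbStmt : Prop := ∀ (X : Mf 4) (nc k : ℕ) (e : Bool → En3 κ lam ν) (Z : Pz X nc e) (z : Two Z)
  (ϖ : Fin k → X.M → F2 κ), z.OK ϖ → ∀ j (R : ℝ), ∃ C, ∀ η m, Z.bg.Tst (Z.bg.ct j).Ξ η →
    (∀ y, R < ‖y‖ → η y = 0) → (∀ y, ‖η y‖ ≤ m) → RB Z.bg z.gm j η (C * m) ∧
      ∀ a, S1 Z.bg a → z.gm.Row (fun u => Z.bg.lη j η ⟨a, u⟩) ((C * m) ^ 2) ∧ ∀ (ζ : ℂ) u,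
        Sm X.I u → Z.bg.lη j η ⟨a, fun x => cs Z.bg.m.J ζ (u x)⟩ = ζ * Z.bg.lη j η ⟨a, u⟩

/-- LEAF AX (from `AbsStmt`, DIR, CUT, GM) -/
def OutStmt : Prop := ∀ (X : Mf 4) (nc k : ℕ) (e : Bool → En3 κ lam ν) (Z : Pz X nc e) (z : Two Z)
  (ϖ : Fin k → X.M → F2 κ) a₀ l, z.OK ϖ → Ref Z.bg z.gm a₀ → z.KerOK a₀ l → ∀ β : Bool → ℝ → ℝ,
    (∀ s, Prf (β s) (l s)) → ∃ ε₁ > 0, ∀ ε ∈ Ioc 0 ε₁, ∃ η₀ > 0, ∀ η ∈ Ioc 0 η₀,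
      ∃ δ > 0, ∃ lo > 0, ∃ up T C, Out Z.bg z.gm a₀ β l ε η δ lo up T C

/-- LEAF UNF -/
def UnfStmt : Prop := ∀ (X : Mf 4) (nc k : ℕ) (e : Bool → En3 κ lam ν) (Z : Pz X nc e) (z : Two Z)
  (ϖ : Fin k → X.M → F2 κ) φ Dm w β W (L : z.Lv ϖ φ Dm w β W) a₀, z.OK ϖ → Ref Z.bg z.gm a₀ → L.Unf a₀

/-- LEAF TRM (from CUT, UL, DL) -/
def TrmStmt : Prop := ∀ (X : Mf 4) (nc k : ℕ) (e : Bool → En3 κ lam ν) (Z : Pz X nc e) (z : Two Z)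
  (ϖ : Fin k → X.M → F2 κ) φ Dm w β W (L : z.Lv ϖ φ Dm w β W), z.OK ϖ → L.Trm

/-- LEAF END (from PB, MONO, WIN, DEC) -/
def EndStmt : Prop := ∀ (X : Mf 4) (nc k : ℕ) (e : Bool → En3 κ lam ν) (Z : Pz X nc e) (z : Two Z)
  (ϖ : Fin k → X.M → F2 κ) φ Dm w β W (L : z.Lv ϖ φ Dm w β W), z.OK ϖ → ∀ l η M, ∀ lo > 0, L.End l η M lo

/-- LEAF REG (from UL, DIR, GM): bootstraps -/
structure RegStmt : Prop where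
  /-- the connection is regular -/
  hi : ∀ (X : Mf 4) (nc : ℕ) (e : Bool → En3 κ lam ν) (Z : Pz X nc e) (z : Two Z), Z.OK →
    ∀ β : Bool → ℝ → ℝ, (∀ s, ContDiff ℝ ∞ (β s)) → ∀ j, 7 ≤ j → ∀ M, ∃ C, ∀ a u, A1 Z.bg a →
      z.gm.Ul j (vc a) M → Sc Z.bg.pp u → Dz Z.bg z.gm a (cm z.gm β u) u = 0 → z.gm.q0 u ≤ M →
      (∀ s τ, 0 ≤ τ → z.gm.n2 s u τ ≤ M) → z.gm.Ul (j + 1) u C
  /-- the spinor is bounded -/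
  lo : ∀ (X : Mf 4) (nc k : ℕ) (e : Bool → En3 κ lam ν) (Z : Pz X nc e) (z : Two Z)
    (ϖ : Fin k → X.M → F2 κ) a₀ ε G S, Z.OK → A1 Z.bg a₀ → Hdg Z.bg z.gm ϖ ε G S →
    ∀ β : Bool → ℝ → ℝ, (∀ s, ContDiff ℝ ∞ (β s)) → ∀ C₀, ∀ δ > 0, ∃ M, ∃ δ' > 0, ∀ w ∈ Icc 0 δ',
      ∀ a u (τ f : X.M → F2 κ), A1 Z.bg a → Sc Z.bg.pp u → Z.bg.F.Cb u → (∀ x, ‖u x‖ ≤ C₀) →
      Dz Z.bg z.gm a (cm z.gm β u) u = 0 → SD Z.bg τ → SD Z.bg f → (∀ x, ‖τ x‖ ≤ δ') →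
      (z.gm.Ul 1 (vc a) M → z.gm.Ul 1 u M → Z.bg.F.CB 7 τ δ') →
      (∀ x, f x = w • Z.bg.p2 x (Z.bg.qd x (u x) (u x)) + τ x) → a - a₀ = G f →
      z.gm.Ul 7 f δ

/-- LEAF GENK: generic masses kill the kernels of index at most zero -/
def GenkStmt : Prop := ∀ (X : Mf 4) (nc k : ℕ) (e : Bool → En3 κ lam ν) (Z : Pz X nc e) (z : Two Z)
  (ϖ : Fin k → X.M → F2 κ) a₀ L (O : Set X.M), z.OK ϖ → A1 Z.bg a₀ → z.Dir a₀ L → z.Reg O →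
    ∀ 𝒮 : Set ((Bool → ℝ) × (Bool → ℝ)), 𝒮.Countable →
    (∀ p ∈ 𝒮, L.Off (Lop.wt z.gm p.1 p.2) ∧ L.ix (Lop.wt z.gm p.1 p.2) ≤ 2 * nc) → ∀ δ > 0,
    ∃ m, Mass Z.bg O δ m ∧ ∀ p ∈ 𝒮, ∀ u, Kr (mas Z.bg m) z.gm a₀ 0 p.1 p.2 u → u = 0

/-- LEAF UCP -/
def UcpStmt : Prop := ∀ (X : Mf 4) (A : Type) [Fintype A] (g : Gm X κ lam A) (V W : Type)
  [NormedAddCommGroup V] [InnerProductSpace ℝ V] [FiniteDimensional ℝ V] [NormedAddCommGroup W]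
  [InnerProductSpace ℝ W] [FiniteDimensional ℝ W] (P : Op X.M (Option κ) V W), g.OK →
  (∃ C, P.Good g.F C) → P.Cliff g.F → ∀ u, Sc P.p u → P.app g.F u = 0 → ∀ O, IsOpen O → O.Nonempty →
    (∀ x ∈ O, u x = 0) → u = 0

/-- LEAF CLO -/
def CloStmt : Prop := ∀ (X : Mf 4) (nc k : ℕ) (e : Bool → En3 κ lam ν) (Z : Pz X nc e) (z : Two Z)
  (η : Fin k → X.M → F2 κ), Z.OK → (∀ i, Cc Z.bg (η i)) →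
    (∀ i s x, -1 < z.gm.ht s x → Z.bg.p2 x (η i x) = 0) →
    (∀ γ, S1 Z.bg γ → d1 Z.bg γ = 0 → ∃ f, Sm X.I f ∧ ∀ i, γ i = Z.bg.F.D i f) →
    (∀ s : Fin k → ℝ, s ≠ 0 → 0 < wd Z.bg (∑ i, s i • η i) (∑ i, s i • η i)) →
    Clo Z.bg fun i x => Z.bg.p2 x (η i x)

/-- LEAF COK: decaying self-dual harmonic forms -/
def CokStmt : Prop := ∀ (X : Mf 4) (nc k : ℕ) (e : Bool → En3 κ lam ν) (Z : Pz X nc e) (z : Two Z)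
  (η : Fin k → X.M → F2 κ), Z.OK → (∀ i, Cc Z.bg (η i)) →
    (∀ η', Cc Z.bg η' → (∀ i, wd Z.bg η' (η i) = 0) → wd Z.bg η' η' ≤ 0) →
    ∀ f, SD Z.bg f → (∃ ε > 0, ∀ v : List (Option κ), z.gm.Fi (fun _ => -ε) (Z.bg.F.Dw v f)) →
      (∀ a, S1 Z.bg a → (∀ i, HasCompactSupport (a i)) → wd Z.bg (d1 Z.bg a) f = 0) →
      (∀ i, wd Z.bg f (η i) = 0) → f = 0

end Crest.Agent.X212.Rad94
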