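import Crest.Agent.X212.Rad94.Gen

/-! Barriers for the frequency of `φ' = -A φ + ρ`, `|ρ| ≤ η |φ|`, and exact rates. -/

set_option autoImplicit false
set_option linter.unusedSectionVars false

noncomputable section

namespace Crest.Agent.X212.Rad94

open Set Filter Topology Function Module Real
open scoped InnerProductSpace
open Fred93 (Fr)
open Crt72 (IsPj)

variable {E : Type*} [NormedAddCommGroup E] [InnerProductSpace ℝ E]

/-- `φ' = -ψ + ρ`, where `ψ = A φ`, `A` symmetric, `|ρ| ≤ η |φ|` -/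
structure Fl (φ ψ ρ : ℝ → E) (η : ℝ) (s : Set ℝ) : Prop where
  d1 : ∀ t ∈ s, HasDerivAt φ (-ψ t + ρ t) t
  d2 : ∀ t ∈ s, HasDerivAt (fun t => ⟪ψ t, φ t⟫_ℝ) (2 * ⟪ψ t, -ψ t + ρ t⟫_ℝ) t
  sm : ∀ t ∈ s, ‖ρ t‖ ≤ η * ‖φ t‖

/-- `ν` has distance `≥ δ` from the spectrum -/
def Gap (φ ψ : ℝ → E) (δ ν : ℝ) (s : Set ℝ) : Prop := ∀ t ∈ s, δ * ‖φ t‖ ≤ ‖ψ t - ν • φ t‖

/-- `(N - ν) |φ|²` -/
def hh (φ ψ : ℝ → E) (ν t : ℝ) : ℝ := ⟪ψ t, φ t⟫_ℝ - ν * ‖φ t‖ ^ 2

/-- not eventually larger than `c e^{-μ t}` -/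
def Big (φ : ℝ → E) (μ : ℝ) : Prop := ∀ c > 0, ∃ᶠ t in atTop, ‖φ t‖ ≤ c * exp (-(μ * t))

variable {φ ψ ρ : ℝ → E} {η δ ν a b : ℝ} {s s' : Set ℝ}

theorem Gap.mono (h : Gap φ ψ δ ν s) (hs : s' ⊆ s) : Gap φ ψ δ ν s' := fun t ht => h t (hs ht)

theorem hh_mono {ν' t : ℝ} (h : ν ≤ ν') : hh φ ψ ν' t ≤ hh φ ψ ν t :=
  sub_le_sub_left (mul_le_mul_of_nonneg_right h (sq_nonneg _)) _

theorem anti_of {f f' : ℝ → ℝ} (hab : a ≤ b) (hd : ∀ t ∈ Icc a b, HasDerivAt f (f' t) t)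
    (h : ∀ t ∈ Icc a b, f' t ≤ 0) : f b ≤ f a :=
  antitoneOn_of_hasDerivWithinAt_nonpos (convex_Icc a b)
    (fun t ht => (hd t ht).continuousAt.continuousWithinAt)
    (fun t ht => (hd t (interior_subset ht)).hasDerivWithinAt) (fun t ht => h t (interior_subset ht))
    (left_mem_Icc.2 hab) (right_mem_Icc.2 hab) hab

theorem big_of_int {μ T : ℝ}
    (h : MeasureTheory.IntegrableOn (fun t => (exp (μ * t) * ‖φ t‖) ^ 2) (Ioi T)) : Big φ μ := by
  intro c hc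
  by_contra hn
  obtain ⟨S, hS⟩ := eventually_atTop.1 (not_frequently.1 hn)
  have h1 : MeasureTheory.IntegrableOn (fun _ : ℝ => c ^ 2) (Ioi (max S T)) := by
    refine (h.mono_set (Ioi_subset_Ioi (le_max_right S T))).mono' (by fun_prop) ?_
    refine (MeasureTheory.ae_restrict_iff' measurableSet_Ioi).2 (.of_forall fun t ht => ?_)
    have := not_le.1 (hS t ((le_max_left S T).trans (le_of_lt ht)))
    rw [norm_of_nonneg (sq_nonneg c)]
    refine pow_le_pow_left₀ hc.le ?_ 2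
    have e := mul_le_mul_of_nonneg_left this.le (exp_pos (μ * t)).le
    rwa [mul_left_comm, ← exp_add, add_neg_cancel, exp_zero, mul_one] at e
  simp [hc.ne'] at h1

namespace Fl
variable (h : Fl φ ψ ρ η s)
include h

theorem mono (hs : s' ⊆ s) : Fl φ ψ ρ η s' :=
  ⟨fun t ht => h.d1 t (hs ht), fun t ht => h.d2 t (hs ht), fun t ht => h.sm t (hs ht)⟩

/-- time reversal -/
theorem rev : Fl (fun t => φ (-t)) (fun t => -ψ (-t)) (fun t => -ρ (-t)) η {t | -t ∈ s} where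
  d1 t ht := ((h.d1 _ ht).scomp t (hasDerivAt_neg t)).congr_deriv (by simp [add_comm])
  d2 t ht := by
    have := ((h.d2 _ ht).scomp t (hasDerivAt_neg t)).neg
    simp only [inner_neg_left]
    refine this.congr_deriv ?_
    simp only [neg_neg, inner_add_right, inner_neg_right, smul_eq_mul]
    ring
  sm t ht := by simpa using h.sm _ ht

theorem dn {t : ℝ} (ht : t ∈ s) :
    HasDerivAt (fun t => ‖φ t‖ ^ 2) (2 * (⟪φ t, ρ t⟫_ℝ - ⟪ψ t, φ t⟫_ℝ)) t :=
  (h.d1 t ht).norm_sq.congr_deriv (by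
    rw [inner_add_right, inner_neg_right, real_inner_comm (ψ t)]; ring)

theorem abs_le' {t : ℝ} (ht : t ∈ s) : |⟪φ t, ρ t⟫_ℝ| ≤ η * ‖φ t‖ ^ 2 :=
  (abs_real_inner_le_norm _ _).trans (by nlinarith [h.sm t ht, norm_nonneg (φ t)])

end Fl

namespace Fl
variable (h : Fl φ ψ ρ η (Icc a b)) (hab : a ≤ b)
include h hab

/-- a moving barrier -/
theorem bar' {n n' P : ℝ → ℝ} (hη : η ≤ δ) (hn : ∀ t ∈ Icc a b, HasDerivAt n (n' t) t)
    (hP : ∀ t ∈ Icc a b, HasDerivAt P (n t) t)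
    (hg : ∀ t ∈ Icc a b, δ * ‖φ t‖ ≤ ‖ψ t - n t • φ t‖)
    (hv : ∀ t ∈ Icc a b, -n' t ≤ 2 * δ * (δ - η)) (h0 : hh φ ψ (n a) a ≤ 0) :
    hh φ ψ (n b) b ≤ 0 := by
  have := anti_of (f := fun t => hh φ ψ (n t) t * exp (2 * P t)) hab
    (fun t ht => ((h.d2 t ht).sub ((hn t ht).mul (h.dn ht))).mul ((hP t ht).const_mul 2).exp)
    fun t ht => by
      have a1 := real_inner_le_norm (ψ t - n t • φ t) (ρ t)
      have a2 := hg t ht
      have a3 := h.sm t ht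
      have a4 := hv t ht
      have a5 : ‖ψ t - n t • φ t‖ ^ 2 =
          ⟪ψ t, ψ t⟫_ℝ - 2 * n t * ⟪ψ t, φ t⟫_ℝ + n t ^ 2 * ‖φ t‖ ^ 2 := by
        rw [norm_sub_sq_real, real_inner_smul_right, norm_smul, mul_pow, norm_eq_abs, sq_abs,
          real_inner_self_eq_norm_sq]
        ring
      rw [inner_sub_left, real_inner_smul_left] at a1
      have a6 : 2 * ⟪ψ t, -ψ t + ρ t⟫_ℝ - (n' t * ‖φ t‖ ^ 2 + n t * (2 * (⟪φ t, ρ t⟫_ℝ -
          ⟪ψ t, φ t⟫_ℝ))) + 2 * n t * hh φ ψ (n t) t ≤ 0 := by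
        rw [inner_add_right, inner_neg_right, hh]
        have n0 := norm_nonneg (φ t)
        have b1 := mul_le_mul_of_nonneg_left a3 (norm_nonneg (ψ t - n t • φ t))
        have b2 := mul_le_mul_of_nonneg_right a4 (sq_nonneg ‖φ t‖)
        have b3 := mul_nonneg (sub_nonneg.2 a2) (add_nonneg (norm_nonneg (ψ t - n t • φ t))
          (mul_nonneg (sub_nonneg.2 hη) n0))
        nlinarith
      have e0 := exp_pos (2 * P t)
      simp only [Pi.sub_apply, Pi.mul_apply]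
      have := mul_nonpos_of_nonpos_of_nonneg a6 e0.le
      rw [hh] at this
      linarith
  exact nonpos_of_mul_nonpos_left (this.trans (mul_nonpos_of_nonpos_of_nonneg h0 (exp_pos _).le))
    (exp_pos _)

/-- **the frequency does not cross a gap upwards** -/
theorem bar (hη : η ≤ δ) (hδ : 0 ≤ δ) (hg : Gap φ ψ δ ν (Icc a b)) (h0 : hh φ ψ ν a ≤ 0) :
    hh φ ψ ν b ≤ 0 :=
  h.bar' hab (n := fun _ => ν) (n' := fun _ => 0) (P := fun t => ν * t) hη
    (fun t _ => hasDerivAt_const t ν) (fun t _ => by simpa using (hasDerivAt_id t).const_mul ν) hg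
    (fun _ _ => by rw [neg_zero]; exact mul_nonneg (by positivity) (sub_nonneg.2 hη)) h0

omit hab in
/-- it falls through a gap in bounded time -/
theorem cross {ν' : ℝ} (hη : η < δ) (hδ : 0 < δ) (hν : ν ≤ ν')
    (hg : ∀ x ∈ Icc ν ν', Gap φ ψ δ x (Icc a b)) (h0 : hh φ ψ ν' a ≤ 0)
    (hT : a + (ν' - ν) / (2 * δ * (δ - η)) ≤ b) : hh φ ψ ν b ≤ 0 := by
  have hv : 0 < 2 * δ * (δ - η) := mul_pos (by positivity) (sub_pos.2 hη)
  set v := 2 * δ * (δ - η) with hv'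
  have h1 : a ≤ a + (ν' - ν) / v := le_add_of_nonneg_right (div_nonneg (sub_nonneg.2 hν) hv.le)
  have e : v * ((ν' - ν) / v) = ν' - ν := by field_simp
  have h2 := (h.mono (Icc_subset_Icc_right hT)).bar' h1 (n := fun t => ν' - v * (t - a))
    (n' := fun _ => -v) (P := fun t => ν' * t - v * ((t - a) ^ 2 / 2)) hη.le
    (fun t _ => by simpa using (((hasDerivAt_id t).sub_const a).const_mul v).const_sub ν')
    (fun t _ => (((hasDerivAt_id t).const_mul ν').sub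
      (((((hasDerivAt_id t).sub_const a).pow 2).div_const 2).const_mul v)).congr_deriv (by simp))
    (fun t ht => hg _ ⟨by nlinarith [ht.2], by nlinarith [ht.1]⟩ t ⟨ht.1, ht.2.trans hT⟩)
    (fun _ _ => by rw [neg_neg]) (by simpa using h0)
  rw [add_sub_cancel_left, e, sub_sub_cancel] at h2
  exact (h.mono (Icc_subset_Icc_left h1)).bar hT hη.le hδ.le
    ((hg ν ⟨le_rfl, hν⟩).mono (Icc_subset_Icc_left h1)) h2

/-- frequency `≤ ν`: lower bound -/
theorem low (hN : ∀ t ∈ Icc a b, hh φ ψ ν t ≤ 0) : ‖φ a‖ ≤ ‖φ b‖ * exp ((ν + η) * (b - a)) := by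
  have := anti_of (f := fun t => -(‖φ t‖ ^ 2 * exp (2 * (ν + η) * (t - a)))) hab
    (fun t ht => ((h.dn ht).mul (((hasDerivAt_id t).sub_const a).const_mul _).exp).neg)
    fun t ht => by
      have a1 := (abs_le.1 (h.abs_le' ht)).1
      have a2 := hN t ht
      rw [hh] at a2
      have := mul_nonneg (show 0 ≤ 2 * (⟪φ t, ρ t⟫_ℝ - ⟪ψ t, φ t⟫_ℝ) + ‖φ t‖ ^ 2 * (2 * (ν + η)) by
        nlinarith) (exp_pos (2 * (ν + η) * (t - a))).le
      simp only [id]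
      linarith
  refine (sq_le_sq₀ (norm_nonneg _) (by positivity)).1 ?_
  rw [mul_pow, ← exp_nat_mul, show ((2 : ℕ) : ℝ) * ((ν + η) * (b - a)) = 2 * (ν + η) * (b - a) by
    push_cast; ring]
  simpa only [sub_self, mul_zero, exp_zero, mul_one, neg_le_neg_iff] using this

/-- frequency `≥ ν`: upper bound -/
theorem up (hN : ∀ t ∈ Icc a b, 0 ≤ hh φ ψ ν t) : ‖φ b‖ ≤ ‖φ a‖ * exp (-((ν - η) * (b - a))) := by
  have := (h.rev.mono (s' := Icc (-b) (-a)) fun t ht => ⟨by linarith [ht.2], by linarith [ht.1]⟩).low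
    (neg_le_neg hab) (ν := -ν) fun t ht => by
      have := hN (-t) ⟨by linarith [ht.2], by linarith [ht.1]⟩
      simp only [hh, inner_neg_left] at this ⊢
      linarith
  simp only [neg_neg] at this
  convert this using 3
  ring

end Fl

namespace Fl
variable (h : Fl φ ψ ρ η (Ici a))
include h

/-- a frequency that is above the gap value `ν` far out is above `ν` everywhere -/
theorem ge_of (hη : η ≤ δ) (hδ : 0 ≤ δ) (hg : Gap φ ψ δ ν (Ici a))
    (h0 : ∃ᶠ t in atTop, 0 < hh φ ψ ν t) {t : ℝ} (ht : a ≤ t) : 0 < hh φ ψ ν t := by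
  obtain ⟨b, hb, hb'⟩ := (h0.and_eventually (eventually_ge_atTop t)).exists
  by_contra hn
  exact absurd ((h.mono fun x hx => ht.trans hx.1).bar hb' hη hδ
    (hg.mono fun x hx => ht.trans hx.1) (not_lt.1 hn)) (not_le.2 hb)

theorem le_of (hη : η ≤ δ) (hδ : 0 ≤ δ) (hg : Gap φ ψ δ ν (Ici a)) (h0 : hh φ ψ ν a ≤ 0) {t : ℝ}
    (ht : a ≤ t) : hh φ ψ ν t ≤ 0 :=
  (h.mono Icc_subset_Ici_self).bar ht hη hδ (hg.mono Icc_subset_Ici_self) h0

/-- **dichotomy**: a solution that is not larger than `e^{-(ν+η) t}` lies above the gap `[ν, ν']` -/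
theorem dich {ν' : ℝ} (hη : η < δ) (hδ : 0 < δ) (hν : ν ≤ ν')
    (hg : ∀ x ∈ Icc ν ν', Gap φ ψ δ x (Ici a)) (hB : Big φ (ν + η)) {t : ℝ} (ht : a ≤ t) :
    0 ≤ hh φ ψ ν' t := by
  by_contra hn
  have h0 := (not_le.1 hn).le
  have hφ : φ t ≠ 0 := fun e => hn (by simp [hh, e])
  have h' := h.mono (Ici_subset_Ici.2 ht)
  have hg' : ∀ x ∈ Icc ν ν', Gap φ ψ δ x (Ici t) := fun x hx => (hg x hx).mono (Ici_subset_Ici.2 ht)
  set b := t + (ν' - ν) / (2 * δ * (δ - η)) with hb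
  have htb : t ≤ b := le_add_of_nonneg_right
    (div_nonneg (sub_nonneg.2 hν) (mul_pos (by positivity) (sub_pos.2 hη)).le)
  have h1 := (h'.mono Icc_subset_Ici_self).low htb fun x hx =>
    h'.le_of hη.le hδ.le (hg' ν' ⟨hν, le_rfl⟩) h0 hx.1
  have h2 : 0 < ‖φ b‖ := pos_of_mul_pos_left ((norm_pos_iff.2 hφ).trans_le h1) (exp_pos _).le
  have h3 := (h'.mono Icc_subset_Ici_self).cross hη hδ hν
    (fun x hx => (hg' x hx).mono Icc_subset_Ici_self) h0 hb.ge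
  have h'' := h'.mono (Ici_subset_Ici.2 htb)
  obtain ⟨x, hx, hx'⟩ := ((hB (‖φ b‖ * exp ((ν + η) * b) / 2) (by positivity)).and_eventually
    (eventually_ge_atTop b)).exists
  have h4 := (h''.mono Icc_subset_Ici_self).low hx' fun y hy =>
    h''.le_of hη.le hδ.le ((hg' ν ⟨le_rfl, hν⟩).mono (Ici_subset_Ici.2 htb)) h3 hy.1
  have h5 := h4.trans (mul_le_mul_of_nonneg_right hx (exp_pos _).le)
  have e : ‖φ b‖ * exp ((ν + η) * b) / 2 * exp (-((ν + η) * x)) * exp ((ν + η) * (x - b)) =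
      ‖φ b‖ / 2 := by
    rw [div_mul_eq_mul_div, div_mul_eq_mul_div, mul_assoc, mul_assoc, ← exp_add, ← exp_add,
      show (ν + η) * b + (-((ν + η) * x) + (ν + η) * (x - b)) = 0 by ring, exp_zero, mul_one]
  linarith

theorem decay (hN : ∀ t ≥ a, 0 ≤ hh φ ψ ν t) {t : ℝ} (ht : a ≤ t) :
    ‖φ t‖ ≤ ‖φ a‖ * exp (-((ν - η) * (t - a))) :=
  (h.mono Icc_subset_Ici_self).up ht fun x hx => hN x hx.1

end Fl

section op
variable {X₁ X₀ : Type*} [NormedAddCommGroup X₁] [NormedSpace ℝ X₁] [CompleteSpace X₁]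
  [NormedAddCommGroup X₀] [InnerProductSpace ℝ X₀] [CompleteSpace X₀] {i B : X₁ →L[ℝ] X₀}

theorem fl_op (hs : ∀ u v, ⟪B u, i v⟫_ℝ = ⟪i u, B v⟫_ℝ) {V V' : ℝ → X₁} {ρ : ℝ → X₀}
    (hd : ∀ t ∈ s, HasDerivAt V (V' t) t) (he : ∀ t ∈ s, i (V' t) = -B (V t) + ρ t)
    (hρ : ∀ t ∈ s, ‖ρ t‖ ≤ η * ‖i (V t)‖) : Fl (fun t => i (V t)) (fun t => B (V t)) ρ η s where
  d1 t ht := he t ht ▸ i.hasFDerivAt.comp_hasDerivAt t (hd t ht)
  d2 t ht := ((B.hasFDerivAt.comp_hasDerivAt t (hd t ht)).inner ℝ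
    (i.hasFDerivAt.comp_hasDerivAt t (hd t ht))).congr_deriv (by
      simp only [comp_apply]
      rw [hs (V' t), real_inner_comm (B (V t)) (i (V' t)), he t ht]; ring)
  sm := hρ

/-- `K` is the eigenspace of `μ`, `P` its projector, `g` the gap -/
structure Ei (i B : X₁ →L[ℝ] X₀) (μ g : ℝ) (K : Submodule ℝ X₁) (P : X₀ →L[ℝ] X₀) : Prop where
  sym : ∀ u v, ⟪B u, i v⟫_ℝ = ⟪i u, B v⟫_ℝ
  pj : IsPj i K P
  eig : ∀ k ∈ K, B k = μ • i k
  pos : 0 < g
  gap : ∀ v, P (i v) = 0 → g * ‖i v‖ ≤ ‖B v - μ • i v‖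

theorem exists_ei (hs : ∀ u v, ⟪B u, i v⟫_ℝ = ⟪i u, B v⟫_ℝ) (hi : Injective i) {μ : ℝ}
    (hF : (B - μ • i).IsFredholm) : ∃ g P, Ei i B μ g (B - μ • i).ker P := by
  have := hF.finite_ker
  obtain ⟨P, hP⟩ := Crt72.exists_isPj i (B - μ • i).ker
  obtain ⟨C, hC, H⟩ := est_of hF (P.comp i) fun x hx h =>
    hi ((hP.fix x hx).symm.trans (h.trans (map_zero i).symm))
  refine ⟨1 / ((‖i‖ + 1) * C), P, hs, hP, fun k hk => sub_eq_zero.1 hk, by positivity, fun v hv => ?_⟩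
  have h1 := H v
  rw [ContinuousLinearMap.comp_apply, hv, norm_zero, add_zero] at h1
  rw [one_div, inv_mul_le_iff₀ (by positivity), mul_assoc]
  exact (i.le_opNorm v).trans (mul_le_mul (by linarith) h1 (norm_nonneg _) (by positivity))

namespace Ei
variable {μ g : ℝ} {K : Submodule ℝ X₁} {P : X₀ →L[ℝ] X₀} (h : Ei i B μ g K P)
include h

theorem neg : Ei i (-B) (-μ) g K P where
  sym u v := by simp [h.sym]
  pj := h.pj
  eig k hk := by simp [h.eig k hk]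
  pos := h.pos
  gap v hv := by
    rw [show (-B) v - -μ • i v = -(B v - μ • i v) by rw [neg_apply]; module, norm_neg]
    exact h.gap v hv

theorem PB (v : X₁) : P (B v) = μ • P (i v) :=
  ext_inner_right ℝ fun y => by
    obtain ⟨k, hk, e⟩ := h.pj.mem y
    rw [h.pj.symm, real_inner_smul_left, h.pj.symm, e, h.sym, h.eig k hk, real_inner_smul_right]

theorem orth {k : X₁} (hk : k ∈ K) {y : X₀} (hy : P y = 0) : ⟪i k, y⟫_ℝ = 0 := by
  rw [← h.pj.fix k hk, h.pj.symm, hy, inner_zero_right]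

theorem gap_perp {v : X₁} (hv : P (i v) = 0) (ν : ℝ) :
    (g - |ν - μ|) * ‖i v‖ ≤ ‖B v - ν • i v‖ := by
  have h1 := h.gap v hv
  have h2 := norm_add_le (B v - ν • i v) ((ν - μ) • i v)
  rw [show B v - ν • i v + (ν - μ) • i v = B v - μ • i v by module, norm_smul, norm_eq_abs] at h2
  linarith

theorem gap_all (v : X₁) {ν δ : ℝ} (h0 : 0 ≤ δ) (h1 : δ ≤ |ν - μ|) (h2 : δ ≤ g - |ν - μ|) :
    δ * ‖i v‖ ≤ ‖B v - ν • i v‖ := by
  obtain ⟨k, hk, e⟩ := h.pj.mem (i v)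
  have hv : P (i (v - k)) = 0 := by rw [map_sub, map_sub, e, h.pj.fix k hk, sub_self]
  have a1 := (mul_le_mul_of_nonneg_right h2 (norm_nonneg _)).trans (h.gap_perp hv ν)
  have a2 : ‖i v‖ ^ 2 = ‖i k‖ ^ 2 + ‖i (v - k)‖ ^ 2 := by
    rw [show i v = i k + i (v - k) by simp, norm_add_sq_real, h.orth hk hv]; ring
  have a3 : ‖B v - ν • i v‖ ^ 2 = (ν - μ) ^ 2 * ‖i k‖ ^ 2 + ‖B (v - k) - ν • i (v - k)‖ ^ 2 := by
    rw [show B v - ν • i v = (μ - ν) • i k + (B (v - k) - ν • i (v - k)) by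
      rw [map_sub, map_sub, h.eig k hk]; module, norm_add_sq_real, real_inner_smul_left,
      h.orth hk (by rw [map_sub, map_smul, h.PB, hv, smul_zero, smul_zero, sub_self]), norm_smul,
      mul_pow, norm_eq_abs, sq_abs]
    ring
  refine (sq_le_sq₀ (by positivity) (norm_nonneg _)).1 ?_
  have a4 := pow_le_pow_left₀ (by positivity) a1 2
  have a5 : δ ^ 2 ≤ (ν - μ) ^ 2 := by rw [← sq_abs (ν - μ)]; exact pow_le_pow_left₀ h0 h1 2
  rw [mul_pow] at a4 ⊢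
  nlinarith [sq_nonneg ‖i k‖]

/-- **ASY**: exact rates -/
theorem asy {V V' : ℝ → X₁} {ε : ℝ} (hε : 0 < ε) (hg : ε < g)
    (hd : ∀ t ≥ a, HasDerivAt V (V' t) t) (he : ∀ t ≥ a, i (V' t) = -B (V t))
    (hB : Big (fun t => i (V t)) (μ - ε)) : ∃ k ∈ K, ∃ C, ∀ t ≥ a,
      P (i (V t)) = exp (-(μ * t)) • i k ∧
      ‖i (V t) - exp (-(μ * t)) • i k‖ ≤ C * exp (-((μ + ε) * t)) ∧
      |⟪B (V t), i (V t)⟫_ℝ - μ * ‖i (V t)‖ ^ 2| ≤ C * exp (-(2 * (μ + ε) * t)) := by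
  obtain ⟨k₀, hk₀, e₀⟩ := h.pj.mem (i (V a))
  have hk : exp (μ * a) • k₀ ∈ K := K.smul_mem _ hk₀
  set k := exp (μ * a) • k₀ with hk'
  have hE : ∀ t, HasDerivAt (fun t => exp (-(μ * t))) (-μ * exp (-(μ * t))) t := fun t =>
    (((hasDerivAt_id t).const_mul μ).neg.exp).congr_deriv (by simp [mul_comm])
  let W : ℝ → X₁ := fun t => V t - exp (-(μ * t)) • k
  have hW : ∀ t ≥ a, HasDerivAt W (V' t - (-μ * exp (-(μ * t))) • k) t := fun t ht =>
    (hd t ht).sub ((hE t).smul_const k)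
  have hW' : ∀ t ≥ a, i (V' t - (-μ * exp (-(μ * t))) • k) = -B (W t) + 0 := fun t ht => by
    simp only [W, map_sub, map_smul, he t ht, h.eig k hk]; module
  have fl := fl_op (η := 0) (s := Ici a) h.sym hW hW' fun _ _ => by simp
  have hP : ∀ t ≥ a, P (i (W t)) = 0 := fun t ht => by
    have f2 : Fl (fun t => P (i (W t))) (fun t => μ • P (i (W t))) (fun _ => 0) 0 (Icc a t) := by
      have d : ∀ x ∈ Icc a t, HasDerivAt (fun t => P (i (W t))) (-(μ • P (i (W x))) + 0) x :=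
        fun x hx => (P.hasFDerivAt.comp_hasDerivAt x (fl.d1 x hx.1)).congr_deriv (by simp [h.PB])
      exact ⟨d, fun x hx => (((d x hx).const_smul μ).inner ℝ (d x hx)).congr_deriv (by
        simp only [Pi.smul_apply, add_zero, inner_neg_right, inner_neg_left, smul_neg,
          real_inner_smul_left, real_inner_smul_right]; ring), fun _ _ => by simp⟩
    have := f2.up ht (ν := μ) fun x _ => by simp [hh, real_inner_smul_left]
    have e : P (i (W a)) = 0 := by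
      simp only [W, hk', map_sub, map_smul, e₀, h.pj.fix k₀ hk₀, smul_smul, ← exp_add]
      simp
    simpa [e] using this
  have hδ : 0 < g - ε := sub_pos.2 hg
  have hBW : Big (fun t => i (W t)) (μ - ε + 0) := fun c hc => by
    refine ((hB c hc).and_eventually (eventually_ge_atTop a)).mono fun t ht => ?_
    rw [add_zero]
    refine le_trans ?_ ht.1
    have a2 : ‖i (V t)‖ ^ 2 = ‖i (exp (-(μ * t)) • k)‖ ^ 2 + ‖i (W t)‖ ^ 2 := by
      rw [show i (V t) = i (exp (-(μ * t)) • k) + i (W t) by simp [W], norm_add_sq_real,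
        h.orth (K.smul_mem _ hk) (hP t ht.2)]; ring
    exact (sq_le_sq₀ (norm_nonneg _) (norm_nonneg _)).1 (by rw [a2]; nlinarith [sq_nonneg ‖i (exp (-(μ * t)) • k)‖])
  have h1 : ∀ t ≥ a, 0 ≤ hh (fun t => i (W t)) (fun t => B (W t)) (μ + ε) t := fun t ht =>
    fl.dich hδ hδ (by linarith) (fun x hx t ht => le_trans (mul_le_mul_of_nonneg_right
      (by have := abs_le.2 ⟨(by linarith [hx.1] : -ε ≤ x - μ), by linarith [hx.2]⟩; linarith)
      (norm_nonneg _)) (h.gap_perp (hP t ht) x)) hBW ht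
  obtain ⟨ν, hν, h2⟩ : ∃ ν ≥ μ, hh (fun t => i (W t)) (fun t => B (W t)) ν a ≤ 0 := by
    by_cases e : i (W a) = 0
    · exact ⟨μ, le_rfl, by simp [hh, e]⟩
    · have n0 : 0 < ‖i (W a)‖ ^ 2 := by positivity
      refine ⟨max μ (⟪B (W a), i (W a)⟫_ℝ / ‖i (W a)‖ ^ 2), le_max_left _ _,
        (hh_mono (le_max_right _ _)).trans (le_of_eq ?_)⟩
      rw [hh, div_mul_cancel₀ _ n0.ne', sub_self]
  set A := ‖i (W a)‖ * exp ((μ + ε) * a) with hA
  have A0 : 0 ≤ A := by positivity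
  refine ⟨k, hk, max A ((ν - μ) * A ^ 2), fun t ht => ?_⟩
  have h3 : ‖i (W t)‖ ≤ A * exp (-((μ + ε) * t)) := (fl.decay h1 ht).trans (le_of_eq (by
    rw [hA, mul_assoc, ← exp_add]; congr 2; ring))
  have h4 := fl.le_of le_rfl le_rfl (ν := ν) (fun _ _ => by simp) h2 ht
  have h5 := h1 t ht
  have o1 := h.orth hk (hP t ht)
  refine ⟨?_, ?_, ?_⟩
  · have := hP t ht
    simp only [W, map_sub, map_smul, h.pj.fix k hk] at this
    exact sub_eq_zero.1 this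
  · have : i (W t) = i (V t) - exp (-(μ * t)) • i k := by simp [W]
    exact this ▸ h3.trans (mul_le_mul_of_nonneg_right (le_max_left _ _) (exp_pos _).le)
  · have e1 : V t = exp (-(μ * t)) • k + W t := by simp [W]
    have e2 : ⟪B (V t), i (V t)⟫_ℝ - μ * ‖i (V t)‖ ^ 2 =
        ⟪B (W t), i (W t)⟫_ℝ - μ * ‖i (W t)‖ ^ 2 := by
      rw [← real_inner_self_eq_norm_sq, ← real_inner_self_eq_norm_sq, e1]
      simp only [map_add, map_smul, inner_add_left, inner_add_right, real_inner_smul_left,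
        real_inner_smul_right, h.sym (W t) k, h.eig k hk, o1, real_inner_comm (i k) (i (W t))]
      ring
    have h6 := pow_le_pow_left₀ (norm_nonneg _) h3 2
    rw [mul_pow, ← exp_nat_mul, show ((2 : ℕ) : ℝ) * -((μ + ε) * t) = -(2 * (μ + ε) * t) by
      push_cast; ring] at h6
    simp only [hh] at h4 h5
    have n0 := sq_nonneg ‖i (W t)‖
    rw [e2, abs_of_nonneg (by nlinarith)]
    refine le_trans ?_ (mul_le_mul_of_nonneg_right (le_max_right _ _) (exp_pos _).le)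
    nlinarith [mul_le_mul_of_nonneg_left h6 (sub_nonneg.2 hν)]

end Ei

end op

end Crest.Agent.X212.Rad94
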