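import Crest.Agent.X212.Rad94.AbS
import Crest.Agent.X212.Rad94.Bar

/-!
# Row 212, AN-S (helper94): the linear part of `AbsStmt`
-/

set_option autoImplicit false
set_option linter.unusedSectionVars false
noncomputable section
open scoped Topology InnerProductSpace ContDiff
open MeasureTheory Set Function Filter Real

namespace Crest.Agent.X212.Rad94
open M (pm)

section bar
variable {E : Type*} [NormedAddCommGroup E] [InnerProductSpace ℝ E] {φ ψ ρ : ℝ → E} {η ν a b : ℝ}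

/-- without a gap the frequency grows at most linearly -/
theorem Fl.bar0 (h : Fl φ ψ ρ η (Icc a b)) (hab : a ≤ b) (h0 : 0 ≤ hh φ ψ ν b) :
    0 ≤ hh φ ψ (ν - η ^ 2 / 2 * (b - a)) a := by
  let n : ℝ → ℝ := fun t => ν - η ^ 2 / 2 * (b - t)
  have hn : ∀ t, HasDerivAt n (η ^ 2 / 2) t := fun t => by
    simpa using (((hasDerivAt_id t).const_sub b).const_mul (η ^ 2 / 2)).const_sub ν
  have hP : ∀ t, HasDerivAt (fun t => ν * t + η ^ 2 / 4 * (b - t) ^ 2) (n t) t := fun t =>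
    (((hasDerivAt_id t).const_mul ν).add
      ((((hasDerivAt_id t).const_sub b).pow 2).const_mul (η ^ 2 / 4))).congr_deriv
      (by simp [n]; ring)
  have := anti_of (f := fun t => hh φ ψ (n t) t * exp (2 * (ν * t + η ^ 2 / 4 * (b - t) ^ 2))) hab
    (fun t ht => ((h.d2 t ht).sub ((hn t).mul (h.dn ht))).mul ((hP t).const_mul 2).exp)
    fun t ht => by
      have a1 := real_inner_le_norm (ψ t - n t • φ t) (ρ t)
      have a3 := h.sm t ht
      have a5 : ‖ψ t - n t • φ t‖ ^ 2 =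
          ⟪ψ t, ψ t⟫_ℝ - 2 * n t * ⟪ψ t, φ t⟫_ℝ + n t ^ 2 * ‖φ t‖ ^ 2 := by
        rw [norm_sub_sq_real, real_inner_smul_right, norm_smul, mul_pow, norm_eq_abs, sq_abs,
          real_inner_self_eq_norm_sq]
        ring
      rw [inner_sub_left, real_inner_smul_left] at a1
      have a6 : 2 * ⟪ψ t, -ψ t + ρ t⟫_ℝ - (η ^ 2 / 2 * ‖φ t‖ ^ 2 + n t * (2 * (⟪φ t, ρ t⟫_ℝ -
          ⟪ψ t, φ t⟫_ℝ))) + 2 * n t * hh φ ψ (n t) t ≤ 0 := by
        rw [inner_add_right, inner_neg_right, hh]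
        have b1 := mul_le_mul_of_nonneg_left a3 (norm_nonneg (ψ t - n t • φ t))
        nlinarith [sq_nonneg (2 * ‖ψ t - n t • φ t‖ - η * ‖φ t‖)]
      have e0 := exp_pos (2 * (ν * t + η ^ 2 / 4 * (b - t) ^ 2))
      simp only [Pi.sub_apply, Pi.mul_apply]
      have := mul_nonpos_of_nonpos_of_nonneg a6 e0.le
      rw [hh] at this
      linarith
  have e : n b = ν := by simp [n]
  simp only [e] at this
  exact nonneg_of_mul_nonneg_left ((mul_nonneg h0 (exp_pos _).le).trans this) (exp_pos _)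

theorem sq_le {a b c : ℝ} (ha : 0 ≤ a) (k : a ≤ b * exp c) : a ^ 2 ≤ b ^ 2 * exp (2 * c) := by
  have := pow_le_pow_left₀ ha k 2
  rwa [mul_pow, sq (exp c), ← exp_add, ← two_mul] at this

theorem Fl.grow {d T : ℝ} (h : Fl φ ψ ρ η (Ioi (-1))) (hT : 0 ≤ T)
    (lw : ∀ t ≥ T, 0 ≤ hh φ ψ (-d) t) (ha : -1 / 2 ≤ a) (hab : a ≤ b) :
    ‖φ b‖ ^ 2 ≤ ‖φ a‖ ^ 2 * exp (2 * ((d + η ^ 2 / 2 * (T + 1 / 2) + η) * (b - a))) := by
  have lw' : ∀ t ≥ -1 / 2, 0 ≤ hh φ ψ (-(d + η ^ 2 / 2 * (T + 1 / 2))) t := fun t ht => by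
    have p : 0 ≤ η ^ 2 / 2 := by positivity
    rcases le_total t T with a | a
    · exact ((h.mono fun x (hx : x ∈ Icc t T) => lt_of_lt_of_le (by linarith) hx.1).bar0 a
        (lw T le_rfl)).trans (hh_mono (by nlinarith))
    · exact (lw t a).trans (hh_mono (by nlinarith))
  exact sq_le (norm_nonneg _) (((h.mono fun x (hx : x ∈ Icc a b) => lt_of_lt_of_le (by linarith)
    hx.1).up hab fun t ht => lw' t (ha.trans ht.1)).trans_eq (by congr 2; ring))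

theorem upb {n : ℝ → ℝ} {K C : ℝ} (hK : 0 ≤ K) (hc : ContinuousOn n (Ici (-1 / 2)))
    (n0 : ∀ t, 0 ≤ n t) (gr : ∀ a b, -1 / 2 ≤ a → a ≤ b → n b ≤ n a * exp (2 * (K * (b - a))))
    (q : ∫ τ in (-1 / 2 : ℝ)..0, n τ ≤ C) (hb : 0 ≤ b) :
    n b ≤ 2 * C * exp (2 * (K * (b + 1 / 2))) := by
  have a1 : ∫ _ in (-1 / 2 : ℝ)..0, n b ≤
      ∫ a in (-1 / 2 : ℝ)..0, n a * exp (2 * (K * (b + 1 / 2))) :=
    intervalIntegral.integral_mono_on (by norm_num) (by simp) (((hc.mono fun t ht => by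
        rw [uIcc_of_le (by norm_num)] at ht; exact ht.1).intervalIntegrable).mul_const _)
      fun a ha => (gr a b ha.1 (ha.2.trans hb)).trans (mul_le_mul_of_nonneg_left
        (exp_le_exp.2 (by nlinarith [ha.1])) (n0 _))
  rw [intervalIntegral.integral_const, intervalIntegral.integral_mul_const] at a1
  have a2 := mul_le_mul_of_nonneg_right q (exp_pos (2 * (K * (b + 1 / 2)))).le
  simp only [smul_eq_mul] at a1
  linarith

theorem lowb {n : ℝ → ℝ} {K ε T T' : ℝ} (hK : 0 ≤ K) (hε : 0 ≤ ε) (hT : T ≤ T')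
    (hc : IntervalIntegrable (fun τ => n τ * exp (2 * ε * τ)) volume T T')
    (n0 : ∀ t, 0 ≤ n t) (gr : ∀ a b, -1 / 2 ≤ a → a ≤ b → n b ≤ n a * exp (2 * (K * (b - a))))
    (q : 1 ≤ ∫ τ in T..T', n τ * exp (2 * ε * τ)) (ha : a ∈ Icc (-1 / 2) T) :
    1 / ((T' - T + 1) * (exp (2 * (K * (T' + 1 / 2))) * exp (2 * ε * T'))) ≤ n a := by
  set W := exp (2 * (K * (T' + 1 / 2))) * exp (2 * ε * T')
  have a1 := q.trans (intervalIntegral.integral_mono_on hT hc (g := fun _ => n a * W) (by simp)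
    fun b hb => by
      refine (mul_le_mul_of_nonneg_right (gr a b ha.1 (ha.2.trans hb.1)) (exp_pos _).le).trans ?_
      rw [mul_assoc]
      exact mul_le_mul_of_nonneg_left (mul_le_mul (exp_le_exp.2 (by nlinarith [ha.1, hb.2]))
        (exp_le_exp.2 (by nlinarith [hb.2])) (exp_pos _).le (exp_pos _).le) (n0 _))
  rw [intervalIntegral.integral_const, smul_eq_mul] at a1
  have : 0 < T' - T + 1 := by linarith
  rw [div_le_iff₀ (by positivity)]
  nlinarith [mul_nonneg (n0 a) (show 0 ≤ W by positivity)]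

theorem Fl.exhi {ε U : ℝ} (h : Fl φ ψ ρ η (Ici a)) (hε : 0 < ε) (hη : 2 * η ≤ ε) (hab : a ≤ b)
    (hU : ‖φ a‖ ^ 2 ≤ U) (hc : IntervalIntegrable (fun τ => ‖φ τ‖ ^ 2 * exp (2 * ε * τ)) volume a b)
    (q : U * exp (2 * ε * a) / ε + 1 ≤ ∫ τ in a..b, ‖φ τ‖ ^ 2 * exp (2 * ε * τ)) :
    ∃ t ∈ Icc a b, hh φ ψ (2 * ε) t ≤ 0 := by
  by_contra! hn
  have U0 := (sq_nonneg _).trans hU
  set V := U * exp (2 * ε * a)
  have V0 : 0 ≤ V := by positivity
  have dF : ∀ t, HasDerivAt (fun t => -(V / ε * exp (-ε * (t - a)))) (V * exp (-ε * (t - a))) t :=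
    fun t => (((((hasDerivAt_id t).sub_const a).const_mul (-ε)).exp.const_mul
      (V / ε)).neg).congr_deriv (by simp only [id]; field_simp)
  have a1 := q.trans (intervalIntegral.integral_mono_on hab hc
    (g := fun t => V * exp (-ε * (t - a))) (Continuous.intervalIntegrable (by fun_prop) _ _)
    fun t ht => by
      have b1 := sq_le (norm_nonneg _) ((h.mono fun x (hx : x ∈ Icc a t) => hx.1).up ht.1
        fun x hx => (hn x ⟨hx.1, hx.2.trans ht.2⟩).le)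
      have b2 := mul_le_mul_of_nonneg_right (b1.trans (mul_le_mul_of_nonneg_right
        hU (exp_pos _).le)) (exp_pos (2 * ε * t)).le
      refine b2.trans ?_
      rw [mul_assoc, mul_assoc U, ← exp_add, ← exp_add]
      exact mul_le_mul_of_nonneg_left (exp_le_exp.2 (by nlinarith [ht.1])) U0)
  rw [intervalIntegral.integral_eq_sub_of_hasDerivAt (fun t _ => dF t)
    (Continuous.intervalIntegrable (by fun_prop) _ _)] at a1
  have : 0 ≤ V / ε * exp (-ε * (b - a)) := by positivity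
  simp only [sub_self, mul_zero, exp_zero, mul_one] at a1
  linarith

theorem Fl.logd {d t : ℝ} {s : Set ℝ} (h : Fl φ ψ ρ (d / 2) s) (ht : t ∈ s)
    (p : 0 < ‖φ t‖ ^ 2) (a3 : 0 ≤ hh φ ψ (-d) t) (a4 : hh φ ψ d t ≤ 0) :
    |deriv (fun t => log (‖φ t‖ ^ 2) / 2) t| ≤ 2 * d := by
  have a2 := abs_le.1 (h.abs_le' ht)
  simp only [hh] at a3 a4
  rw [(((h.dn ht).log p.ne').div_const 2).deriv, div_div, abs_div,
    abs_of_pos (show 0 < ‖φ t‖ ^ 2 * 2 by positivity), div_le_iff₀ (by positivity)]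
  exact abs_le.2 ⟨by nlinarith, by nlinarith⟩

end bar

theorem ev_int {f : ℝ → ℝ} (hc : ContinuousOn f (Ici 0)) (h0 : ∀ t, 0 ≤ f t)
    (hn : ¬IntegrableOn f (Ioi 0)) {T : ℝ} (hT : 0 ≤ T) (B : ℝ) :
    ∀ᶠ T' in atTop, B ≤ ∫ t in T..T', f t := by
  have ii : ∀ a b, 0 ≤ a → a ≤ b → IntegrableOn f (Ioc a b) := fun a b ha hab =>
    ((hc.mono fun t ht => ha.trans ht.1).integrableOn_Icc (a := a) (b := b)).mono_set
      Ioc_subset_Icc_self
  by_contra hB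
  apply hn
  have hb : ∀ T' ≥ T, ∫ t in T..T', f t ≤ B := fun T' hT' => by
    obtain ⟨S, hS, hS'⟩ := ((not_eventually.1 hB).and_eventually (eventually_ge_atTop T')).exists
    refine le_trans ?_ (not_le.1 hS).le
    exact intervalIntegral.integral_mono_interval le_rfl hT' hS' (.of_forall fun t => h0 t)
      ((intervalIntegrable_iff_integrableOn_Ioc_of_le (hT'.trans hS')).2 (ii _ _ hT (hT'.trans hS')))
  have := integrableOn_Ioi_of_intervalIntegral_norm_bounded (μ := volume) (f := f) (l := atTop)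
    (b := fun x => max T x) B T (fun x => ii _ _ hT (le_max_left _ _))
    (tendsto_atTop_mono (fun x => le_max_right T x) tendsto_id)
    (.of_forall fun x => by simpa only [norm_of_nonneg (h0 _)] using hb _ (le_max_left T x))
  exact ((ii 0 T le_rfl hT).union this).mono_set fun t ht => by
    rcases le_or_gt t T with h | h
    exacts [.inl ⟨ht, h⟩, .inr h]

namespace Rp
variable {R : Rp}

theorem n0 (s : Bool) (u : R.S) (τ : ℝ) : 0 ≤ R.n s u τ := sq_nonneg _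

theorem n_sub (s : Bool) (u v : R.S) (τ : ℝ) : R.n s (u - v) τ ≤ 2 * R.n s u τ + 2 * R.n s v τ := by
  simp only [n, map_sub]
  nlinarith [norm_sub_le (R.sl s τ u) (R.sl s τ v), norm_nonneg (R.sl s τ u - R.sl s τ v),
    sq_nonneg (‖R.sl s τ u‖ - ‖R.sl s τ v‖)]

variable (R) in
/-- the weighted integral over an end -/
def I (s : Bool) (u : R.S) : ℝ := ∫ τ in Ioi 0, R.n s u τ * exp (-(2 * R.ε) * τ)

theorem I0 (s : Bool) (u : R.S) : 0 ≤ R.I s u :=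
  integral_nonneg fun τ => mul_nonneg (n0 s u τ) (exp_pos _).le

theorem Q_eq (u : R.S) : R.Q u = R.q0 u + (R.I true u + R.I false u) := by simp [Q, I]

theorem rd_c0 : Rd R.c0 := fun s =>
  ⟨smoothTransition.contDiff.mul contDiff_const, fun τ hτ => by simp [c0, χ0 hτ]⟩

variable (R) in
/-- normalised linear solutions -/
structure Ch (α : R.A) (v : R.S) : Prop where
  fi : R.Fi v
  eq : R.D α R.c0 v = 0
  pr : R.pr v = 1

namespace Ax
variable (h : R.Ax)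
include h

theorem cn (s : Bool) (u : R.S) {a : ℝ} (ha : -1 < a) : ContinuousOn (R.n s u) (Ici a) :=
  (h.smn s u).continuousOn.mono fun _ ht => ha.trans_le ht

theorem cw (s : Bool) (u : R.S) (c : ℝ) : ContinuousOn (fun τ => R.n s u τ * exp (c * τ)) (Ici 0) :=
  (h.cn s u (by norm_num)).mul (by fun_prop)

theorem Q0' (u : R.S) : 0 ≤ R.Q u := by rw [Q_eq]; linarith [h.q0n u, I0 true u, I0 false u]
theorem q0_le (u : R.S) : R.q0 u ≤ R.Q u := by rw [Q_eq]; linarith [I0 true u, I0 false u]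
theorem I_le (s : Bool) (u : R.S) : R.I s u ≤ R.Q u := by
  rw [Q_eq]; cases s <;> linarith [h.q0n u, I0 true u, I0 false u]

theorem of_le {s : Bool} {u : R.S} {f : ℝ → ℝ}
    (hf : IntegrableOn (fun τ => f τ * exp (-(2 * R.ε) * τ)) (Ioi 0))
    (hl : ∀ τ > 0, R.n s u τ ≤ f τ) :
    IntegrableOn (fun τ => R.n s u τ * exp (-(2 * R.ε) * τ)) (Ioi 0) ∧
      R.I s u ≤ ∫ τ in Ioi 0, f τ * exp (-(2 * R.ε) * τ) := by
  have h1 : ∀ τ ∈ Ioi (0 : ℝ), R.n s u τ * exp (-(2 * R.ε) * τ) ≤ f τ * exp (-(2 * R.ε) * τ) :=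
    fun τ hτ => mul_le_mul_of_nonneg_right (hl τ hτ) (exp_pos _).le
  have h2 : IntegrableOn (fun τ => R.n s u τ * exp (-(2 * R.ε) * τ)) (Ioi 0) :=
    hf.mono' (((h.cw s u _).mono Ioi_subset_Ici_self).aestronglyMeasurable measurableSet_Ioi)
      ((ae_restrict_iff' measurableSet_Ioi).2 (.of_forall fun τ hτ => by
        rw [norm_of_nonneg (mul_nonneg (n0 s u τ) (exp_pos _).le)]; exact h1 τ hτ))
  exact ⟨h2, setIntegral_mono_on h2 hf measurableSet_Ioi h1⟩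

theorem le1 {u v : R.S} {a : ℝ} (hv : R.Fi v) (hl : ∀ s, ∀ τ > 0, R.n s u τ ≤ a * R.n s v τ) :
    R.Fi u ∧ ∀ s, R.I s u ≤ a * R.I s v := by
  have := fun s => h.of_le (f := fun τ => a * R.n s v τ)
    (by simp only [mul_assoc]; exact (hv s).const_mul a) (hl s)
  refine ⟨fun s => (this s).1, fun s => (this s).2.trans_eq ?_⟩
  simp only [mul_assoc, integral_const_mul, I]

theorem fi_sub {u v : R.S} (hu : R.Fi u) (hv : R.Fi v) : R.Fi (u - v) := fun s =>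
  (h.of_le (f := fun τ => 2 * R.n s u τ + 2 * R.n s v τ)
    (by simp only [add_mul, mul_assoc]; exact ((hu s).const_mul 2).add ((hv s).const_mul 2))
    fun τ _ => n_sub s u v τ).1

theorem n_rot (s : Bool) (z : ℂ) (u : R.S) {τ : ℝ} (hτ : -1 < τ) :
    R.n s (R.rot z u) τ = ‖z‖ ^ 2 * R.n s u τ := by rw [n, h.slr z s u τ hτ, mul_pow, n]

theorem n_E (s : Bool) {g : Bool → ℝ → ℝ} (hg : Rd g) (u : R.S) {τ : ℝ} (hτ : -1 < τ) :
    R.n s (R.E g u) τ = exp (2 * g s τ) * R.n s u τ := by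
  rw [n, h.slE g s u hg τ hτ, norm_smul, mul_pow, n, norm_eq_abs, sq_abs, sq, ← exp_add, two_mul]

theorem fi_rot {u : R.S} (hu : R.Fi u) (z : ℂ) : R.Fi (R.rot z u) :=
  (h.le1 hu fun s τ hτ => (h.n_rot s z u (by linarith)).le).1

theorem fi_of {u : R.S} {μ : ℝ} (hμ : μ < R.ε)
    (hb : ∀ s, ∃ C, ∀ᶠ τ in atTop, R.n s u τ ≤ C * exp (2 * μ * τ)) : R.Fi u := fun s => by
  obtain ⟨C, hC⟩ := hb s
  refine integrable_of_isBigO_exp_neg (b := 2 * (R.ε - μ)) (by linarith) (h.cw s u _)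
    (.of_bound C ?_)
  filter_upwards [hC] with τ hτ
  rw [norm_of_nonneg (mul_nonneg (n0 s u τ) (exp_pos _).le), norm_of_nonneg (exp_pos _).le,
    show -(2 * (R.ε - μ)) * τ = 2 * μ * τ + -(2 * R.ε) * τ by ring, exp_add, ← mul_assoc]
  exact mul_le_mul_of_nonneg_right hτ (exp_pos _).le

theorem est' : ∃ δ₀ ∈ Ioc (0 : ℝ) 1, ∃ C ≥ 0, ∀ α c u, R.sm α δ₀ → Rd c →
    (∀ s τ, |c s τ - R.c0 s τ| ≤ δ₀) → R.Fi u → R.F' (R.D α c u) →
      R.Q u ≤ C * (R.Q' (R.D α c u) + ‖R.pr u‖ ^ 2) := by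
  obtain ⟨C₁, h1⟩ := h.pert
  obtain ⟨C₂, h2⟩ := h.est
  have p : 0 < 4 * (|C₁| * |C₂|) + 1 := by positivity
  have d1 : 1 / (4 * (|C₁| * |C₂|) + 1) ≤ 1 := (div_le_one p).2 (by linarith [mul_nonneg (abs_nonneg C₁) (abs_nonneg C₂)])
  set δ := 1 / (4 * (|C₁| * |C₂|) + 1) with hδ
  have d0 : 0 < δ := by positivity
  have d2 : δ * (4 * (|C₁| * |C₂|) + 1) = 1 := by rw [hδ]; field_simp
  refine ⟨δ, ⟨d0, d1⟩, 4 * |C₂|, by positivity, fun α c u hα hc hd hu hf => ?_⟩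
  obtain ⟨a1, a2⟩ := h1 α δ c u ⟨d0.le, d1⟩ hα hc hd hu
  obtain ⟨a3, a4⟩ := h.Fs _ _ hf a1
  rw [sub_sub_cancel] at a3 a4
  have q := h.Q0' u
  have a5 := (h2 u hu a3).trans (mul_le_mul_of_nonneg_right (le_abs_self C₂)
    (add_nonneg (h.Qn _) (sq_nonneg _)))
  have a6 : C₁ * δ ^ 2 * R.Q u ≤ |C₁| * δ * R.Q u := mul_le_mul_of_nonneg_right
    (mul_le_mul (le_abs_self _) (by nlinarith) (by positivity) (abs_nonneg _)) q
  have a7 := mul_le_mul_of_nonneg_left (a4.trans (add_le_add_right (b := 2 * _)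
    (c := 2 * (|C₁| * δ * R.Q u)) (by linarith) _)) (abs_nonneg C₂)
  have a8 : |C₂| * (|C₁| * δ * R.Q u) * 4 + δ * R.Q u = R.Q u := by linear_combination R.Q u * d2
  nlinarith [mul_nonneg d0.le q, mul_nonneg (abs_nonneg C₂) (sq_nonneg ‖R.pr u‖)]

theorem ch : ∃ δ₀ ∈ Ioc (0 : ℝ) 1, ∃ C ≥ 0, ∀ α, R.sm α δ₀ → (∃ v, R.Ch α v) ∧ ∀ v, R.Ch α v →
    R.Q v ≤ C ∧ (∀ w, R.Fi w → R.D α R.c0 w = 0 → w = R.rot (R.pr w) v) ∧
      ∀ δ ∈ Icc 0 δ₀, R.sm α δ → ∀ v₀, R.Ch R.o v₀ → R.Q (v - v₀) ≤ C * δ ^ 2 := by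
  obtain ⟨δ₁, d1, C, C0, hC⟩ := h.est'
  obtain ⟨δ₂, d2, hx⟩ := h.ex
  obtain ⟨C₁, h1⟩ := h.pert
  have k : ∀ α u, R.sm α δ₁ → R.Fi u → R.D α R.c0 u = 0 → R.Q u ≤ C * ‖R.pr u‖ ^ 2 :=
    fun α u hα hu e => by
      have := hC α _ u hα rd_c0 (fun _ _ => by simpa using d1.1.le) hu (e ▸ h.F0)
      rwa [e, h.Q0, zero_add] at this
  refine ⟨min δ₁ δ₂, ⟨lt_min d1.1 d2, (min_le_left _ _).trans d1.2⟩, C + C * (2 * (|C₁| * C)),
    by positivity, fun α hα => ⟨?_, fun v hv => ?_⟩⟩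
  · obtain ⟨u, u0, hu, e⟩ := hx α (h.smm _ _ _ hα (min_le_right _ _))
    have : R.pr u ≠ 0 := fun p => u0 (h.sep u hu (le_antisymm
      (by simpa [p] using k α u (h.smm _ _ _ hα (min_le_left _ _)) hu e) (h.Q0' u)))
    exact ⟨R.rot (R.pr u)⁻¹ u, h.fi_rot hu _, h.Dr _ _ _ _ e, by rw [h.prr, inv_mul_cancel₀ this]⟩
  have hα1 := h.smm _ _ _ hα (min_le_left _ _)
  have q : R.Q v ≤ C := by simpa [hv.pr] using k α v hα1 hv.fi hv.eq
  have p0 : 0 ≤ C * (2 * (|C₁| * C)) := by positivity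
  refine ⟨by linarith, fun w hw e => ?_, fun δ hδ hα' v₀ h0 => ?_⟩
  · have f := h.fi_sub hw (h.fi_rot hv.fi (R.pr w))
    refine sub_eq_zero.1 (h.sep _ f (le_antisymm ?_ (h.Q0' _)))
    simpa [h.prr, hv.pr] using k α _ hα1 f (by rw [map_sub, e, h.Dr _ _ _ _ hv.eq, sub_zero])
  obtain ⟨a1, a2⟩ := h1 α δ R.c0 v ⟨hδ.1, hδ.2.trans ((min_le_left _ _).trans d1.2)⟩ hα' rd_c0
    (fun _ _ => by simpa using hδ.1) hv.fi
  obtain ⟨a3, a4⟩ := h.Fs _ _ h.F0 a1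
  have e : 0 - (R.D α R.c0 v - R.D R.o R.c0 v) = R.D R.o R.c0 (v - v₀) := by
    rw [map_sub, hv.eq, h0.eq]; simp
  rw [e] at a3 a4
  have a5 := hC R.o _ _ (h.smm _ _ _ h.sm0 d1.1.le) rd_c0 (fun _ _ => by simpa using d1.1.le)
    (h.fi_sub hv.fi h0.fi) a3
  rw [map_sub R.pr, hv.pr, h0.pr, sub_self, norm_zero, zero_pow two_ne_zero, add_zero] at a5
  have a6 : C₁ * δ ^ 2 * R.Q v ≤ |C₁| * δ ^ 2 * C := mul_le_mul (mul_le_mul_of_nonneg_right
    (le_abs_self _) (sq_nonneg _)) q (h.Q0' v) (by positivity)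
  have a7 := mul_le_mul_of_nonneg_left (a4.trans (show _ ≤ 2 * (|C₁| * δ ^ 2 * C) by
    rw [h.Q0]; linarith)) C0
  nlinarith [mul_nonneg C0 (sq_nonneg δ)]

/-- the solutions do not decay, uniformly -/
theorem cmp {T : ℝ} (hT : 0 ≤ T) (B : ℝ) : ∃ T' ≥ T, ∃ δ > 0, ∀ α v, R.sm α δ → R.Ch α v → ∀ s,
    B ≤ ∫ τ in T..T', R.n s v τ * exp (2 * R.ε * τ) := by
  obtain ⟨δ₀, d0, C, C0, hC⟩ := h.ch
  obtain ⟨v₀, h0⟩ := (hC R.o (h.smm _ _ _ h.sm0 d0.1.le)).1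
  have : ∀ s, ∀ᶠ T' in atTop, 2 * B + 2 ≤ ∫ τ in T..T', R.n s v₀ τ * exp (2 * R.ε * τ) := fun s =>
    ev_int (h.cw s v₀ _) (fun t => mul_nonneg (n0 s v₀ t) (exp_pos _).le) (fun k => by
      simpa [h.nd s v₀ h0.fi h0.eq k] using h0.pr) hT _
  obtain ⟨T', h1, h2⟩ := ((eventually_all.2 this).and (eventually_ge_atTop T)).exists
  set P := exp (4 * R.ε * T') * C with hP
  have P0 : 0 ≤ P := by positivity
  refine ⟨T', h2, min δ₀ (1 / (P + 1)), lt_min d0.1 (by positivity), fun α v hα hv s => ?_⟩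
  set δ := min δ₀ (1 / (P + 1))
  have δ0 : 0 < δ := lt_min d0.1 (by positivity)
  have δ1 : δ ≤ 1 := (min_le_left _ _).trans d0.2
  have δ2 : δ * (P + 1) ≤ 1 := (le_div_iff₀ (by positivity)).1 (min_le_right _ _)
  have q := (h.I_le s _).trans (((hC α (h.smm _ _ _ hα (min_le_left _ _))).2 v hv).2.2 δ
    ⟨δ0.le, min_le_left _ _⟩ hα v₀ h0)
  have ii : ∀ u c, IntervalIntegrable (fun τ => R.n s u τ * exp (c * τ)) volume T T' := fun u c =>
    ((h.cw s u c).mono fun t ht => by rw [uIcc_of_le h2] at ht; exact hT.trans ht.1).intervalIntegrable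
  have a1 : ∫ τ in T..T', R.n s v₀ τ * exp (2 * R.ε * τ) ≤ ∫ τ in T..T',
      (2 * (R.n s v τ * exp (2 * R.ε * τ)) +
        2 * exp (4 * R.ε * T') * (R.n s (v - v₀) τ * exp (-(2 * R.ε) * τ))) := by
    refine intervalIntegral.integral_mono_on h2 (ii _ _)
      (((ii _ _).const_mul _).add ((ii _ _).const_mul _)) fun t ht => ?_
    have b1 := mul_le_mul_of_nonneg_right (n_sub s v (v - v₀) t) (exp_pos (2 * R.ε * t)).le
    rw [sub_sub_cancel] at b1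
    have b2 : exp (2 * R.ε * t) ≤ exp (4 * R.ε * T') * exp (-(2 * R.ε) * t) := by
      rw [← exp_add]; exact exp_le_exp.2 (by nlinarith [h.ε0, ht.2])
    nlinarith [mul_le_mul_of_nonneg_left b2 (n0 s (v - v₀) t)]
  rw [intervalIntegral.integral_add ((ii _ _).const_mul _) ((ii _ _).const_mul _),
    intervalIntegral.integral_const_mul, intervalIntegral.integral_const_mul] at a1
  have a2 : ∫ τ in T..T', R.n s (v - v₀) τ * exp (-(2 * R.ε) * τ) ≤ R.I s (v - v₀) := by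
    rw [intervalIntegral.integral_of_le h2]
    exact setIntegral_mono_set (h.fi_sub hv.fi h0.fi s)
      (.of_forall fun t => mul_nonneg (n0 _ _ t) (exp_pos _).le)
      (LE.le.eventuallyLE fun t ht => hT.trans_lt ht.1)
  have a3 := mul_le_mul_of_nonneg_left (a2.trans q) (exp_pos (4 * R.ε * T')).le
  have a4 : P * δ ^ 2 ≤ 1 := by nlinarith [mul_nonneg P0 δ0.le]
  nlinarith [h1 s]

omit h in
theorem fl_all {s : Bool} {u : R.S} {z : ℝ → ℝ} {ψ ρ : ℝ → R.H s} (k : R.Flw s u (R.c0 s) z ψ ρ)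
    {Λ : ℝ} (hz : ∀ τ, z τ + |R.l s| ≤ Λ) : Fl (fun τ => R.sl s τ u) ψ
      (fun τ => ρ τ + (pm s * (R.c0 s τ - R.l s)) • R.sl s τ u) Λ (Ioi (-1)) where
  d1 t ht := by simpa only [add_assoc] using k.d1 t ht
  d2 t ht := by simpa only [add_assoc] using k.d2 t ht
  sm t ht := by
    refine (norm_add_le _ _).trans ?_
    have h1 : |R.c0 s t - R.l s| ≤ |R.l s| := by
      rw [c0, ← sub_one_mul, abs_mul]
      refine mul_le_of_le_one_left (abs_nonneg _) (abs_le.2 ⟨?_, ?_⟩)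
      · linarith [smoothTransition.nonneg t]
      · linarith [smoothTransition.le_one t]
    rw [norm_smul, norm_eq_abs, abs_mul, pm_abs, one_mul]
    nlinarith [k.sm t ht, hz t, norm_nonneg (R.sl s t u)]

omit h in
theorem fl_far {s : Bool} {u : R.S} {z : ℝ → ℝ} {ψ ρ : ℝ → R.H s} (k : R.Flw s u (R.c0 s) z ψ ρ)
    {η T : ℝ} (hT : 1 ≤ T) (hz : ∀ τ ≥ T, z τ ≤ η) : Fl (fun τ => R.sl s τ u) ψ ρ η (Ici T) where
  d1 t ht := by simpa [c0, χ1 (hT.trans ht)] using k.d1 t (by linarith [mem_Ici.1 ht])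
  d2 t ht := by simpa [c0, χ1 (hT.trans ht)] using k.d2 t (by linarith [mem_Ici.1 ht])
  sm t ht := (k.sm t (by linarith [mem_Ici.1 ht])).trans
    (mul_le_mul_of_nonneg_right (hz t ht) (norm_nonneg _))

/-- **the band** -/
theorem band {d : ℝ} (hd : d ∈ Ioc 0 (R.ε / 2)) : ∃ T ≥ 1, ∃ H, ∃ δ > 0, ∀ α v, R.sm α δ →
    R.Ch α v → ∀ s, (∀ τ ≥ -1 / 2, 0 < R.n s v τ) ∧
      Hd (fun τ => log (R.n s v τ) / 2) (2 * d) T H := by
  obtain ⟨δ₀, d0, C, C0, hC⟩ := h.ch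
  obtain ⟨z, Λ, A, hΛ, hz, A0, hf⟩ := h.fl
  have ε0 := h.ε0
  have γ0 := h.γ0
  obtain ⟨d1, d2⟩ := hd
  obtain ⟨T₀, hT₀⟩ := eventually_atTop.1
    ((hz.eventually_le_const (show 0 < d / 4 by linarith)).and (eventually_ge_atTop 1))
  have t1 : 1 ≤ T₀ := (hT₀ T₀ le_rfl).2
  obtain ⟨Λ', hΛ'⟩ : ∃ x, x = |Λ| + A + (|R.l false| + |R.l true|) := ⟨_, rfl⟩
  have Λ0 : 0 ≤ Λ' := by rw [hΛ']; positivity
  obtain ⟨K, hK⟩ : ∃ x, x = d + Λ' ^ 2 / 2 * (T₀ + 1 / 2) + Λ' := ⟨_, rfl⟩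
  have K0 : 0 ≤ K := by rw [hK]; positivity
  let U : ℝ → ℝ := fun b => 2 * C * exp (2 * (K * (b + 1 / 2)))
  obtain ⟨T₃, t3, δ₃, d3, h3⟩ := h.cmp (T := T₀) (by linarith) (U T₀ * exp (2 * R.ε * T₀) / R.ε + 1)
  obtain ⟨T₁, hT₁⟩ : ∃ x, x = T₃ + (2 * R.ε - d) / (2 * d * (d - d / 2)) := ⟨_, rfl⟩
  have t4 : T₃ ≤ T₁ := hT₁ ▸ le_add_of_nonneg_right (div_nonneg (by linarith) (by nlinarith))
  obtain ⟨T₄, t5, δ₄, d4, h4⟩ := h.cmp (T := T₁) (by linarith) 1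
  obtain ⟨m, hm⟩ : ∃ x,
    x = 1 / ((T₄ - T₁ + 1) * (exp (2 * (K * (T₄ + 1 / 2))) * exp (2 * R.ε * T₄))) := ⟨_, rfl⟩
  have t6 : 0 < T₄ - T₁ + 1 := by linarith
  have m0 : 0 < m := by rw [hm]; positivity
  refine ⟨T₁, by linarith, |log m| + |log (U T₁)|, min (min δ₀ (d / 4 / (A + 1))) (min δ₃ δ₄),
    by have := d0.1; positivity, fun α v hα hv s => ?_⟩
  set δ := min (min δ₀ (d / 4 / (A + 1))) (min δ₃ δ₄)
  have δ0 : 0 < δ := by have := d0.1; positivity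
  have e0 : δ ≤ δ₀ := (min_le_left _ _).trans (min_le_left _ _)
  have e1 : δ * (A + 1) ≤ d / 4 :=
    (le_div_iff₀ (by positivity)).1 ((min_le_left _ _).trans (min_le_right _ _))
  have e3 : δ ≤ δ₃ := (min_le_right _ _).trans (min_le_left _ _)
  have e4 : δ ≤ δ₄ := (min_le_right _ _).trans (min_le_right _ _)
  have q := (h.q0_le v).trans ((hC α (h.smm _ _ _ hα e0)).2 v hv).1
  obtain ⟨ψ, ρ, k⟩ := hf α δ _ v s δ0.le hα rd_c0 hv.eq
  have fa := fl_all k (Λ := Λ') fun τ => by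
    have : |R.l s| ≤ |R.l false| + |R.l true| := by
      cases s <;> linarith [abs_nonneg (R.l false), abs_nonneg (R.l true)]
    nlinarith [hΛ τ, le_abs_self Λ, d0.2]
  have ff := fl_far k (η := d / 2) t1 fun τ hτ => by nlinarith [(hT₀ τ hτ).1]
  have gp : ∀ x, d ≤ |x| → |x| ≤ 2 * R.ε → Gap (fun τ => R.sl s τ v) ψ d x (Ici T₀) :=
    fun x a b t ht => k.gap t (by linarith [mem_Ici.1 ht]) x d d1.le a (by linarith)
  have lw : ∀ t ≥ T₀, 0 ≤ hh (fun τ => R.sl s τ v) ψ (-d) t := fun t ht =>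
    ff.dich (ν := -R.ε - d / 2) (by linarith) d1 (by linarith)
      (fun x hx => by
        have : x < 0 := by linarith [hx.2]
        exact gp x (by rw [abs_of_neg this]; linarith [hx.2])
          (by rw [abs_of_neg this]; linarith [hx.1]))
      (big_of_int (T := 0) ((hv.fi s).congr_fun (fun t _ => by
        simp only [n, mul_pow]
        rw [sq (exp _), ← exp_add, mul_comm]; congr 2; ring) measurableSet_Ioi)) ht
  have gr : ∀ a b, -1 / 2 ≤ a → a ≤ b → R.n s v b ≤ R.n s v a * exp (2 * (K * (b - a))) :=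
    fun a b ha hab => hK ▸ fa.grow (by linarith) lw ha hab
  have ub : ∀ b ≥ 0, R.n s v b ≤ U b := fun b hb =>
    upb K0 (h.cn s v (by norm_num)) (n0 s v) gr ((h.col s v).trans q) hb
  have ii : ∀ a b, 0 ≤ a → a ≤ b →
      IntervalIntegrable (fun τ => R.n s v τ * exp (2 * R.ε * τ)) volume a b := fun a b ha hab =>
    ((h.cw s v _).mono fun t ht => by
      rw [uIcc_of_le hab] at ht; exact ha.trans ht.1).intervalIntegrable
  obtain ⟨t, ht, ht'⟩ := ff.exhi ε0 (by linarith) t3 (ub T₀ (by linarith)) (ii _ _ (by linarith) t3)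
    (h3 α v (h.smm _ _ _ hα e3) hv s)
  have hi : ∀ b ≥ T₁, hh (fun τ => R.sl s τ v) ψ d b ≤ 0 := fun b hb =>
    (ff.mono fun x (hx : x ∈ Icc t b) => ht.1.trans hx.1).cross (by linarith) d1 (by linarith)
      (fun x hx => (gp x (by rw [abs_of_pos (d1.trans_le hx.1)]; exact hx.1)
        (by rw [abs_of_pos (d1.trans_le hx.1)]; exact hx.2)).mono fun y hy => ht.1.trans hy.1)
      ht' (by linarith [ht.2])
  have lb : ∀ a ∈ Icc (-1 / 2) T₁, m ≤ R.n s v a := fun a ha => hm ▸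
    lowb K0 ε0.le t5 (ii _ _ (by linarith) t5) (n0 s v) gr (h4 α v (h.smm _ _ _ hα e4) hv s) ha
  have ps : ∀ τ ≥ -1 / 2, 0 < R.n s v τ := fun τ hτ => by
    rcases le_total τ T₁ with a | a
    · exact m0.trans_le (lb τ ⟨hτ, a⟩)
    have b1 := sq_le (norm_nonneg _) ((ff.mono fun x (hx : x ∈ Icc T₁ τ) =>
      (t3.trans t4).trans hx.1).low a fun x hx => hi x hx.1)
    exact pos_of_mul_pos_left ((m0.trans_le (lb T₁ ⟨by linarith, le_rfl⟩)).trans_le b1)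
      (exp_pos _).le
  refine ⟨ps, (((h.smn s v).mono (Ioi_subset_Ioi (by norm_num))).log
    fun t (ht : -1 / 2 < t) => (ps t ht.le).ne').div_const 2, fun τ hτ => ?_, fun τ hτ => ?_⟩
  · have a1 := log_le_log m0 (lb τ ⟨by linarith [hτ.1], hτ.2⟩)
    have a2 := log_le_log (ps τ (by linarith [hτ.1])) ((ub τ hτ.1).trans (show U τ ≤ U T₁ from
      mul_le_mul_of_nonneg_left (exp_le_exp.2 (by nlinarith [hτ.2])) (by positivity)))
    exact abs_le.2 ⟨by linarith [neg_abs_le (log m), abs_nonneg (log m), abs_nonneg (log (U T₁))],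
      by linarith [le_abs_self (log (U T₁)), abs_nonneg (log m), abs_nonneg (log (U T₁))]⟩
  · have τ0 : T₀ ≤ τ := (t3.trans t4).trans hτ
    exact ff.logd τ0 (ps τ (by linarith)) (lw τ τ0) (hi τ hτ)

end Ax
end Rp

end Crest.Agent.X212.Rad94
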