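import Mathlib

/-! The scalar part of the uniqueness argument: `s' = ∓ κ (p₂² - p₁²) s`, `|p₂ - s p₁| ≤ e`. -/

set_option autoImplicit false

noncomputable section

namespace Crest.Agent.X212.Rad94

open Set Filter Topology MeasureTheory Real intervalIntegral

/-- a bounded Lyapunov function -/
def ph (s : ℝ) : ℝ := (s ^ 2 - 1) ^ 2 / (1 + s ^ 4)

theorem ph_nonneg (s : ℝ) : 0 ≤ ph s := by unfold ph; positivity

theorem ph_le (s : ℝ) : ph s ≤ 1 := (div_le_one (by positivity)).2 (by nlinarith [sq_nonneg s])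

theorem ph_cont : Continuous ph := Continuous.div (by fun_prop) (by fun_prop) fun s => by positivity

theorem ph_deriv {s : ℝ → ℝ} {v t : ℝ} (h : HasDerivAt s (v * s t) t) :
    HasDerivAt (fun t => ph (s t))
      (4 * v * (s t ^ 2 * (s t ^ 2 + 1) * (s t ^ 2 - 1)) / (1 + s t ^ 4) ^ 2) t := by
  have h0 : 1 + s t ^ 4 ≠ 0 := by positivity
  refine ((((h.pow 2).sub_const 1).pow 2).div ((h.pow 4).const_add 1) h0).congr_deriv ?_
  simp only [Pi.pow_apply]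
  field_simp
  ring

/-- the data at one time -/
structure Pt (l u K κ₀ s p₁ p₂ e κ : ℝ) : Prop where
  s0 : 0 ≤ s
  l1 : l ≤ p₁
  u1 : p₁ ≤ u
  l2 : l ≤ p₂
  u2 : p₂ ≤ u
  k0 : κ₀ ≤ κ
  k1 : κ ≤ K
  er : |p₂ - s * p₁| ≤ e

theorem Pt.near {l u K : ℝ} (hl : 0 < l) : ∃ C ≥ 0, ∀ {κ₀ s p₁ p₂ e κ : ℝ},
    Pt l u K κ₀ s p₁ p₂ e κ → (s - 1) ^ 2 ≤ C * (ph s + e ^ 2) := by
  refine ⟨1 + (2 * u / l) ^ 4 + (8 * u ^ 2 / l ^ 4 + 6 / l ^ 2), by positivity, ?_⟩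
  intro κ₀ s p₁ p₂ e κ h
  have a1 := abs_le.1 h.er
  have e0 : 0 ≤ e := (abs_nonneg _).trans h.er
  have s0 := h.s0
  have p0 := ph_nonneg s
  have hu : l ≤ u := h.l1.trans h.u1
  have a2 : s * l ≤ u + e := by nlinarith [h.l1, h.u2]
  have c1 : 0 ≤ (2 * u / l) ^ 4 := by positivity
  have c2 : 0 ≤ 8 * u ^ 2 / l ^ 4 + 6 / l ^ 2 := by positivity
  rcases le_total e (l / 2) with he | he
  · have b1 : s ≤ 2 * u / l := (le_div_iff₀ hl).2 (by linarith)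
    have b2 := pow_le_pow_left₀ s0 b1 4
    have b3 : ph s * (1 + s ^ 4) = (s ^ 2 - 1) ^ 2 := div_mul_cancel₀ _ (by positivity)
    have b4 : (s - 1) ^ 2 ≤ (s ^ 2 - 1) ^ 2 := by
      rw [show (s ^ 2 - 1) ^ 2 = (s - 1) ^ 2 * (s + 1) ^ 2 by ring]
      exact le_mul_of_one_le_right (sq_nonneg _) (by nlinarith)
    nlinarith [mul_le_mul_of_nonneg_left b2 p0, mul_nonneg c2 p0, sq_nonneg e,
      mul_nonneg (add_nonneg c1 c2) (sq_nonneg e)]
  · have b1 : 1 ≤ 4 / l ^ 2 * e ^ 2 := by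
      rw [div_mul_eq_mul_div, le_div_iff₀ (by positivity)]; nlinarith
    have b2 : s ^ 2 ≤ 2 * u ^ 2 / l ^ 2 + 2 / l ^ 2 * e ^ 2 := by
      rw [div_mul_eq_mul_div, ← add_div, le_div_iff₀ (by positivity), ← mul_pow]
      nlinarith [pow_le_pow_left₀ (by positivity) a2 2, sq_nonneg (u - e)]
    have b3 := mul_le_mul_of_nonneg_left b1 (show 0 ≤ 2 * u ^ 2 / l ^ 2 by positivity)
    have e1 : 2 * u ^ 2 / l ^ 2 * (4 / l ^ 2 * e ^ 2) + 2 / l ^ 2 * e ^ 2 + 4 / l ^ 2 * e ^ 2 =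
      (8 * u ^ 2 / l ^ 4 + 6 / l ^ 2) * e ^ 2 := by field_simp; ring
    nlinarith [mul_nonneg (add_nonneg c1 c2) p0, mul_nonneg c1 (sq_nonneg e), sq_nonneg e]

theorem iq1 {K μ κ S w A : ℝ} (hμ : 0 < μ) (κ0 : 0 ≤ κ) (k1 : κ ≤ K) (A0 : 0 ≤ A) (A1 : A ≤ 3 / 2) :
    -(4 * κ * A * ((S - 1) * w)) / (1 + S ^ 2) ≤
      μ * ((S - 1) ^ 2 / (1 + S ^ 2)) + 9 * K ^ 2 / μ * (w ^ 2 / (1 + S ^ 2)) := by
  rw [← mul_div_assoc, ← mul_div_assoc, ← add_div]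
  refine div_le_div_of_nonneg_right ?_ (by positivity)
  have d1 : 2 * κ * A ≤ 3 * K := by nlinarith
  have d2 : (2 * κ * A) ^ 2 / μ ≤ 9 * K ^ 2 / μ := div_le_div_of_nonneg_right
    (by linarith [pow_le_pow_left₀ (by positivity) d1 2]) hμ.le
  have d3 : 0 ≤ (μ * (S - 1) + 2 * κ * A * w) ^ 2 / μ := by positivity
  have d4 : (μ * (S - 1) + 2 * κ * A * w) ^ 2 / μ =
    μ * (S - 1) ^ 2 + 4 * κ * A * ((S - 1) * w) + (2 * κ * A) ^ 2 / μ * w ^ 2 := by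
    field_simp; ring
  linarith [mul_le_mul_of_nonneg_right d2 (sq_nonneg w)]

theorem iq2 {S : ℝ} (S0 : 0 ≤ S) : min S 1 ≤ S * (S + 1) / (1 + S ^ 2) := by
  have D0 : 0 < 1 + S ^ 2 := by positivity
  rcases le_total S 1 with g | g
  · exact (min_le_left _ _).trans ((le_div_iff₀ D0).2
      (by nlinarith [mul_nonneg S0 (mul_nonneg S0 (sub_nonneg.2 g))]))
  · exact (min_le_right _ _).trans ((one_le_div D0).2 (by nlinarith))

theorem Pt.good {l u K κ₀ s p₁ p₂ e κ : ℝ} (hl : 0 < l) (k0 : 0 ≤ κ₀) (h : Pt l u K κ₀ s p₁ p₂ e κ)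
    (he : e ≤ l / 2) : (p₂ ^ 2 - s ^ 2 * p₁ ^ 2) ^ 2 ≤ 9 * u ^ 2 * e ^ 2 ∧
      κ₀ * l ^ 4 / u ^ 2 ≤ 4 * κ * p₁ ^ 2 * min (s ^ 2) 1 := by
  have a1 := abs_le.1 h.er
  have s0 := h.s0
  have hu : l ≤ u := h.l1.trans h.u1
  have u0 : 0 < u := hl.trans_le hu
  have p1 : 0 < p₁ := hl.trans_le h.l1
  have p2 : 0 < p₂ := hl.trans_le h.l2
  have κ0 : 0 ≤ κ := k0.trans h.k0
  constructor
  · have f1 : (p₂ - s * p₁) ^ 2 ≤ e ^ 2 := sq_le_sq' a1.1 a1.2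
    have f2 : (p₂ + s * p₁) ^ 2 ≤ (3 * u) ^ 2 :=
      pow_le_pow_left₀ (by positivity) (by linarith [h.u2]) 2
    calc _ = (p₂ + s * p₁) ^ 2 * (p₂ - s * p₁) ^ 2 := by ring
      _ ≤ (3 * u) ^ 2 * e ^ 2 := mul_le_mul f2 f1 (sq_nonneg _) (sq_nonneg _)
      _ = _ := by ring
  · have f1 : l / 2 ≤ s * u := by linarith [h.l2, mul_le_mul_of_nonneg_left h.u1 s0]
    have f2 : l ^ 2 / (4 * u ^ 2) ≤ s ^ 2 := (div_le_iff₀ (by positivity)).2 (by
      linarith [pow_le_pow_left₀ (by positivity) f1 2])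
    have f3 : l ^ 2 / (4 * u ^ 2) ≤ 1 := (div_le_one (by positivity)).2 (by
      linarith [sq_nonneg u, pow_le_pow_left₀ hl.le hu 2])
    have f4 := le_min f2 f3
    calc κ₀ * l ^ 4 / u ^ 2 = 4 * κ₀ * l ^ 2 * (l ^ 2 / (4 * u ^ 2)) := by field_simp
      _ ≤ _ := by gcongr; exacts [h.k0, h.l1]

theorem Pt.bad {l u K κ₀ s p₁ p₂ e κ : ℝ} (hl : 0 < l) (k0 : 0 ≤ κ₀) (h : Pt l u K κ₀ s p₁ p₂ e κ)
    (he : l / 2 ≤ e) :
    (p₂ ^ 2 - s ^ 2 * p₁ ^ 2) ^ 2 / (1 + (s ^ 2) ^ 2) ≤ 4 * u ^ 4 / l ^ 2 * e ^ 2 ∧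
      κ₀ * l ^ 4 / u ^ 2 * ph s ≤ 4 * K * e ^ 2 := by
  have hu : l ≤ u := h.l1.trans h.u1
  have u0 : 0 < u := hl.trans_le hu
  have p1 : 0 < p₁ := hl.trans_le h.l1
  have p2 : 0 < p₂ := hl.trans_le h.l2
  have K0 : 0 ≤ K := (k0.trans h.k0).trans h.k1
  have b0 : l ^ 2 ≤ 4 * e ^ 2 := by linarith [pow_le_pow_left₀ (by positivity) he 2]
  constructor
  · have g1 : p₂ ^ 4 ≤ u ^ 4 := pow_le_pow_left₀ p2.le h.u2 4
    have g2 : p₁ ^ 4 ≤ u ^ 4 := pow_le_pow_left₀ p1.le h.u1 4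
    have g3 : 0 ≤ p₂ ^ 2 * (s ^ 2 * p₁ ^ 2) := by positivity
    have f1 : (p₂ ^ 2 - s ^ 2 * p₁ ^ 2) ^ 2 / (1 + (s ^ 2) ^ 2) ≤ u ^ 4 :=
      (div_le_iff₀ (by positivity)).2 (by
        linarith [mul_le_mul_of_nonneg_left g2 (sq_nonneg (s ^ 2))])
    refine f1.trans ?_
    rw [div_mul_eq_mul_div, le_div_iff₀ (by positivity)]
    linarith [mul_le_mul_of_nonneg_left b0 (show 0 ≤ u ^ 4 by positivity)]
  · have f1 : κ₀ * l ^ 4 / u ^ 2 ≤ K * l ^ 2 := (div_le_iff₀ (by positivity)).2 (by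
      rw [show κ₀ * l ^ 4 = κ₀ * l ^ 2 * l ^ 2 by ring]
      gcongr
      exact h.k0.trans h.k1)
    linarith [mul_le_mul_of_nonneg_left b0 K0,
      mul_le_mul f1 (ph_le s) (ph_nonneg s) (by positivity)]

theorem Pt.ineq {l u K μ : ℝ} (hl : 0 < l) (hμ : 0 < μ) : ∃ C ≥ 0, ∀ {κ₀ s p₁ p₂ e κ : ℝ},
    0 ≤ κ₀ → Pt l u K κ₀ s p₁ p₂ e κ →
    4 * -(κ * (p₂ ^ 2 - p₁ ^ 2)) * (s ^ 2 * (s ^ 2 + 1) * (s ^ 2 - 1)) / (1 + s ^ 4) ^ 2 ≤
      (μ - κ₀ * l ^ 4 / u ^ 2) * ph s + C * e ^ 2 := by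
  refine ⟨9 * K ^ 2 / μ * (9 * u ^ 2 + 4 * u ^ 4 / l ^ 2) + 4 * |K|, by positivity, ?_⟩
  intro κ₀ s p₁ p₂ e κ k0 h
  have κ0 : 0 ≤ κ := k0.trans h.k0
  have K0 : 0 ≤ K := κ0.trans h.k1
  have p0 := ph_nonneg s
  have D0 : 0 < 1 + (s ^ 2) ^ 2 := by positivity
  have b3 : ph s = (s ^ 2 - 1) ^ 2 / (1 + (s ^ 2) ^ 2) := by rw [ph, ← pow_mul]
  have A2 := iq2 (sq_nonneg s)
  have A0 : 0 ≤ s ^ 2 * (s ^ 2 + 1) / (1 + (s ^ 2) ^ 2) := by positivity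
  have c1 := iq1 (S := s ^ 2) (w := p₂ ^ 2 - s ^ 2 * p₁ ^ 2) hμ κ0 h.k1 A0
    ((div_le_iff₀ D0).2 (by linarith [sq_nonneg (s ^ 2 - 1)]))
  have e1 : 4 * -(κ * (p₂ ^ 2 - p₁ ^ 2)) * (s ^ 2 * (s ^ 2 + 1) * (s ^ 2 - 1)) / (1 + s ^ 4) ^ 2 =
      -(4 * κ * p₁ ^ 2 * (s ^ 2 * (s ^ 2 + 1) / (1 + (s ^ 2) ^ 2))) * ph s +
        -(4 * κ * (s ^ 2 * (s ^ 2 + 1) / (1 + (s ^ 2) ^ 2)) *
          ((s ^ 2 - 1) * (p₂ ^ 2 - s ^ 2 * p₁ ^ 2))) / (1 + (s ^ 2) ^ 2) := by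
    rw [b3]; field_simp; ring
  have M0 : 0 ≤ 9 * K ^ 2 / μ := by positivity
  rw [e1, abs_of_nonneg K0]
  rw [← b3] at c1
  have w0 : 0 ≤ 4 * κ * p₁ ^ 2 := by positivity
  generalize s ^ 2 * (s ^ 2 + 1) / (1 + (s ^ 2) ^ 2) = A at *
  rcases le_total e (l / 2) with he | he
  · obtain ⟨w1, w2⟩ := h.good hl k0 he
    have w3 := (div_le_self (sq_nonneg _) (le_add_of_nonneg_right (sq_nonneg (s ^ 2)))).trans w1
    have w4 : 0 ≤ 9 * K ^ 2 / μ * (4 * u ^ 4 / l ^ 2) * e ^ 2 := by positivity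
    linarith [mul_le_mul_of_nonneg_right (w2.trans (mul_le_mul_of_nonneg_left A2 w0)) p0,
      mul_le_mul_of_nonneg_left w3 M0, mul_nonneg K0 (sq_nonneg e)]
  · obtain ⟨w1, w2⟩ := h.bad hl k0 he
    have w4 : 0 ≤ 9 * K ^ 2 / μ * (9 * u ^ 2) * e ^ 2 := by positivity
    linarith [mul_le_mul_of_nonneg_left w1 M0, mul_nonneg (mul_nonneg w0 A0) p0]

theorem wint {f f' y g : ℝ → ℝ} {a b m : ℝ} (hab : a ≤ b)
    (hd : ∀ t ∈ Icc a b, HasDerivAt f (f' t) t) (hy : ContinuousOn y (Icc a b))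
    (hg : ContinuousOn g (Icc a b)) (h : ∀ t ∈ Icc a b, f' t ≤ g t - m * y t) :
    f b - f a + m * ∫ t in a..b, y t ≤ ∫ t in a..b, g t := by
  have := sub_le_integral_of_hasDeriv_right_of_le (φ := fun t => g t - m * y t) hab
    (fun t ht => (hd t ht).continuousAt.continuousWithinAt)
    (fun t ht => (hd t (Ioo_subset_Icc_self ht)).hasDerivWithinAt)
    (hg.sub (continuousOn_const.mul hy)).integrableOn_Icc fun t ht => h t (Ioo_subset_Icc_self ht)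
  rw [intervalIntegral.integral_sub (hg.intervalIntegrable_of_Icc hab)
    ((hy.intervalIntegrable_of_Icc hab).const_mul m), intervalIntegral.integral_const_mul] at this
  linarith

theorem int_le {f : ℝ → ℝ} {a b : ℝ} (ha : 0 ≤ a) (hab : a ≤ b) (hf : IntegrableOn f (Ioi 0))
    (h0 : ∀ t, 0 ≤ f t) : ∫ t in a..b, f t ≤ ∫ t in Ioi 0, f t := by
  rw [integral_of_le hab]
  exact setIntegral_mono_set hf (.of_forall h0)
    (LE.le.eventuallyLE (show Ioc a b ⊆ Ioi 0 from fun t ht => ha.trans_lt ht.1))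

theorem dexp (c t : ℝ) : HasDerivAt (fun t => exp (c * t)) (c * exp (c * t)) t :=
  ((hasDerivAt_id t).const_mul c).exp.congr_deriv (by simp [mul_comm])

theorem int_ph {s : ℝ → ℝ} {ε : ℝ} (hε : 0 < ε) (hs : ContinuousOn s (Ici 0)) :
    IntegrableOn (fun t => ph (s t) * exp (-(2 * ε) * t)) (Ioi 0) := by
  refine (exp_neg_integrableOn_Ioi 0 (show 0 < 2 * ε by positivity)).mono'
    ((((ph_cont.comp_continuousOn hs).mono Ioi_subset_Ici_self).mul (by fun_prop)).aestronglyMeasurable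
      measurableSet_Ioi) (.of_forall fun t => ?_)
  rw [norm_of_nonneg (mul_nonneg (ph_nonneg _) (exp_pos _).le)]
  exact mul_le_of_le_one_left (exp_pos _).le (ph_le _)

theorem le_of_int {f : ℝ → ℝ} {A : ℝ} (hf : IntegrableOn f (Ioi 0))
    (h : ∀ η > 0, ∀ᶠ b in atTop, ∫ t in (0 : ℝ)..b, f t ≤ A + η) :
    ∫ t in Ioi 0, f t ≤ A :=
  le_of_forall_pos_le_add fun η hη =>
    le_of_tendsto (intervalIntegral_tendsto_integral_Ioi 0 hf tendsto_id) (h η hη)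

/-- from `ph` to `(s - 1)²` -/
theorem near_int {l u K ε : ℝ} (hl : 0 < l) (hε : 0 < ε) : ∃ C ≥ 0, ∀ {s p₁ p₂ e κ : ℝ → ℝ},
    ContinuousOn s (Ici 0) → (∀ t ≥ 0, Pt l u K 0 (s t) (p₁ t) (p₂ t) (e t) (κ t)) →
    IntegrableOn (fun t => e t ^ 2 * exp (-(2 * ε) * t)) (Ioi 0) →
    IntegrableOn (fun t => (s t - 1) ^ 2 * exp (-(2 * ε) * t)) (Ioi 0) ∧
    ∫ t in Ioi 0, (s t - 1) ^ 2 * exp (-(2 * ε) * t) ≤
      C * ((∫ t in Ioi 0, ph (s t) * exp (-(2 * ε) * t)) +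
        ∫ t in Ioi 0, e t ^ 2 * exp (-(2 * ε) * t)) := by
  obtain ⟨C, hC, H⟩ := Pt.near (u := u) (K := K) hl
  refine ⟨C, hC, fun {s p₁ p₂ e κ} hs hp he => ?_⟩
  have i1 : IntegrableOn (fun t => C * (ph (s t) * exp (-(2 * ε) * t) +
      e t ^ 2 * exp (-(2 * ε) * t))) (Ioi 0) := ((int_ph hε hs).add he).const_mul C
  have b : ∀ t ∈ Ioi (0 : ℝ), (s t - 1) ^ 2 * exp (-(2 * ε) * t) ≤
      C * (ph (s t) * exp (-(2 * ε) * t) + e t ^ 2 * exp (-(2 * ε) * t)) := fun t ht => by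
    have := mul_le_mul_of_nonneg_right (H (hp t (le_of_lt ht))) (exp_pos (-(2 * ε) * t)).le
    linarith
  have i2 : IntegrableOn (fun t => (s t - 1) ^ 2 * exp (-(2 * ε) * t)) (Ioi 0) :=
    i1.mono' (((((hs.mono Ioi_subset_Ici_self).sub continuousOn_const).pow 2).mul
      (by fun_prop)).aestronglyMeasurable measurableSet_Ioi)
      ((ae_restrict_iff' measurableSet_Ioi).2 (.of_forall fun t ht => by
        rw [norm_of_nonneg (by positivity)]; exact b t ht))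
  refine ⟨i2, (setIntegral_mono_on i2 i1 measurableSet_Ioi b).trans (le_of_eq ?_)⟩
  rw [MeasureTheory.integral_const_mul, integral_add (int_ph hε hs) he]

/-- **outgoing ends** -/
theorem scal_out {l u K ε : ℝ} (hl : 0 < l) (hε : 0 < ε) : ∃ C ≥ 0, ∀ {s p₁ p₂ e κ : ℝ → ℝ},
    (∀ t ≥ 0, HasDerivAt s (-(κ t * (p₂ t ^ 2 - p₁ t ^ 2)) * s t) t) →
    (∀ t ≥ 0, Pt l u K 0 (s t) (p₁ t) (p₂ t) (e t) (κ t)) → ContinuousOn e (Ici 0) →
    IntegrableOn (fun t => e t ^ 2 * exp (-(2 * ε) * t)) (Ioi 0) →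
    ∫ t in Ioi 0, ph (s t) * exp (-(2 * ε) * t) ≤
      C * (ph (s 0) + ∫ t in Ioi 0, e t ^ 2 * exp (-(2 * ε) * t)) := by
  obtain ⟨C, hC, H⟩ := Pt.ineq (u := u) (K := K) hl hε
  refine ⟨(C + 1) / ε, by positivity, fun {s p₁ p₂ e κ} hd hp hc he => ?_⟩
  have hs : ContinuousOn s (Ici 0) := fun t ht => (hd t ht).continuousAt.continuousWithinAt
  refine le_of_int (int_ph hε hs) fun η hη => (eventually_ge_atTop 0).mono fun b hb => ?_
  have h1 := wint (f := fun t => ph (s t) * exp (-(2 * ε) * t))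
    (y := fun t => ph (s t) * exp (-(2 * ε) * t)) (g := fun t => C * (e t ^ 2 * exp (-(2 * ε) * t)))
    (m := ε) hb (fun t ht => (ph_deriv (hd t ht.1)).mul (dexp _ t))
    (((ph_cont.comp_continuousOn hs).mono Icc_subset_Ici_self).mul (by fun_prop))
    (continuousOn_const.mul (((hc.mono Icc_subset_Ici_self).pow 2).mul (by fun_prop)))
    fun t ht => by
      have := mul_le_mul_of_nonneg_right (H le_rfl (hp t ht.1)) (exp_pos (-(2 * ε) * t)).le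
      simp only [zero_mul, zero_div, sub_zero] at this
      linarith
  rw [intervalIntegral.integral_const_mul] at h1
  have h2 := int_le le_rfl hb he fun t => by positivity
  have h3 : 0 ≤ ∫ t in Ioi 0, e t ^ 2 * exp (-(2 * ε) * t) := integral_nonneg fun t => by positivity
  have h4 := mul_nonneg (ph_nonneg (s b)) (exp_pos (-(2 * ε) * b)).le
  simp only [mul_zero, exp_zero, mul_one] at h1
  refine le_trans ?_ (le_add_of_nonneg_right hη.le)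
  rw [div_mul_eq_mul_div, le_div_iff₀ hε]
  nlinarith [mul_le_mul_of_nonneg_left h2 hC, mul_nonneg hC (ph_nonneg (s 0))]

/-- **the incoming end** (in the outward coordinate) -/
theorem scal_in {l u K l' u' κ₀ T ε : ℝ} (hl : 0 < l) (hl' : 0 < l') (hε : 0 < ε) (hκ : 0 ≤ κ₀)
    (hT : 0 ≤ T) (hk : 4 * ε ≤ κ₀ * l' ^ 4 / u' ^ 2) : ∃ C ≥ 0, ∀ {s p₁ p₂ e κ : ℝ → ℝ},
    (∀ t ≥ 0, HasDerivAt s (κ t * (p₂ t ^ 2 - p₁ t ^ 2) * s t) t) →
    (∀ t ≥ 0, Pt l u K 0 (s t) (p₁ t) (p₂ t) (e t) (κ t)) →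
    (∀ t ≥ T, Pt l' u' K κ₀ (s t) (p₁ t) (p₂ t) (e t) (κ t)) → ContinuousOn e (Ici 0) →
    IntegrableOn (fun t => e t ^ 2 * exp (-(2 * ε) * t)) (Ioi 0) →
    ph (s 0) + ∫ t in Ioi 0, ph (s t) * exp (-(2 * ε) * t) ≤
      C * ∫ t in Ioi 0, e t ^ 2 * exp (-(2 * ε) * t) := by
  obtain ⟨C, hC, H⟩ := Pt.ineq (u := u) (K := K) hl one_pos
  obtain ⟨C', hC', H'⟩ := Pt.ineq (u := u') (K := K) hl' hε
  set A := exp ((2 + 2 * ε) * T) with hA
  have A0 : 0 < A := exp_pos _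
  refine ⟨A * (C + C') + C' / ε, by positivity, fun {s p₁ p₂ e κ} hd hp hp' hc he => ?_⟩
  have hs : ContinuousOn s (Ici 0) := fun t ht => (hd t ht).continuousAt.continuousWithinAt
  have hy : ∀ c, ContinuousOn (fun t => ph (s t) * exp (c * t)) (Ici 0) := fun c =>
    (ph_cont.comp_continuousOn hs).mul (by fun_prop)
  have hg : ∀ c, ContinuousOn (fun t => e t ^ 2 * exp (c * t)) (Ici 0) := fun c =>
    (hc.pow 2).mul (by fun_prop)
  set I := ∫ t in Ioi 0, e t ^ 2 * exp (-(2 * ε) * t) with hI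
  have I0 : 0 ≤ I := integral_nonneg fun t => by positivity
  have far : ∀ b ≥ T, ph (s T) * exp (-(2 * ε) * T) +
      ε * ∫ t in T..b, ph (s t) * exp (-(2 * ε) * t) ≤ exp (-(2 * ε) * b) + C' * I := fun b hb => by
    have sub : Icc T b ⊆ Ici 0 := fun t ht => hT.trans ht.1
    have h1 := wint (f := fun t => -(ph (s t) * exp (-(2 * ε) * t)))
      (g := fun t => C' * (e t ^ 2 * exp (-(2 * ε) * t))) (m := ε) hb
      (fun t ht => ((ph_deriv (hd t (sub ht))).mul (dexp _ t)).neg) ((hy (-(2 * ε))).mono sub)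
      (continuousOn_const.mul ((hg _).mono sub)) fun t ht => by
        have a1 := mul_le_mul_of_nonneg_right (H' hκ (hp' t ht.1)) (exp_pos (-(2 * ε) * t)).le
        have a2 := mul_le_mul_of_nonneg_right hk
          (mul_nonneg (ph_nonneg (s t)) (exp_pos (-(2 * ε) * t)).le)
        simp only [mul_neg, neg_mul, neg_div] at a1 a2 ⊢
        linarith
    rw [intervalIntegral.integral_const_mul] at h1
    have h2 := mul_le_mul_of_nonneg_left (int_le hT hb he fun t => by positivity) hC'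
    have h4 := mul_le_of_le_one_left (exp_pos (-(2 * ε) * b)).le (ph_le (s b))
    linarith
  have sub : Icc 0 T ⊆ Ici 0 := Icc_subset_Ici_self
  have h1 := wint (f := fun t => -(ph (s t) * exp (2 * t))) (g := fun t => C * (e t ^ 2 * exp (2 * t)))
    (m := 1) hT (fun t ht => ((ph_deriv (hd t ht.1)).mul (dexp _ t)).neg) ((hy 2).mono sub)
    (continuousOn_const.mul ((hg _).mono sub)) fun t ht => by
      have a1 := mul_le_mul_of_nonneg_right (H le_rfl (hp t ht.1)) (exp_pos (2 * t)).le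
      simp only [mul_neg, neg_mul, neg_div, zero_mul, zero_div, sub_zero] at a1 ⊢
      linarith
  rw [intervalIntegral.integral_const_mul] at h1
  have h2 : ∫ t in (0 : ℝ)..T, e t ^ 2 * exp (2 * t) ≤ A * I := by
    refine le_trans ?_ (mul_le_mul_of_nonneg_left (int_le le_rfl hT he fun t => by positivity) A0.le)
    rw [← intervalIntegral.integral_const_mul]
    refine integral_mono_on hT (((hg 2).mono sub).intervalIntegrable_of_Icc hT)
      ((((hg _).mono sub).intervalIntegrable_of_Icc hT).const_mul A) fun t ht => ?_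
    rw [mul_left_comm, hA, ← exp_add]
    exact mul_le_mul_of_nonneg_left (exp_le_exp.2 (by nlinarith [ht.2])) (sq_nonneg _)
  have h3 : ∫ t in (0 : ℝ)..T, ph (s t) * exp (-(2 * ε) * t) ≤
      ∫ t in (0 : ℝ)..T, ph (s t) * exp (2 * t) :=
    integral_mono_on hT (((hy _).mono sub).intervalIntegrable_of_Icc hT)
      (((hy _).mono sub).intervalIntegrable_of_Icc hT) fun t ht =>
      mul_le_mul_of_nonneg_left (exp_le_exp.2 (by nlinarith [ht.1])) (ph_nonneg _)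
  have h4 : ph (s T) * exp (2 * T) = A * (ph (s T) * exp (-(2 * ε) * T)) := by
    rw [mul_left_comm, hA, ← exp_add]; congr 2; ring
  simp only [mul_zero, exp_zero, mul_one, one_mul] at h1
  rw [← le_sub_iff_add_le']
  refine le_of_int (int_ph hε hs) fun η hη => ?_
  have ht : Tendsto (fun b : ℝ => (A + 1 / ε) * exp (-(2 * ε) * b)) atTop (𝓝 ((A + 1 / ε) * 0)) :=
    (tendsto_exp_atBot.comp (tendsto_id.const_mul_atTop_of_neg (by linarith))).const_mul _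
  rw [mul_zero] at ht
  filter_upwards [eventually_ge_atTop T, ht.eventually (eventually_le_nhds hη)] with b hb hb'
  have h5 := far b hb
  have h6 : 0 ≤ ∫ t in T..b, ph (s t) * exp (-(2 * ε) * t) :=
    intervalIntegral.integral_nonneg hb fun t _ => mul_nonneg (ph_nonneg _) (exp_pos _).le
  have h7 := mul_nonneg (ph_nonneg (s T)) (exp_pos (-(2 * ε) * T)).le
  rw [← integral_add_adjacent_intervals (b := T) (((hy _).mono sub).intervalIntegrable_of_Icc hT)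
    (((hy _).mono fun t ht => hT.trans ht.1).intervalIntegrable_of_Icc hb)]
  have h8 : ∫ t in T..b, ph (s t) * exp (-(2 * ε) * t) ≤ 1 / ε * exp (-(2 * ε) * b) + C' / ε * I := by
    rw [div_mul_eq_mul_div, div_mul_eq_mul_div, ← add_div, le_div_iff₀ hε]
    linarith
  have h9 := mul_le_mul_of_nonneg_left (show ph (s T) * exp (-(2 * ε) * T) ≤
    exp (-(2 * ε) * b) + C' * I by linarith [mul_nonneg hε.le h6]) A0.le
  nlinarith [mul_le_mul_of_nonneg_left h2 hC]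

end Crest.Agent.X212.Rad94
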