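import Crest.Agent.X212.Rad94.AbL
import Crest.Agent.X212.Rad94.Scal

/-!
# Row 212, AN-S (helper94): `AbsStmt`
-/

set_option autoImplicit false
set_option linter.unusedSectionVars false
noncomputable section
open scoped Topology InnerProductSpace ContDiff
open MeasureTheory Set Function Filter Real

namespace Crest.Agent.X212.Rad94
open M (pm)

theorem Pd.mono {b : ℝ → ℝ} {l x₀ κ e₀ κ₀ r₁ r₂ η₁ : ℝ} {K K' : NNReal}
    (h : Pd b l x₀ κ e₀ K κ₀ r₁ r₂ η₁) (k : K ≤ K') : Pd b l x₀ κ e₀ K' κ₀ r₁ r₂ η₁ :=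
  { h with
    lip := h.lip.weaken k
    bd := fun r hr => (h.bd r hr).trans k
    sl := fun r hr r' hr' => let ⟨c, hc, e⟩ := h.sl r hr r' hr'; ⟨c, ⟨hc.1, hc.2.trans k⟩, e⟩ }

theorem exists_prim {c c' : Bool → ℝ → ℝ} (hc : Rd c) (hc' : Rd c') : ∃ g, Rd g ∧
    (∀ s τ, HasDerivAt (g s) (pm s * (c' s τ - c s τ)) τ) ∧
    (fun s τ => c s τ + pm s * deriv (g s) τ) = c' := by
  have k : ∀ s, ContDiff ℝ ∞ fun τ => pm s * (c' s τ - c s τ) := fun s =>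
    contDiff_const.mul ((hc' s).1.sub (hc s).1)
  have d : ∀ s τ, HasDerivAt (fun τ => ∫ t in (0 : ℝ)..τ, pm s * (c' s t - c s t))
      (pm s * (c' s τ - c s τ)) τ := fun s τ => (k s).continuous.deriv_integral _ 0 τ ▸
    ((k s).continuous.integral_hasStrictDerivAt 0 τ).hasDerivAt.differentiableAt.hasDerivAt
  refine ⟨_, fun s => ⟨cd_ode (F := fun p => pm s * (c' s p.1 - c s p.1)) ((k s).comp contDiff_fst)
    (d s), fun τ hτ => ?_⟩, d, funext₂ fun s τ => ?_⟩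
  · have := mv (C := 0) hτ (fun t _ => d s t) fun t ht => by simp [(hc s).2 t ht.2, (hc' s).2 t ht.2]
    rw [zero_mul, abs_nonpos_iff, intervalIntegral.integral_same, zero_sub, neg_eq_zero] at this
    exact this
  · rw [(d s τ).deriv, ← mul_assoc, pm_mul]; ring

namespace Rp
variable {R : Rp} {b : Bool → ℝ → ℝ}

variable (R b) in
/-- the bounds of a solution -/
structure Bd (η X up T : ℝ) (u : R.S) : Prop where
  q : R.q0 u ≤ up
  n : ∀ s, ∀ τ ≥ 0, R.n s u τ ∈ Icc (exp (-(2 * X))) up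
  lv : ∀ s, ∀ τ ≥ T, |b s (R.n s u τ) - R.l s| ≤ η / 2
  pr : ‖R.pr u‖ ∈ Icc (exp (-X)) (exp X)

namespace Ax
variable (h : R.Ax)
include h

theorem rd_cm (hb : ∀ s, ContDiff ℝ ∞ (b s)) (u : R.S) : Rd (R.cm b u) := fun s =>
  ⟨cd_chi contDiff_id fun x (hx : -1 / 2 < x) => (hb s).contDiffAt.comp x
    ((h.smn s u).contDiffAt (Ioi_mem_nhds (by linarith))), fun τ hτ => by simp [cm, χ0 hτ]⟩

theorem q0_E {g : Bool → ℝ → ℝ} (hg : Rd g) (u : R.S) : R.q0 (R.E g u) = R.q0 u := by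
  simpa using h.q0E g u u hg

theorem fi_E {u : R.S} {g g' : Bool → ℝ → ℝ} {M μ : ℝ} (hg : Rd g) (hμ : μ < R.ε)
    (hd : ∀ s τ, HasDerivAt (g s) (g' s τ) τ)
    (hb : ∀ s, ∀ᶠ τ in atTop, R.n s u τ ≤ M ∧ |g' s τ| ≤ μ) : R.Fi (R.E g u) :=
  h.fi_of hμ fun s => by
    obtain ⟨T, hT⟩ := eventually_atTop.1 ((hb s).and (eventually_ge_atTop 0))
    refine ⟨exp (2 * (g s T - μ * T)) * M, eventually_atTop.2 ⟨T, fun τ hτ => ?_⟩⟩
    have := (abs_le.1 (mv hτ (fun t _ => hd s t) fun t ht => (hT t ht.1).1.2)).2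
    rw [h.n_E s hg u (by linarith [(hT τ hτ).2]), mul_right_comm, ← exp_add]
    exact mul_le_mul (exp_le_exp.2 (by linarith)) (hT τ hτ).1.1 (n0 _ _ _) (exp_pos _).le

theorem Q_sub {u v : R.S} (hu : R.Fi u) (hv : R.Fi v) : R.Q (u - v) ≤ 2 * R.Q u + 2 * R.Q v := by
  have a := fun s => (h.of_le (f := fun τ => 2 * R.n s u τ + 2 * R.n s v τ)
    (by simp only [add_mul, mul_assoc]; exact ((hu s).const_mul 2).add ((hv s).const_mul 2))
    fun τ _ => n_sub s u v τ).2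
  have a' : ∀ s, R.I s (u - v) ≤ 2 * R.I s u + 2 * R.I s v := fun s => (a s).trans_eq (by
    simp only [add_mul, mul_assoc]
    rw [integral_add ((hu s).const_mul 2) ((hv s).const_mul 2), integral_const_mul,
      integral_const_mul, I, I])
  have q := h.q0a u ((-1 : ℝ) • v)
  rw [h.q0s, neg_one_smul, ← sub_eq_add_neg] at q
  simp only [Q_eq]
  linarith [a' true, a' false]

/-- the estimate for masses that are close to `c0` far out -/
theorem est2 : ∃ δ₀ > 0, ∀ B ≥ 0, ∀ T ≥ 0, ∃ C ≥ 0, ∀ α c u, R.sm α δ₀ → Rd c →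
    (∀ s τ, |c s τ - R.c0 s τ| ≤ B) → (∀ s, ∀ τ ≥ T, |c s τ - R.c0 s τ| ≤ δ₀) → R.Fi u →
    R.F' (R.D α c u) → R.Q u ≤ C * (R.Q' (R.D α c u) + ‖R.pr u‖ ^ 2) := by
  obtain ⟨δ₀, d0, C, C0, hC⟩ := h.est'
  refine ⟨δ₀, d0.1, fun B B0 T T0 => ⟨exp (2 * (B * (T + 1))) * (C * exp (2 * (B * (T + 1)))),
    by positivity, fun α c u hα hc h1 h2 hu hf => ?_⟩⟩
  have r2 : Rd fun s τ => R.c0 s τ + (c s τ - R.c0 s τ) * χ (τ - T) := fun s =>
    ⟨(rd_c0 s).1.add (((hc s).1.sub (rd_c0 s).1).mul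
      (smoothTransition.contDiff.comp (contDiff_id.sub contDiff_const))),
      fun τ hτ => by simp [(hc s).2 τ hτ, (rd_c0 (R := R) s).2 τ hτ]⟩
  obtain ⟨g, hg, dg, e⟩ := exists_prim hc r2
  have G0 : 0 ≤ B * (T + 1) := by positivity
  have b1 : ∀ s, ∀ τ ∈ Icc 0 (T + 1), |g s τ| ≤ B * (T + 1) := fun s τ hτ => by
    have := mv (C := B) hτ.1 (fun t _ => dg s t) fun t _ => by
      rw [abs_mul, pm_abs, one_mul, show R.c0 s t + (c s t - R.c0 s t) * χ (t - T) - c s t =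
        (c s t - R.c0 s t) * (χ (t - T) - 1) by ring, abs_mul]
      refine (mul_le_of_le_one_right (abs_nonneg _) (abs_le.2 ⟨?_, ?_⟩)).trans (h1 s t)
      · linarith [smoothTransition.nonneg (t - T)]
      · linarith [smoothTransition.le_one (t - T)]
    rw [(hg s).2 0 le_rfl, sub_zero, sub_zero] at this
    exact this.trans (mul_le_mul_of_nonneg_left hτ.2 B0)
  have b2 : ∀ s τ, |g s τ| ≤ B * (T + 1) := fun s τ => by
    rcases le_total τ 0 with a | a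
    · simpa [(hg s).2 τ a] using G0
    rcases le_total τ (T + 1) with a' | a'
    · exact b1 s τ ⟨a, a'⟩
    have := mv (C := 0) a' (fun t _ => dg s t) fun t ht => by
      simp [χ1 (show 1 ≤ t - T by linarith [ht.1])]
    rw [zero_mul, abs_nonpos_iff, sub_eq_zero] at this
    exact this ▸ b1 s _ ⟨by linarith, le_rfl⟩
  set G := exp (2 * (B * (T + 1))) with hG
  have G1 : 1 ≤ G := one_le_exp (by positivity)
  have f1 : R.Fi (R.E g u) := (h.le1 hu (a := G) fun s τ hτ => by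
    rw [h.n_E s hg u (by linarith)]
    exact mul_le_mul_of_nonneg_right (exp_le_exp.2 (by linarith [(abs_le.1 (b2 s τ)).2]))
      (n0 _ _ _)).1
  have f2 := (h.le1 (u := u) f1 (a := G) fun s τ hτ => by
    rw [h.n_E s hg u (by linarith), ← mul_assoc, ← exp_add]
    exact le_mul_of_one_le_left (n0 _ _ _) (one_le_exp (by linarith [(abs_le.1 (b2 s τ)).1]))).2
  obtain ⟨a1, a2⟩ := h.FE α c u g _ hc hg G0 b2 hf
  have e' := h.DE α c g u hc hg
  rw [e] at e'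
  have a3 := hC α _ _ hα r2 (fun s τ => by
    rw [add_sub_cancel_left, abs_mul]
    rcases le_total τ T with a | a
    · simpa [χ0 (sub_nonpos.2 a)] using d0.1.le
    · exact (mul_le_of_le_one_right (abs_nonneg _) (χ_abs _)).trans (h2 s τ a)) f1 (e' ▸ a1)
  rw [e', h.prE g u hg] at a3
  have a4 : R.Q u ≤ G * R.Q (R.E g u) := by
    simp only [Q_eq, h.q0_E hg]
    nlinarith [f2 true, f2 false, h.q0n u]
  refine a4.trans ?_
  rw [mul_assoc]
  refine mul_le_mul_of_nonneg_left (a3.trans ?_) (by positivity)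
  rw [mul_assoc]
  exact mul_le_mul_of_nonneg_left (by nlinarith [sq_nonneg ‖R.pr u‖]) C0

variable {x₀ κ e₀ κ₀ r₁ r₂ η₁ : Bool → ℝ} {K : NNReal} (hb : ∀ s, ContDiff ℝ ∞ (b s))
  (P : ∀ s, Pd (b s) (R.l s) (x₀ s) (κ s) (e₀ s) K (κ₀ s) (r₁ s) (r₂ s) (η₁ s))
include hb P

/-- every solution is a multiple of the linear one -/
theorem rep {η : ℝ} {α : R.A} {u v : R.S} (hη : η < R.ε) (hη' : ∀ s, η ≤ η₁ s)
    (uq : ∀ w, R.Fi w → R.D α R.c0 w = 0 → w = R.rot (R.pr w) v)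
    (ps : ∀ s, ∀ τ ≥ -1 / 2, 0 < R.n s v τ) (hu : R.Rad b η α u) :
    ∃ y, Ode (fun s => lb (b s)) R.l (fun s τ => log (R.n s v τ) / 2) y ∧
      (∀ s, ∀ τ ≥ 0, R.n s u τ = exp (2 * (y s τ + log (R.n s v τ) / 2))) ∧
      ‖R.pr u‖ = exp (y false 0) ∧ R.q0 u = exp (2 * y false 0) * R.q0 v := by
  have rc := h.rd_cm hb u
  obtain ⟨g, hg, dg, e⟩ := exists_prim rc (rd_c0 (R := R))
  have e' := h.DE α _ g u rc hg
  rw [e, hu.1, map_zero] at e'
  have mm : ∀ s, ∀ᶠ τ in atTop, R.n s u τ ∈ Icc (r₁ s) (r₂ s) := fun s =>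
    (hu.2 s).mono fun τ hτ => (P s).mem _ (n0 _ _ _) (hτ.trans (hη' s))
  have w := uq _ (h.fi_E (M := r₂ false + r₂ true) hg hη dg fun s => by
    filter_upwards [mm s, hu.2 s, eventually_ge_atTop 1] with τ a1 a2 a3
    refine ⟨a1.2.trans ?_, by rwa [abs_mul, pm_abs, one_mul, c0, cm, χ1 a3, one_mul, one_mul,
      abs_sub_comm]⟩
    cases s <;> linarith [(P false).r0, (P false).r1, (P true).r0, (P true).r1]) e'
  rw [h.prE g u hg] at w
  have nn : ∀ s, ∀ τ > -1, exp (2 * g s τ) * R.n s u τ = ‖R.pr u‖ ^ 2 * R.n s v τ := fun s τ hτ => by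
    rw [← h.n_E s hg u hτ, w, h.n_rot s _ _ hτ]
  have z0 : 0 < ‖R.pr u‖ := by
    obtain ⟨τ, a1, a2⟩ := ((mm false).and (eventually_gt_atTop (-1))).exists
    refine (norm_nonneg _).lt_of_ne fun k => ?_
    have := nn false τ a2
    rw [← k] at this
    nlinarith [mul_pos (exp_pos (2 * g false τ)) ((P false).r0.trans_le a1.1)]
  have ez : exp (2 * log ‖R.pr u‖) = ‖R.pr u‖ ^ 2 := by rw [two_mul, exp_add, exp_log z0, sq]
  have n1 : ∀ s, ∀ τ ≥ 0, R.n s u τ =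
      exp (2 * (log ‖R.pr u‖ - g s τ + log (R.n s v τ) / 2)) := fun s τ hτ => by
    rw [show 2 * (log ‖R.pr u‖ - g s τ + log (R.n s v τ) / 2) =
      -(2 * g s τ) + (2 * log ‖R.pr u‖ + log (R.n s v τ)) by ring, exp_add, exp_add, ez,
      exp_log (ps s τ (by linarith)), ← nn s τ (by linarith), ← mul_assoc, ← exp_add]
    simp
  refine ⟨fun s τ => log ‖R.pr u‖ - g s τ, ⟨by simp [(hg _).2 0 le_rfl], fun s τ hτ =>
    ((dg s τ).const_sub _).congr_deriv ?_⟩, n1, by simp [(hg _).2 0 le_rfl, exp_log z0], ?_⟩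
  · simp only [lb, ← n1 s τ hτ, c0, cm]; ring
  · simp only [(hg _).2 0 le_rfl, sub_zero, ez]
    rw [← h.q0_E hg u, w, h.q0r]

theorem ex_bd {η : ℝ} (η0 : 0 < η) (hη : η < R.ε) (hη' : ∀ s, η ≤ η₁ s)
    (hη2 : ∀ s, η ≤ κ s * e₀ s / 2) : ∃ δ > 0, ∃ X up, ∃ T ≥ 1, ∀ α, R.sm α δ →
      (∃ u, R.Rad b η α u) ∧ ∀ u, R.Rad b η α u → R.Bd b η X up T u := by
  obtain ⟨δ₀, d0, C, C0, hC⟩ := h.ch
  have k0 := fun s => (P s).st.κ0
  have e0 := fun s => (P s).st.ε0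
  obtain ⟨e, he, eK⟩ : ∃ e, (∀ s, e ∈ Ioc 0 (e₀ s)) ∧ K * e ≤ η / 2 := by
    refine ⟨min (min (e₀ false) (e₀ true)) (η / 2 / (K + 1)), fun s => ⟨lt_min
      (lt_min (e0 _) (e0 _)) (by positivity), (min_le_left _ _).trans ?_⟩, ?_⟩
    · cases s; exacts [min_le_left _ _, min_le_right _ _]
    · refine (mul_le_mul_of_nonneg_left (min_le_right _ _) K.coe_nonneg).trans ?_
      rw [← mul_div_assoc, div_le_iff₀ (by positivity)]
      nlinarith
  obtain ⟨d, hd, hd'⟩ : ∃ d ∈ Ioc 0 (R.ε / 2), ∀ s, 2 * d ≤ κ s * e / 2 := by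
    have := (he true).1
    have := k0 true
    have := k0 false
    refine ⟨min (R.ε / 2) (min (κ false * e / 4) (κ true * e / 4)), ⟨lt_min (half_pos h.ε0)
      (by positivity), min_le_left _ _⟩, fun s => ?_⟩
    have a := min_le_right (R.ε / 2) (min (κ false * e / 4) (κ true * e / 4))
    cases s
    · linarith [min_le_left (κ false * e / 4) (κ true * e / 4)]
    · linarith [min_le_right (κ false * e / 4) (κ true * e / 4)]
  obtain ⟨T, T1, H, δ, δ0, hB⟩ := h.band hd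
  have hK : ∀ s x, |lb (b s) x - R.l s| ≤ K := fun s x => (P s).bd _ (exp_pos _).le
  obtain ⟨X, T', TT, hX⟩ := ode_bnd (H := H) (fun s => (P s).st) hK he hd' T1
  have lv : ∀ s x, |x - x₀ s| ≤ e → |lb (b s) x - R.l s| ≤ η / 2 := fun s x hx => by
    have := (P s).lip.dist_le_mul x (x₀ s)
    rw [(P s).fix, Real.dist_eq, Real.dist_eq] at this
    exact this.trans ((mul_le_mul_of_nonneg_left hx K.coe_nonneg).trans eK)
  refine ⟨min δ₀ δ, lt_min d0.1 δ0, X, exp (2 * X) * (C + 1), T', T1.trans TT, fun α hα => ?_⟩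
  obtain ⟨⟨v, hv⟩, hv'⟩ := hC α (h.smm _ _ _ hα (min_le_left _ _))
  obtain ⟨q, uq, -⟩ := hv' v hv
  have hv2 := hB α v (h.smm _ _ _ hα (min_le_right _ _)) hv
  refine ⟨?_, fun u hu => ?_⟩
  · obtain ⟨y, y1, y2, y3, y4⟩ := ode_ex (fun s => (P s).st) hK he hd' T1
      (fun s => (hb s).comp (by fun_prop)) (fun s => (P s).lip) fun s => (hv2 s).2
    have hg : Rd fun s τ => y s τ - y false 0 := fun s =>
      ⟨(y1 s).sub contDiff_const, fun τ hτ => sub_eq_zero.2 (y2 s τ hτ)⟩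
    have nn : ∀ s, ∀ τ ≥ 0, R.n s (R.rot (exp (y false 0) : ℝ) (R.E (fun s τ => y s τ - y false 0) v))
        τ = exp (2 * (y s τ + log (R.n s v τ) / 2)) := fun s τ hτ => by
      rw [h.n_rot s _ _ (by linarith), h.n_E s hg _ (by linarith), Complex.norm_real,
        norm_of_nonneg (exp_pos _).le, sq, ← exp_add, ← mul_assoc, ← exp_add,
        show 2 * (y s τ + log (R.n s v τ) / 2) = 2 * y s τ + log (R.n s v τ) by ring,
        exp_add (2 * y s τ), exp_log ((hv2 s).1 τ (by linarith))]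
      congr 2; ring
    refine ⟨R.rot (exp (y false 0) : ℝ) (R.E (fun s τ => y s τ - y false 0) v), ?_, fun s => ?_⟩
    · have e' := h.DE α R.c0 _ v rd_c0 hg
      rw [hv.eq, map_zero] at e'
      refine h.Dr _ _ _ _ ((congrArg (R.D α · _) (funext₂ fun s τ => ?_)).trans e')
      rw [((y3 s τ).sub_const _).deriv, ← mul_assoc, pm_mul, cm, c0]
      rcases le_total τ 0 with a | a
      · simp [χ0 a]
      · rw [nn s τ a, lb]; ring
    · have := (hX _ y (fun s => (hv2 s).2) ⟨y2 true 0 le_rfl, fun s τ _ => y3 s τ⟩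
        (eventually_atTop.2 ⟨T, fun τ hτ => (y4 τ hτ).trans (he false).2⟩) s).2.2
      filter_upwards [eventually_ge_atTop T'] with τ hτ
      rw [nn s τ (by linarith)]
      exact (lv s _ (this τ hτ)).trans (by linarith)
  obtain ⟨y, y1, y2, y3, y4⟩ := h.rep hb P hη hη' uq (fun s => (hv2 s).1) hu
  have k := hX _ y (fun s => (hv2 s).2) y1 (by
    filter_upwards [hu.2 false, eventually_ge_atTop 0] with τ a1 a2
    rw [y2 false τ a2] at a1
    exact (P false).st.near (a1.trans (hη2 false)))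
  have a := abs_le.1 (k false).1
  refine ⟨y4 ▸ mul_le_mul (exp_le_exp.2 (by linarith)) (by linarith [h.q0_le v]) (h.q0n v)
    (exp_pos _).le, fun s τ hτ => ?_, fun s τ hτ => ?_, y3 ▸ ⟨exp_le_exp.2 a.1, exp_le_exp.2 a.2⟩⟩
  · have a' := abs_le.1 ((k s).2.1 τ hτ)
    rw [y2 s τ hτ]
    exact ⟨exp_le_exp.2 (by linarith), (exp_le_exp.2 (by linarith)).trans
      (le_mul_of_one_le_right (exp_pos (2 * X)).le (by linarith))⟩
  · rw [y2 s τ (by linarith)]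
    exact lv s _ ((k s).2.2 τ hτ)

theorem lip' (hε : 4 * R.ε ≤ κ₀ false * √(r₁ false) ^ 4 / √(r₂ false) ^ 2) : ∃ δ₀ > 0, ∀ η X up,
    ∀ T ≥ 1, η < R.ε → η / 2 ≤ δ₀ → (∀ s, η / 2 ≤ η₁ s) → ∃ C, ∀ α u u', R.sm α δ₀ →
      R.D α (R.cm b u) u = 0 → R.Bd b η X up T u → R.Bd b η X up T u' →
      R.F' (R.D α (R.cm b u') u') → ∃ z : ℂ, ‖z‖ = 1 ∧
        R.Q (u' - R.rot z u) ≤ C * R.Q' (R.D α (R.cm b u') u') := by
  obtain ⟨δ₀, d0, hE⟩ := h.est2
  refine ⟨δ₀, d0, fun η X up T T1 hη hδ hη' => ?_⟩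
  obtain ⟨C, C0, hC⟩ := hE K K.coe_nonneg T (by linarith)
  have l0 := exp_pos (-X)
  obtain ⟨C₁, c1, h1⟩ := scal_in (l := exp (-X)) (u := √up) (K := K) (T := T) l0
    (sqrt_pos.2 (P false).r0) h.ε0 (P false).k0.le (by linarith) hε
  obtain ⟨C₂, c2, h2⟩ := scal_out (l := exp (-X)) (u := √up) (K := K) l0 h.ε0
  obtain ⟨C₃, c3, h3⟩ := near_int (l := exp (-X)) (u := √up) (K := K) l0 h.ε0
  obtain ⟨Z, hZ⟩ : ∃ Z, Z = 1 + exp (2 * X) ^ 4 := ⟨_, rfl⟩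
  have Z0 : 0 ≤ Z := by rw [hZ]; positivity
  refine ⟨(2 + 2 * (|up| * (Z * C₁ + C₃ * (C₂ * (C₁ + 1) + 1) + C₃ * (C₁ + 1)))) * C,
    fun α u u' hα e0 k k' hf => ?_⟩
  have rc := h.rd_cm hb u
  have rc' := h.rd_cm hb u'
  obtain ⟨g, hg, dg, e⟩ := exists_prim rc rc'
  have e' := h.DE α _ g u rc hg
  rw [e, e0, map_zero] at e'
  have p0 : 0 < ‖R.pr u‖ := l0.trans_le k.pr.1
  have p0' : 0 < ‖R.pr u'‖ := l0.trans_le k'.pr.1
  obtain ⟨ζ, hζ⟩ : ∃ ζ, ζ = R.pr u' / R.pr u := ⟨_, rfl⟩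
  have ζ0 : 0 < ‖ζ‖ := by rw [hζ, norm_div]; positivity
  have ζ1 : ‖ζ‖ ≤ exp (2 * X) := by
    rw [hζ, norm_div, two_mul, ← sub_neg_eq_add, exp_sub]
    exact div_le_div₀ (exp_pos _).le k'.pr.2 l0 k.pr.1
  have fu : ∀ {u}, R.Bd b η X up T u → R.Fi u := fun k => h.fi_of h.ε0 fun s =>
    ⟨up, (eventually_ge_atTop 0).mono fun τ hτ => by simpa using (k.n s τ hτ).2⟩
  have cc : ∀ {u}, R.Bd b η X up T u → ∀ s, ∀ τ ≥ T, |R.cm b u s τ - R.c0 s τ| ≤ η / 2 :=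
    fun k s τ hτ => by simpa [cm, c0, χ1 (T1.trans hτ)] using k.lv s τ hτ
  have fE : R.Fi (R.E g u) := h.fi_E (M := up) hg hη dg fun s => by
    filter_upwards [eventually_ge_atTop T] with τ hτ
    have a1 := abs_le.1 (cc k s τ hτ)
    have a2 := abs_le.1 (cc k' s τ hτ)
    exact ⟨(k.n s τ (by linarith)).2, by
      rw [abs_mul, pm_abs, one_mul]; exact abs_le.2 ⟨by linarith, by linarith⟩⟩
  obtain ⟨v, hv⟩ : ∃ v, v = u' - R.rot ζ (R.E g u) := ⟨_, rfl⟩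
  have fv : R.Fi v := hv ▸ h.fi_sub (fu k') (h.fi_rot fE ζ)
  have dv : R.D α (R.cm b u') v = R.D α (R.cm b u') u' := by
    rw [hv, map_sub, h.Dr _ _ _ _ e', sub_zero]
  have qv := hC α _ v hα rc' (fun s τ => by
    rw [cm, c0, ← mul_sub, abs_mul]
    exact (mul_le_of_le_one_left (abs_nonneg _) (χ_abs _)).trans ((P s).bd _ (n0 _ _ _)))
    (fun s τ hτ => (cc k' s τ hτ).trans hδ) fv (dv ▸ hf)
  rw [dv, show R.pr v = 0 by
    rw [hv, map_sub, h.prr, h.prE g u hg, hζ, div_mul_cancel₀ _ (norm_pos_iff.1 p0), sub_self],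
    norm_zero, zero_pow two_ne_zero, add_zero] at qv
  choose kk k1 k2 k3 using fun s τ => (P s).sl _ (n0 s u τ) _ (n0 s u' τ)
  let σ : Bool → ℝ → ℝ := fun s τ => ‖ζ‖ * exp (g s τ)
  have dσ : ∀ s τ, HasDerivAt (σ s) (-pm s * (χ τ * kk s τ * (‖R.sl s τ u'‖ ^ 2 - ‖R.sl s τ u‖ ^ 2)) *
      σ s τ) τ := fun s τ => ((dg s τ).exp.const_mul _).congr_deriv (by
    rw [cm, cm, ← mul_sub, k2]; simp only [n, σ]; ring)
  have er : ∀ s, ∀ τ ≥ 0, |‖R.sl s τ u'‖ - σ s τ * ‖R.sl s τ u‖| ≤ ‖R.sl s τ v‖ := fun s τ hτ => by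
    rw [hv, map_sub]
    refine le_trans (le_of_eq ?_) (abs_norm_sub_norm_le _ _)
    rw [h.slr _ _ _ _ (by linarith), h.slE g s u hg τ (by linarith), norm_smul,
      norm_of_nonneg (exp_pos _).le, mul_assoc]
  have σ0 : ∀ s τ, 0 ≤ σ s τ := fun s τ => by positivity
  have κ1 : ∀ s τ, χ τ * kk s τ ≤ K := fun s τ =>
    (mul_le_of_le_one_left (k1 s τ).1 (smoothTransition.le_one τ)).trans (k1 s τ).2
  have sx : √(exp (-(2 * X))) = exp (-X) := by rw [← exp_half]; congr 1; ring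
  have pt : ∀ s, ∀ τ ≥ 0, Pt (exp (-X)) √up K 0 (σ s τ) ‖R.sl s τ u‖ ‖R.sl s τ u'‖ ‖R.sl s τ v‖
      (χ τ * kk s τ) := fun s τ hτ =>
    ⟨σ0 s τ, sx ▸ sqrt_le_iff.2 ⟨norm_nonneg _, (k.n s τ hτ).1⟩, le_sqrt_of_sq_le (k.n s τ hτ).2,
      sx ▸ sqrt_le_iff.2 ⟨norm_nonneg _, (k'.n s τ hτ).1⟩, le_sqrt_of_sq_le (k'.n s τ hτ).2,
      mul_nonneg (smoothTransition.nonneg τ) (k1 s τ).1, κ1 s τ, er s τ hτ⟩
  have ce : ∀ s, ContinuousOn (fun τ => ‖R.sl s τ v‖) (Ici 0) := fun s =>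
    (h.cn s v (by norm_num)).sqrt.congr fun τ _ => (sqrt_sq (norm_nonneg _)).symm
  have i1 := h1 (s := σ false) (fun τ _ => by simpa [pm] using dσ false τ) (pt false)
    (fun τ hτ => by
      have m := (P false).mem _ (n0 _ _ _) ((k.lv false τ hτ).trans (hη' false))
      have m' := (P false).mem _ (n0 _ _ _) ((k'.lv false τ hτ).trans (hη' false))
      exact ⟨σ0 _ τ, sqrt_le_iff.2 ⟨norm_nonneg _, m.1⟩, le_sqrt_of_sq_le m.2,
        sqrt_le_iff.2 ⟨norm_nonneg _, m'.1⟩, le_sqrt_of_sq_le m'.2,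
        by rw [χ1 (T1.trans hτ), one_mul]; exact k3 false τ m m', κ1 _ τ,
        er _ τ (by linarith)⟩) (ce false) (fv false)
  have i2 := h2 (s := σ true) (fun τ _ => by simpa [pm] using dσ true τ) (pt true) (ce true)
    (fv true)
  have i3 := fun s => h3 (s := σ s) (fun τ _ => (dσ s τ).continuousAt.continuousWithinAt) (pt s)
    (fv s)
  have s0 : ∀ s, σ s 0 = ‖ζ‖ := fun s => by simp [σ, (hg s).2 0 le_rfl]
  rw [s0] at i1 i2
  have j0 : ∀ s, 0 ≤ ∫ t in Ioi 0, ph (σ s t) * exp (-(2 * R.ε) * t) := fun s =>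
    integral_nonneg fun t => mul_nonneg (ph_nonneg _) (exp_pos _).le
  have z1 : (1 - ‖ζ‖) ^ 2 ≤ Z * ph ‖ζ‖ := by
    have : (1 + ‖ζ‖ ^ 4) * ph ‖ζ‖ = (‖ζ‖ ^ 2 - 1) ^ 2 := by rw [ph]; field_simp
    have a := mul_le_mul_of_nonneg_right (show 1 + ‖ζ‖ ^ 4 ≤ Z by
      rw [hZ]; linarith [pow_le_pow_left₀ ζ0.le ζ1 4]) (ph_nonneg ‖ζ‖)
    nlinarith [mul_nonneg (sq_nonneg (1 - ‖ζ‖)) (show 0 ≤ ‖ζ‖ ^ 2 + 2 * ‖ζ‖ by positivity)]
  have nz : ‖ζ / (‖ζ‖ : ℂ)‖ = 1 := by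
    rw [norm_div, Complex.norm_real, norm_norm, div_self ζ0.ne']
  refine ⟨ζ / ‖ζ‖, nz, ?_⟩
  obtain ⟨t, ht⟩ : ∃ t, t = R.rot (ζ / ‖ζ‖) (u - ‖ζ‖ • R.E g u) := ⟨_, rfl⟩
  have et : u' - R.rot (ζ / ‖ζ‖) u = v - t := by
    rw [hv, ht, map_sub, ← h.rre, h.rr, div_mul_cancel₀ _ (by exact_mod_cast ζ0.ne')]; abel
  have up0 : ∀ s, ∀ τ > 0, R.n s t τ ≤ |up| * (σ s τ - 1) ^ 2 := fun s τ hτ => by
    rw [ht, h.n_rot _ _ _ (by linarith), nz, one_pow, one_mul, n, map_sub, map_smul,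
      h.slE g s u hg τ (by linarith), smul_smul, ← one_smul ℝ (R.sl s τ u), smul_smul, mul_one,
      ← sub_smul, norm_smul, mul_pow, norm_eq_abs, sq_abs, mul_comm, ← neg_sub, neg_sq]
    exact mul_le_mul_of_nonneg_right ((k.n s τ hτ.le).2.trans (le_abs_self _)) (sq_nonneg _)
  have it := fun s => h.of_le (f := fun τ => |up| * (σ s τ - 1) ^ 2)
    (by simp only [mul_assoc]; exact (i3 s).1.const_mul _) (up0 s)
  have it' : ∀ s, R.I s t ≤ |up| * (C₃ * ((∫ t in Ioi 0, ph (σ s t) * exp (-(2 * R.ε) * t)) +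
      R.Q v)) := fun s => (it s).2.trans (by
    simp only [mul_assoc]
    rw [integral_const_mul]
    exact mul_le_mul_of_nonneg_left ((i3 s).2.trans (mul_le_mul_of_nonneg_left
      (add_le_add_right (h.I_le s v) _) c3)) (abs_nonneg _))
  have qt : R.q0 t ≤ |up| * (1 - ‖ζ‖) ^ 2 := by
    have := h.q0E g ((1 - ‖ζ‖) • u) ((-‖ζ‖) • u) hg
    rw [h.q0s, map_smul, show (1 - ‖ζ‖) • u + ((-‖ζ‖) • R.E g u - (-‖ζ‖) • u) =
      u - ‖ζ‖ • R.E g u by module] at this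
    rw [ht, h.q0r, nz, one_pow, one_mul, this, mul_comm]
    exact mul_le_mul_of_nonneg_right (k.q.trans (le_abs_self _)) (sq_nonneg _)
  have i1' := i1.trans (mul_le_mul_of_nonneg_left (h.I_le false v) c1)
  have i2' := i2.trans (mul_le_mul_of_nonneg_left (add_le_add
    (show ph ‖ζ‖ ≤ C₁ * R.Q v by linarith [j0 false]) (h.I_le true v)) c2)
  have b1 := qt.trans (mul_le_mul_of_nonneg_left (z1.trans (mul_le_mul_of_nonneg_left
    (show ph ‖ζ‖ ≤ C₁ * R.Q v by linarith [j0 false]) Z0)) (abs_nonneg _))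
  have b2 := (it' true).trans (mul_le_mul_of_nonneg_left (mul_le_mul_of_nonneg_left
    (add_le_add_left i2' _) c3) (abs_nonneg _))
  have b3 := (it' false).trans (mul_le_mul_of_nonneg_left (mul_le_mul_of_nonneg_left
    (add_le_add_left (show _ ≤ C₁ * R.Q v by linarith [ph_nonneg ‖ζ‖]) _) c3) (abs_nonneg _))
  rw [et, mul_assoc]
  refine ((h.Q_sub fv fun s => (it s).1).trans ?_).trans (mul_le_mul_of_nonneg_left qv
    (by positivity))
  rw [Q_eq t]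
  linarith

end Ax
end Rp

/-- **PART I** -/
theorem absStmt : AbsStmt := fun b l hb => by
  choose x₀ κ e₀ K κ₀ r₁ r₂ η₁ P using fun s => (hb s).pd
  have r0 := fun s => (P s).r0
  have r2 := (P false).r0.trans_le (P false).r1
  refine ⟨κ₀ false * √(r₁ false) ^ 4 / √(r₂ false) ^ 2 / 4,
    by have := (P false).k0; have := r0 false; positivity, fun R h hl hε => ?_⟩
  subst hl
  have P' := fun s => (P s).mono (K' := K false + K true)
    (by cases s; exacts [le_self_add, le_add_self])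
  obtain ⟨δ₀, d0, hL⟩ := h.lip' (fun s => (hb s).sm) P' (by linarith)
  obtain ⟨η₀, η0, a1, a2, a3⟩ : ∃ η₀ > 0, η₀ < R.ε ∧ η₀ ≤ δ₀ ∧
      ∀ s, η₀ ≤ η₁ s ∧ η₀ ≤ κ s * e₀ s / 2 := by
    have : ∀ᶠ η in 𝓝[>] (0 : ℝ), η < R.ε ∧ η ≤ δ₀ ∧ ∀ s, η ≤ η₁ s ∧ η ≤ κ s * e₀ s / 2 :=
      mem_nhdsWithin_of_mem_nhds ((eventually_lt_nhds h.ε0).and ((eventually_le_nhds d0).and
        (eventually_all.2 fun s => (eventually_le_nhds (P s).η0).and (eventually_le_nhds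
          (half_pos (mul_pos (P s).st.κ0 (P s).st.ε0))))))
    obtain ⟨η, a, a'⟩ := (eventually_mem_nhdsWithin.and this).exists
    exact ⟨η, a, a'⟩
  refine ⟨η₀, η0, fun η hη => ?_⟩
  obtain ⟨δ, δ0, X, up, T, T1, hX⟩ := h.ex_bd (fun s => (hb s).sm) P' hη.1 (hη.2.trans_lt a1)
    (fun s => hη.2.trans (a3 s).1) fun s => hη.2.trans (a3 s).2
  obtain ⟨C, hC⟩ := hL η X up T T1 (hη.2.trans_lt a1) (by linarith [hη.1, hη.2])
    fun s => by linarith [hη.1, hη.2, (a3 s).1]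
  have m1 := fun α k => hX α (h.smm α _ _ k (min_le_left δ δ₀))
  exact ⟨min δ δ₀, lt_min δ0 d0, _, exp_pos (-(2 * X)), up, T, C, fun α k => (m1 α k).1,
    fun α u k hu => let B := (m1 α k).2 u hu; ⟨B.q, fun s => ⟨B.n s, B.lv s⟩⟩,
    fun α α' u u' k k' hu hu' => hC α u u' (h.smm α _ _ k (min_le_right _ _)) hu.1
      ((m1 α k).2 u hu) ((m1 α' k').2 u' hu')⟩

end Crest.Agent.X212.Rad94
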