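import Mathlib

/-!
# Row 212, AN-S (helper94): the radial ODE `ρ' = β ρ - N t`

`β` is antitone, strictly near the rest point `r`.  If `N → β r` at `-∞` there is exactly one
solution tending to `r` at `-∞`; if `N → β r` at `+∞` every solution tends to `r`; both with
exponential rates.
-/

set_option autoImplicit false
noncomputable section
open Set Filter Topology Real

namespace Crest.Agent.X212.Rad94

/-- a function that does not increase where it is positive -/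
theorem fence {h h' : ℝ → ℝ} {a b : ℝ} (hab : a ≤ b) (hd : ∀ t ∈ Icc a b, HasDerivAt h (h' t) t)
    (hs : ∀ t ∈ Icc a b, 0 < h t → h' t ≤ 0) : h b ≤ max (h a) 0 := by
  refine le_of_forall_pos_le_add fun η hη => ?_
  have hm : 0 < η / (2 * (b - a + 1)) := div_pos hη (by linarith)
  have := image_le_of_deriv_right_lt_deriv_boundary (f := h) (f' := h') (a := a) (b := b)
    (fun t ht => (hd t ht).continuousAt.continuousWithinAt)
    (fun t ht => (hd t (Ico_subset_Icc_self ht)).hasDerivWithinAt)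
    (B := fun t => max (h a) 0 + η / (2 * (b - a + 1)) * (t - a + 1))
    (B' := fun _ => η / (2 * (b - a + 1)))
    (by simp only [sub_self, zero_add, mul_one]; linarith [le_max_left (h a) 0])
    (fun t => by
      simpa using ((((hasDerivAt_id t).sub_const a).add_const 1).const_mul
        (η / (2 * (b - a + 1)))).const_add (max (h a) 0))
    (fun t ht e => (hs t (Ico_subset_Icc_self ht) (by
      rw [e]
      have := mul_pos hm (show 0 < t - a + 1 by linarith [ht.1])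
      linarith [le_max_right (h a) 0])).trans_lt hm) (right_mem_Icc.2 hab)
  refine this.trans ?_
  have e : η / (2 * (b - a + 1)) * (b - a + 1) = η / 2 := by
    have : b - a + 1 ≠ 0 := by linarith
    field_simp
  linarith

/-- a function that drops with speed `m` above the level `e` -/
theorem drop {h h' : ℝ → ℝ} {a b e m A : ℝ} (hm : 0 < m) (he : 0 ≤ e) (hA : 0 ≤ A)
    (hd : ∀ t ∈ Icc a b, HasDerivAt h (h' t) t) (hs : ∀ t ∈ Icc a b, e < h t → h' t ≤ -m)
    (ha : h a ≤ A) (hab : a + A / m ≤ b) : h b ≤ e := by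
  have h0 : 0 ≤ A / m := by positivity
  have e0 : m * (A / m) = A := by field_simp
  have h1 := fence (h := fun t => h t - e - A + m * (t - a)) (h' := fun t => h' t + m)
    (a := a) (b := a + A / m) (by linarith)
    (fun t ht => ((((hd t ⟨ht.1, ht.2.trans hab⟩).sub_const e).sub_const A).add
        (((hasDerivAt_id t).sub_const a).const_mul m)).congr_deriv (by rw [mul_one]))
    (fun t ht hp => by
      have := hs t ⟨ht.1, ht.2.trans hab⟩ (by nlinarith [ht.2])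
      linarith)
  have h2 := fence (h := fun t => h t - e) (h' := h') hab
    (fun t ht => (hd t ⟨by linarith [ht.1], ht.2⟩).sub_const e)
    (fun t ht hp => (hs t ⟨by linarith [ht.1], ht.2⟩ (by linarith)).trans (by linarith))
  rw [max_eq_right (by simp only [sub_self, mul_zero]; linarith)] at h1
  rw [max_eq_right (by simp only [add_sub_cancel_left] at h1; linarith)] at h2
  linarith

/-- a solution of `γ' = -k γ`, `k ≥ 0`, that is small somewhere far back vanishes -/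
theorem eq_zero_bot {γ γ' : ℝ → ℝ} {T : ℝ} (hd : ∀ t ≤ T, HasDerivAt γ (γ' t) t)
    (hs : ∀ t ≤ T, γ t * γ' t ≤ 0) (h0 : ∀ η > 0, ∀ t, ∃ a ≤ t, |γ a| ≤ η) {t : ℝ} (ht : t ≤ T) :
    γ t = 0 := by
  refine abs_nonpos_iff.1 (le_of_forall_pos_le_add fun η hη => ?_)
  obtain ⟨a, ha, h⟩ := h0 η hη t
  have h1 := fence ha (fun s hs' => hd s (hs'.2.trans ht)) fun s hs' hp =>
    nonpos_of_mul_nonpos_right (hs s (hs'.2.trans ht)) hp
  have h2 := fence (h := fun s => -γ s) ha (fun s hs' => (hd s (hs'.2.trans ht)).neg) fun s hs' hp =>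
    nonpos_of_mul_nonpos_right (by simpa using hs s (hs'.2.trans ht)) hp
  rw [abs_le] at h ⊢
  constructor
  · linarith [max_le (show -γ a ≤ η by linarith) hη.le]
  · linarith [max_le h.2 hη.le]

section glob
variable {E : Type*} [NormedAddCommGroup E] [NormedSpace ℝ E] {F : ℝ → E → E} {K : NNReal}

/-- global solutions -/
theorem glob [CompleteSpace E] (hc : ∀ x, Continuous (F · x)) (hK : ∀ t, LipschitzWith K (F t))
    (hb : ∀ a b, ∃ L, ∀ t ∈ Icc a b, ∀ x, ‖F t x‖ ≤ L) (t₀ : ℝ) (x : E) :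
    ∃ ρ : ℝ → E, ρ t₀ = x ∧ ∀ t, HasDerivAt ρ (F t (ρ t)) t := by
  have h1 : ∀ n : ℕ, ∃ ρ : ℝ → E, ρ t₀ = x ∧
      ∀ t ∈ Ioo (t₀ - (n + 1)) (t₀ + (n + 1)), HasDerivAt ρ (F t (ρ t)) t := fun n => by
    obtain ⟨L, hL⟩ := hb (t₀ - (n + 1)) (t₀ + (n + 1))
    have hn : (0 : ℝ) < n + 1 := by positivity
    have hP : IsPicardLindelof F (tmin := t₀ - (n + 1)) (tmax := t₀ + (n + 1))
        ⟨t₀, by constructor <;> linarith⟩ x (L.toNNReal * (n + 1)) 0 L.toNNReal K :=
      ⟨fun t _ => (hK t).lipschitzOnWith, fun y _ => (hc y).continuousOn,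
        fun t ht y _ => (hL t ht y).trans (Real.le_coe_toNNReal L), by simp⟩
    obtain ⟨ρ, h0, h⟩ := hP.exists_eq_forall_mem_Icc_hasDerivWithinAt₀
    exact ⟨ρ, h0, fun t ht => (h t (Ioo_subset_Icc_self ht)).hasDerivAt (Icc_mem_nhds ht.1 ht.2)⟩
  choose ρ h0 h using h1
  have mem : ∀ t, t ∈ Ioo (t₀ - (⌈|t - t₀|⌉₊ + 1)) (t₀ + (⌈|t - t₀|⌉₊ + 1)) := fun t => by
    have := Nat.le_ceil |t - t₀|
    constructor <;> linarith [le_abs_self (t - t₀), neg_abs_le (t - t₀)]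
  have agree : ∀ n m : ℕ, ∀ t ∈ Ioo (t₀ - (n + 1)) (t₀ + (n + 1)),
      t ∈ Ioo (t₀ - (m + 1)) (t₀ + (m + 1)) → ρ n t = ρ m t := fun n m t hn hm => by
    have p : ∀ k : ℕ, (0 : ℝ) < k + 1 := fun k => by positivity
    exact ODE_solution_unique_of_mem_Ioo (v := F) (s := fun _ => univ) (K := K) (t₀ := t₀)
      (a := max (t₀ - (n + 1)) (t₀ - (m + 1))) (b := min (t₀ + (n + 1)) (t₀ + (m + 1)))
      (fun t _ => (hK t).lipschitzOnWith)
      ⟨max_lt (by linarith [p n]) (by linarith [p m]), lt_min (by linarith [p n]) (by linarith [p m])⟩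
      (fun s hs => ⟨h n s ⟨(le_max_left _ _).trans_lt hs.1, hs.2.trans_le (min_le_left _ _)⟩, trivial⟩)
      (fun s hs => ⟨h m s ⟨(le_max_right _ _).trans_lt hs.1, hs.2.trans_le (min_le_right _ _)⟩, trivial⟩)
      ((h0 n).trans (h0 m).symm) ⟨max_lt hn.1 hm.1, lt_min hn.2 hm.2⟩
  refine ⟨fun t => ρ ⌈|t - t₀|⌉₊ t, h0 _, fun t => (h _ t (mem t)).congr_of_eventuallyEq ?_⟩
  filter_upwards [Ioo_mem_nhds (mem t).1 (mem t).2] with s hs using agree _ _ s (mem s) hs

/-- backward dependence on the initial value -/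
theorem dist_back (hK : ∀ t, LipschitzWith K (F t)) {f g : ℝ → E}
    (hf : ∀ t, HasDerivAt f (F t (f t)) t) (hg : ∀ t, HasDerivAt g (F t (g t)) t) {t T : ℝ}
    (h : t ≤ T) : dist (f t) (g t) ≤ dist (f T) (g T) * exp (K * (T - t)) := by
  have r : ∀ {f : ℝ → E}, (∀ t, HasDerivAt f (F t (f t)) t) →
      ∀ s, HasDerivAt (fun s => f (-s)) (-F (-s) (f (-s))) s := fun hf s =>
    ((hf (-s)).scomp s (hasDerivAt_neg s)).congr_deriv (neg_one_smul _ _)
  have := dist_le_of_trajectories_ODE (v := fun s x => -F (-s) x) (K := K) (a := -T) (b := -t)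
    (fun s => (hK (-s)).neg) (fun s _ => (r hf s).continuousAt.continuousWithinAt)
    (fun s _ => (r hf s).hasDerivWithinAt) (fun s _ => (r hg s).continuousAt.continuousWithinAt)
    (fun s _ => (r hg s).hasDerivWithinAt) le_rfl (-t) ⟨by linarith, le_rfl⟩
  simpa [add_comm, sub_eq_add_neg] using this

end glob

/-- a stable rest point `r` of `ρ' = β ρ - l` -/
structure St (β : ℝ → ℝ) (r l κ ε : ℝ) : Prop where
  anti : Antitone β
  κ0 : 0 < κ
  ε0 : 0 < ε
  up : ∀ x ∈ Icc 0 ε, β (r + x) ≤ l - κ * x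
  dn : ∀ x ∈ Icc 0 ε, l + κ * x ≤ β (r - x)

theorem exists_st {β : ℝ → ℝ} {r d : ℝ} (ha : Antitone β) (hd : HasDerivAt β d r) (h : d < 0) :
    ∃ κ ε, St β r (β r) κ ε := by
  have h1 := Asymptotics.isLittleO_iff.1 (hasDerivAt_iff_isLittleO_nhds_zero.1 hd)
    (show 0 < -d / 2 by linarith)
  obtain ⟨ε, hε, h2⟩ := Metric.eventually_nhds_iff.1 h1
  refine ⟨-d / 2, ε / 2, ha, by linarith, by linarith, fun x hx => ?_, fun x hx => ?_⟩
  · have := h2 (y := x) (by rw [dist_zero_right, norm_of_nonneg hx.1]; linarith [hx.2])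
    rw [norm_of_nonneg hx.1, norm_eq_abs, abs_le, smul_eq_mul] at this
    linarith [this.2]
  · have := h2 (y := -x) (by rw [dist_zero_right, norm_neg, norm_of_nonneg hx.1]; linarith [hx.2])
    rw [norm_neg, norm_of_nonneg hx.1, norm_eq_abs, abs_le, smul_eq_mul, ← sub_eq_add_neg] at this
    linarith [this.1]

namespace St
variable {β : ℝ → ℝ} {r l κ ε : ℝ} (h : St β r l κ ε) {N ρ : ℝ → ℝ}
include h

theorem neg : St (fun x => -β (-x)) (-r) (-l) κ ε where
  anti := fun _ _ hxy => neg_le_neg (h.anti (neg_le_neg hxy))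
  κ0 := h.κ0
  ε0 := h.ε0
  up x hx := by have := h.dn x hx; rw [show -(-r + x) = r - x by ring]; linarith
  dn x hx := by have := h.up x hx; rw [show -(-r - x) = r + x by ring]; linarith

omit h in
theorem neg_sol {t : ℝ} (hd : HasDerivAt ρ (β (ρ t) - N t) t) :
    HasDerivAt (fun t => -ρ t) (-β (- -ρ t) - -N t) t :=
  hd.neg.congr_deriv (by rw [neg_neg]; ring)

theorem le_of_lt {x e : ℝ} (he : e ∈ Icc 0 ε) (hx : e < x - r) : β x ≤ l - κ * e :=
  (h.anti (by linarith)).trans (h.up e he)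

theorem drop_up {a b e A : ℝ} (he : e ∈ Ioc 0 ε) (hA : 0 ≤ A)
    (hd : ∀ t ∈ Icc a b, HasDerivAt ρ (β (ρ t) - N t) t)
    (hN : ∀ t ∈ Icc a b, |N t - l| ≤ κ * e / 2) (ha : ρ a - r ≤ A)
    (hab : a + A / (κ * e / 2) ≤ b) : ρ b - r ≤ e :=
  drop (h := fun t => ρ t - r) (half_pos (mul_pos h.κ0 he.1)) he.1.le hA
    (fun t ht => (hd t ht).sub_const r) (fun t ht hp => by
      linarith [h.le_of_lt (Ioc_subset_Icc_self he) hp, (abs_le.1 (hN t ht)).1]) ha hab

/-- after the time `2 A / (κ e)` the solution is in the band of width `e` -/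
theorem band {a b e A : ℝ} (he : e ∈ Ioc 0 ε)
    (hd : ∀ t ∈ Icc a b, HasDerivAt ρ (β (ρ t) - N t) t)
    (hN : ∀ t ∈ Icc a b, |N t - l| ≤ κ * e / 2) (ha : |ρ a - r| ≤ A)
    (hab : a + A / (κ * e / 2) ≤ b) : |ρ b - r| ≤ e := by
  have hA := (abs_nonneg _).trans ha
  have h1 := h.drop_up he hA hd hN (abs_le.1 ha).2 hab
  have h2 := h.neg.drop_up (N := fun t => -N t) he hA (fun t ht => neg_sol (hd t ht))
    (fun t ht => by rw [← abs_neg]; simpa [sub_eq_add_neg, add_comm] using hN t ht)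
    (by linarith [(abs_le.1 ha).1]) hab
  exact abs_le.2 ⟨by linarith, h1⟩

omit h in
theorem tendsto_of {f : Filter ℝ} (hε : 0 < ε) (H : ∀ e ∈ Ioc 0 ε, ∀ᶠ t in f, |ρ t - r| ≤ e) :
    Tendsto ρ f (𝓝 r) := by
  refine Metric.tendsto_nhds.2 fun δ hδ => ?_
  filter_upwards [H (min (δ / 2) ε) ⟨lt_min (half_pos hδ) hε, min_le_right _ _⟩] with t ht
  rw [Real.dist_eq]
  linarith [min_le_left (δ / 2) ε]

omit h in
theorem ev_close {f : Filter ℝ} (hN : Tendsto N f (𝓝 l)) {δ : ℝ} (hδ : 0 < δ) :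
    ∀ᶠ t in f, |N t - l| ≤ δ :=
  (Metric.tendsto_nhds.1 hN δ hδ).mono fun _ ht => (Real.dist_eq _ _ ▸ ht).le

/-- **attraction at `+∞`** -/
theorem tendsto_top (hd : ∀ᶠ t in atTop, HasDerivAt ρ (β (ρ t) - N t) t)
    (hN : Tendsto N atTop (𝓝 l)) : Tendsto ρ atTop (𝓝 r) := by
  refine tendsto_of h.ε0 fun e he => ?_
  obtain ⟨a, ha⟩ := eventually_atTop.1 (hd.and (ev_close hN (half_pos (mul_pos h.κ0 he.1))))
  filter_upwards [eventually_ge_atTop (a + |ρ a - r| / (κ * e / 2))] with b hb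
  exact h.band he (fun t ht => (ha t ht.1).1) (fun t ht => (ha t ht.1).2) le_rfl hb

/-- a solution that is bounded at `-∞` tends to the rest point -/
theorem tendsto_bot (hd : ∀ᶠ t in atBot, HasDerivAt ρ (β (ρ t) - N t) t)
    (hN : Tendsto N atBot (𝓝 l)) {A : ℝ} (hA : ∀ᶠ t in atBot, |ρ t - r| ≤ A) :
    Tendsto ρ atBot (𝓝 r) := by
  refine tendsto_of h.ε0 fun e he => ?_
  have hm := half_pos (mul_pos h.κ0 he.1)
  obtain ⟨T, hT⟩ := eventually_atBot.1 (hd.and ((ev_close hN hm).and hA))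
  filter_upwards [eventually_le_atBot T] with b hb
  have h0 : 0 ≤ A / (κ * e / 2) := div_nonneg ((abs_nonneg _).trans (hT T le_rfl).2.2) hm.le
  exact h.band (a := b - A / (κ * e / 2)) he (fun t ht => (hT t (ht.2.trans hb)).1)
    (fun t ht => (hT t (ht.2.trans hb)).2.1) (hT _ (by linarith)).2.2 (by linarith)

/-- **existence from `-∞`** -/
theorem exists_bot {F : ℝ → ℝ → ℝ} {K : NNReal} (hc : ∀ x, Continuous (F · x))
    (hK : ∀ t, LipschitzWith K (F t)) (hb : ∀ a b, ∃ L, ∀ t ∈ Icc a b, ∀ x, ‖F t x‖ ≤ L)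
    (hF : ∀ᶠ t in atBot, ∀ x, F t x = β x - N t) (hN : Tendsto N atBot (𝓝 l)) :
    ∃ ρ : ℝ → ℝ, (∀ t, HasDerivAt ρ (F t (ρ t)) t) ∧ Tendsto ρ atBot (𝓝 r) := by
  obtain ⟨T, hT⟩ := eventually_atBot.1 (hF.and (ev_close hN (half_pos (mul_pos h.κ0 h.ε0))))
  choose σ h0 hσ using fun n : ℕ => glob hc hK hb (T - n) r
  have inb : ∀ n : ℕ, ∀ t ∈ Icc (T - n) T, |σ n t - r| ≤ ε := fun n t ht =>
    h.band (a := T - n) (A := 0) ⟨h.ε0, le_rfl⟩
      (fun s hs => (hT s (hs.2.trans ht.2)).1 _ ▸ hσ n s) (fun s hs => (hT s (hs.2.trans ht.2)).2)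
      (by rw [h0, sub_self, abs_zero]) (by simpa using ht.1)
  obtain ⟨x, -, φ, hφ, hx⟩ := (isCompact_closedBall r ε).tendsto_subseq (x := fun n => σ n T)
    fun n => by
      rw [Metric.mem_closedBall, Real.dist_eq]
      exact inb n T ⟨by linarith [n.cast_nonneg (α := ℝ)], le_rfl⟩
  obtain ⟨ρ, hρ0, hρ⟩ := glob hc hK hb T x
  refine ⟨ρ, hρ, h.tendsto_bot (N := N) (A := ε) ?_ hN ?_⟩
  · filter_upwards [hF] with t ht using ht _ ▸ hρ t
  filter_upwards [eventually_le_atBot T] with t ht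
  have h1 : Tendsto (fun n => σ (φ n) t) atTop (𝓝 (ρ t)) := by
    refine tendsto_iff_dist_tendsto_zero.2 (squeeze_zero (fun _ => dist_nonneg)
      (fun n => dist_back hK (hσ (φ n)) hρ ht) ?_)
    rw [hρ0]
    simpa using (tendsto_iff_dist_tendsto_zero.1 hx).mul_const (exp (K * (T - t)))
  refine le_of_tendsto (h1.sub_const r).abs ?_
  filter_upwards [(tendsto_natCast_atTop_atTop.comp hφ.tendsto_atTop).eventually_ge_atTop (T - t)]
    with n hn
  exact inb _ t ⟨by simp only [Function.comp] at hn; linarith, ht⟩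

theorem rate_bot_up {T C μ : ℝ} (hμ : 0 ≤ μ) (hd : ∀ t ≤ T, HasDerivAt ρ (β (ρ t) - N t) t)
    (hN : ∀ t ≤ T, |N t - l| ≤ C * exp (μ * t)) (hb : ∀ t ≤ T, ρ t - r ≤ ε)
    (hρ : Tendsto ρ atBot (𝓝 r)) {t : ℝ} (ht : t ≤ T) : ρ t - r ≤ C / κ * exp (μ * t) := by
  have hC : 0 ≤ C := nonneg_of_mul_nonneg_left ((abs_nonneg _).trans (hN t ht)) (exp_pos _)
  have w0 : ∀ s, 0 ≤ C / κ * exp (μ * s) := fun s => by have := h.κ0; positivity
  refine le_of_forall_pos_le_add fun η hη => ?_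
  obtain ⟨a, ha, ha'⟩ := ((eventually_le_atBot t).and (ev_close hρ hη)).exists
  have := fence (h := fun s => ρ s - r - C / κ * exp (μ * s)) ha
    (fun s hs => ((hd s (hs.2.trans ht)).sub_const r).sub
      ((((hasDerivAt_id s).const_mul μ).exp).const_mul (C / κ))) fun s hs hp => by
      have h1 := h.up (ρ s - r) ⟨by linarith [w0 s], hb s (hs.2.trans ht)⟩
      have h2 := (abs_le.1 (hN s (hs.2.trans ht))).1
      have h3 : κ * (C / κ * exp (μ * s)) = C * exp (μ * s) := by have := h.κ0; field_simp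
      have h4 := mul_nonneg (w0 s) hμ
      rw [add_sub_cancel] at h1
      simp only [id, mul_one]
      nlinarith [h.κ0]
  linarith [max_le (show ρ a - r - C / κ * exp (μ * a) ≤ η by linarith [w0 a, (abs_le.1 ha').2]) hη.le]

/-- **exponential rate at `-∞`** -/
theorem rate_bot {C μ : ℝ} (hμ : 0 ≤ μ) (hd : ∀ᶠ t in atBot, HasDerivAt ρ (β (ρ t) - N t) t)
    (hN : ∀ᶠ t in atBot, |N t - l| ≤ C * exp (μ * t)) (hρ : Tendsto ρ atBot (𝓝 r)) :
    ∀ᶠ t in atBot, |ρ t - r| ≤ C / κ * exp (μ * t) := by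
  obtain ⟨T, hT⟩ := eventually_atBot.1 (hd.and (hN.and (ev_close hρ h.ε0)))
  filter_upwards [eventually_le_atBot T] with t ht
  have h1 := h.rate_bot_up hμ (fun s hs => (hT s hs).1) (fun s hs => (hT s hs).2.1)
    (fun s hs => (abs_le.1 (hT s hs).2.2).2) hρ ht
  have h2 := h.neg.rate_bot_up (N := fun t => -N t) (C := C) hμ (fun s hs => neg_sol (hT s hs).1)
    (fun s hs => by rw [← abs_neg]; simpa [sub_eq_add_neg, add_comm] using (hT s hs).2.1)
    (fun s hs => by linarith [(abs_le.1 (hT s hs).2.2).1]) hρ.neg ht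
  exact abs_le.2 ⟨by linarith, h1⟩

theorem rate_top_up {T C μ D : ℝ} (hμ : μ ≤ κ / 2) (hD : 2 * C / κ ≤ D) (hD0 : 0 ≤ D)
    (hd : ∀ t ≥ T, HasDerivAt ρ (β (ρ t) - N t) t)
    (hN : ∀ t ≥ T, |N t - l| ≤ C * exp (-(μ * t))) (hb : ∀ t ≥ T, ρ t - r ≤ ε)
    (h0 : ε ≤ D * exp (-(μ * T))) {t : ℝ} (ht : T ≤ t) : ρ t - r ≤ D * exp (-(μ * t)) := by
  have := fence (h := fun s => ρ s - r - D * exp (-(μ * s))) ht
    (fun s hs => ((hd s hs.1).sub_const r).sub
      ((((hasDerivAt_id s).const_mul μ).neg.exp).const_mul D)) fun s hs hp => by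
      have w0 : 0 ≤ D * exp (-(μ * s)) := by positivity
      have h1 := h.up (ρ s - r) ⟨by linarith, hb s hs.1⟩
      have h2 := (abs_le.1 (hN s hs.1)).1
      have h3 : 2 * C ≤ κ * D := by rwa [div_le_iff₀' h.κ0] at hD
      have h4 := mul_le_mul_of_nonneg_right h3 (exp_pos (-(μ * s))).le
      have h5 := mul_le_mul_of_nonneg_right hμ w0
      rw [add_sub_cancel] at h1
      simp only [id, mul_one, Pi.neg_apply]
      nlinarith [h.κ0]
  rw [max_eq_right (by linarith [hb T le_rfl])] at this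
  linarith

/-- **exponential rate at `+∞`** -/
theorem rate_top {C μ : ℝ} (hμ : μ ≤ κ / 2) (hd : ∀ᶠ t in atTop, HasDerivAt ρ (β (ρ t) - N t) t)
    (hN : ∀ᶠ t in atTop, |N t - l| ≤ C * exp (-(μ * t))) (hρ : Tendsto ρ atTop (𝓝 r)) :
    ∃ D, ∀ᶠ t in atTop, |ρ t - r| ≤ D * exp (-(μ * t)) := by
  obtain ⟨T, hT⟩ := eventually_atTop.1 (hd.and (hN.and (ev_close hρ h.ε0)))
  have e0 : 0 < ε * exp (μ * T) := mul_pos h.ε0 (exp_pos _)
  have e1 : ε ≤ max (2 * C / κ) (ε * exp (μ * T)) * exp (-(μ * T)) := by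
    refine le_trans (le_of_eq ?_) (mul_le_mul_of_nonneg_right (le_max_right _ _) (exp_pos _).le)
    rw [mul_assoc, ← exp_add, add_neg_cancel, exp_zero, mul_one]
  refine ⟨max (2 * C / κ) (ε * exp (μ * T)), ?_⟩
  filter_upwards [eventually_ge_atTop T] with t ht
  have h1 := h.rate_top_up hμ (le_max_left _ _) (e0.le.trans (le_max_right _ _))
    (fun s hs => (hT s hs).1) (fun s hs => (hT s hs).2.1)
    (fun s hs => (abs_le.1 (hT s hs).2.2).2) e1 ht
  have h2 := h.neg.rate_top_up (N := fun t => -N t) (C := C) hμ (le_max_left _ _)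
    (e0.le.trans (le_max_right _ _)) (fun s hs => neg_sol (hT s hs).1)
    (fun s hs => by rw [← abs_neg]; simpa [sub_eq_add_neg, add_comm] using (hT s hs).2.1)
    (fun s hs => by linarith [(abs_le.1 (hT s hs).2.2).1]) e1 ht
  exact abs_le.2 ⟨by linarith, h1⟩

end St

/-- **uniqueness from `-∞`** -/
theorem uniq_bot {F : ℝ → ℝ → ℝ} {f g : ℝ → ℝ} {T : ℝ} (hF : ∀ t ≤ T, Antitone (F t))
    (hf : ∀ t ≤ T, HasDerivAt f (F t (f t)) t) (hg : ∀ t ≤ T, HasDerivAt g (F t (g t)) t)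
    (h : Tendsto (fun t => f t - g t) atBot (𝓝 0)) {t : ℝ} (ht : t ≤ T) : f t = g t := by
  refine sub_eq_zero.1 (eq_zero_bot (γ := fun t => f t - g t)
    (fun s hs => (hf s hs).sub (hg s hs)) (fun s hs => ?_) (fun η hη s => ?_) ht)
  · rcases le_total (f s) (g s) with e | e
    · exact mul_nonpos_of_nonpos_of_nonneg (by linarith) (by linarith [hF s hs e])
    · exact mul_nonpos_of_nonneg_of_nonpos (by linarith) (by linarith [hF s hs e])
  · obtain ⟨a, ha, ha'⟩ := ((eventually_le_atBot s).and (St.ev_close h hη)).exists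
    exact ⟨a, ha, by simpa using ha'⟩

end Crest.Agent.X212.Rad94
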