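import Crest.Agent.X212.Rad94.Abs
import Crest.Agent.X212.Rad94.Ode

/-!
# Row 212, AN-S (helper94): the scalar part of `AbsStmt`
-/

set_option autoImplicit false
noncomputable section
open scoped Topology ContDiff
open Set Function Filter Real

namespace Crest.Agent.X212.Rad94
open M (pm)

theorem mv {f f' : ℝ → ℝ} {a b C : ℝ} (hab : a ≤ b) (hd : ∀ t ∈ Icc a b, HasDerivAt f (f' t) t)
    (hb : ∀ t ∈ Icc a b, |f' t| ≤ C) : |f b - f a| ≤ C * (b - a) :=
  norm_image_sub_le_of_norm_deriv_le_segment' (fun t ht => (hd t ht).hasDerivWithinAt)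
    (fun t ht => hb t (Ico_subset_Icc_self ht)) b (right_mem_Icc.2 hab)

theorem χ0 {t : ℝ} (h : t ≤ 0) : χ t = 0 := smoothTransition.zero_of_nonpos h
theorem χ1 {t : ℝ} (h : 1 ≤ t) : χ t = 1 := smoothTransition.one_of_one_le h
theorem χ_abs (t : ℝ) : |χ t| ≤ 1 :=
  (abs_of_nonneg (smoothTransition.nonneg t)).trans_le (smoothTransition.le_one t)
theorem pm_abs (s : Bool) : |pm s| = 1 := by cases s <;> simp [pm]
theorem pm_mul (s : Bool) : pm s * pm s = 1 := by cases s <;> simp [pm]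

theorem cd_chi {E : Type*} [NormedAddCommGroup E] [NormedSpace ℝ E] {p : E → ℝ}
    (hp : ContDiff ℝ ∞ p) {f : E → ℝ} (hf : ∀ x, -1 / 2 < p x → ContDiffAt ℝ ∞ f x) :
    ContDiff ℝ ∞ fun x => χ (p x) * f x := by
  refine contDiff_iff_contDiffAt.2 fun x => ?_
  by_cases h : -1 / 2 < p x
  · exact (smoothTransition.contDiff.comp hp).contDiffAt.mul (hf x h)
  · refine (contDiffAt_const (c := (0 : ℝ))).congr_of_eventuallyEq ?_
    filter_upwards [hp.continuous.continuousAt.eventually_lt_const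
      (show p x < 0 by linarith [not_lt.1 h])] with y hy
    rw [χ0 hy.le, zero_mul]

theorem cd_ode {F : ℝ × ℝ → ℝ} (hF : ContDiff ℝ ∞ F) {y : ℝ → ℝ}
    (hy : ∀ t, HasDerivAt y (F (t, y t)) t) : ContDiff ℝ ∞ y := by
  refine contDiff_infty.2 fun n => ?_
  induction n with
  | zero => exact contDiff_zero.2 (continuous_iff_continuousAt.2 fun t => (hy t).continuousAt)
  | succ n ih =>
    rw [Nat.cast_succ, contDiff_succ_iff_deriv]
    refine ⟨fun t => (hy t).differentiableAt, by simp, ?_⟩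
    rw [show deriv y = fun t => F (t, y t) from funext fun t => (hy t).deriv]
    exact (contDiff_infty.1 hF n).comp (contDiff_id.prodMk ih)

/-- the profile in the logarithmic variable -/
def lb (b : ℝ → ℝ) (x : ℝ) : ℝ := b (exp (2 * x))

/-- the constants of a profile -/
structure Pd (b : ℝ → ℝ) (l x₀ κ e₀ : ℝ) (K : NNReal) (κ₀ r₁ r₂ η₁ : ℝ) : Prop where
  st : St (lb b) x₀ l κ e₀
  lip : LipschitzWith K (lb b)
  fix : lb b x₀ = l
  bd : ∀ r ≥ 0, |b r - l| ≤ K
  sl : ∀ r ≥ 0, ∀ r' ≥ 0, ∃ k ∈ Icc (0 : ℝ) K, b r' - b r = -(k * (r' - r)) ∧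
    (r ∈ Icc r₁ r₂ → r' ∈ Icc r₁ r₂ → κ₀ ≤ k)
  mem : ∀ r ≥ 0, |b r - l| ≤ η₁ → r ∈ Icc r₁ r₂
  r0 : 0 < r₁
  r1 : r₁ ≤ r₂
  k0 : 0 < κ₀
  η0 : 0 < η₁

theorem Prf.pd {b : ℝ → ℝ} {l : ℝ} (h : Prf b l) : ∃ x₀ κ e₀ K κ₀ r₁ r₂ η₁,
    Pd b l x₀ κ e₀ K κ₀ r₁ r₂ η₁ := by
  have hd : Differentiable ℝ b := h.sm.differentiable (by simp)
  have hc : Continuous (deriv b) := h.sm.continuous_deriv (by simp)
  have z1 : ∀ r, 1 ≤ r → deriv b r = 0 := fun r hr => by
    have : Ioi (1 : ℝ) ⊆ {r | deriv b r = 0} := fun r hr => by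
      refine (Filter.EventuallyEq.deriv_eq (f := fun _ => 0) ?_).trans (deriv_const r 0)
      filter_upwards [Ioi_mem_nhds hr] with x hx using h.one x (le_of_lt hx)
    exact closure_minimal this (isClosed_eq hc continuous_const) (by simpa using hr)
  have np : ∀ r ≥ 0, deriv b r ≤ 0 := fun r hr => by
    rcases lt_or_ge r 1 with h1 | h1
    exacts [(h.neg r ⟨hr, h1⟩).le, (z1 r h1).le]
  have an : AntitoneOn b (Ici 0) := antitoneOn_of_deriv_nonpos (convex_Ici 0)
    hd.continuous.continuousOn hd.differentiableOn fun r hr => np r (interior_subset hr)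
  have sa : StrictAntiOn b (Icc 0 1) := strictAntiOn_of_deriv_neg (convex_Icc 0 1)
    hd.continuous.continuousOn fun r hr => h.neg r (by rw [interior_Icc] at hr; exact ⟨hr.1.le, hr.2⟩)
  obtain ⟨M, hM⟩ := isCompact_Icc.exists_bound_of_continuousOn (s := Icc (0 : ℝ) 1) hc.continuousOn
  have M0 : 0 ≤ M := (norm_nonneg _).trans (hM 0 ⟨le_rfl, zero_le_one⟩)
  have bM : ∀ r ≥ 0, |deriv b r| ≤ M := fun r hr => by
    rcases le_total r 1 with h1 | h1
    exacts [hM r ⟨hr, h1⟩, by simpa [z1 r h1] using M0]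
  obtain ⟨r₀, ⟨a0, a1⟩, hr⟩ : l ∈ b '' Ioo 0 1 := intermediate_value_Ioo' zero_le_one
    hd.continuous.continuousOn ⟨by rw [h.one 1 le_rfl]; exact h.l0, h.l1⟩
  have dl : ∀ x, HasDerivAt (lb b) (deriv b (exp (2 * x)) * (exp (2 * x) * 2)) x := fun x =>
    (hd _).hasDerivAt.comp x (by simpa using ((hasDerivAt_id x).const_mul 2).exp)
  have e0 : exp (2 * (log r₀ / 2)) = r₀ := by rw [mul_div_cancel₀ _ two_ne_zero, exp_log a0]
  have al : Antitone (lb b) := fun x y hxy =>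
    an (exp_pos _).le (exp_pos _).le (exp_le_exp.2 (by linarith))
  obtain ⟨κ, e₀, hs⟩ := exists_st al (dl (log r₀ / 2))
    (by rw [e0]; exact mul_neg_of_neg_of_pos (h.neg _ ⟨a0.le, a1⟩) (by positivity))
  have fx : lb b (log r₀ / 2) = l := by rw [lb, e0, hr]
  rw [fx] at hs
  have b0 := h.l0.trans h.l1
  obtain ⟨ξ, hξ, hm⟩ := isCompact_Icc.exists_isMaxOn (s := Icc (r₀ / 2) ((r₀ + 1) / 2))
    ⟨r₀, by constructor <;> linarith⟩ hc.continuousOn
  have ξ0 : 0 ≤ ξ := by linarith [hξ.1]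
  have c1 : l < b (r₀ / 2) := hr ▸ sa ⟨by linarith, by linarith⟩ ⟨a0.le, a1.le⟩ (by linarith)
  have c2 : b ((r₀ + 1) / 2) < l := hr ▸ sa ⟨a0.le, a1.le⟩ ⟨by linarith, by linarith⟩ (by linarith)
  have sl : ∀ r ≥ 0, ∀ r', r < r' → ∃ k ∈ Icc (0 : ℝ) (2 * M + b 0), b r' - b r = -(k * (r' - r)) ∧
      (r ∈ Icc (r₀ / 2) ((r₀ + 1) / 2) → r' ∈ Icc (r₀ / 2) ((r₀ + 1) / 2) → -deriv b ξ ≤ k) :=
    fun r hr r' hrr => by
      obtain ⟨c, hc, hc'⟩ := exists_deriv_eq_slope b hrr hd.continuous.continuousOn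
        hd.differentiableOn
      have c0 : 0 ≤ c := hr.trans hc.1.le
      refine ⟨-deriv b c, ⟨by linarith [np c c0], by linarith [(abs_le.1 (bM c c0)).1]⟩, ?_,
        fun u v => neg_le_neg (hm ⟨u.1.trans hc.1.le, hc.2.le.trans v.2⟩)⟩
      rw [hc', neg_mul, neg_neg, div_mul_cancel₀ _ (sub_pos.2 hrr).ne']
  obtain ⟨K, hK⟩ : ∃ K : NNReal, (K : ℝ) = 2 * M + b 0 := ⟨⟨_, by positivity⟩, rfl⟩
  rw [← hK] at sl
  refine ⟨_, κ, e₀, K, -deriv b ξ, r₀ / 2, (r₀ + 1) / 2,
    min (b (r₀ / 2) - l) (l - b ((r₀ + 1) / 2)) / 2, hs, ?_, fx, fun r hr => ?_,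
    fun r hr r' hr' => ?_, fun r hr hl => ?_, by linarith, by linarith,
    neg_pos.2 (h.neg ξ ⟨ξ0, by linarith [hξ.2]⟩), half_pos (lt_min (by linarith) (by linarith))⟩
  · refine lipschitzWith_of_nnnorm_deriv_le (fun x => (dl x).differentiableAt) fun x => ?_
    rw [(dl x).deriv, ← NNReal.coe_le_coe]
    simp only [coe_nnnorm, norm_eq_abs, hK]
    rcases le_total (exp (2 * x)) 1 with h1 | h1
    · rw [abs_mul, abs_of_pos (show 0 < exp (2 * x) * 2 by positivity)]
      nlinarith [bM _ (exp_pos (2 * x)).le, abs_nonneg (deriv b (exp (2 * x)))]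
    · rw [z1 _ h1]; simp; positivity
  · have h1 : b r ≤ b 0 := an (mem_Ici.2 le_rfl) hr hr
    have h2 : b (r + 1) ≤ b r := an hr (show 0 ≤ r + 1 by linarith) (by linarith)
    rw [h.one (r + 1) (by linarith)] at h2
    exact abs_le.2 ⟨by linarith [h.l1], by linarith [h.l0]⟩
  · rcases lt_trichotomy r r' with h1 | rfl | h1
    · exact sl r hr r' h1
    · exact ⟨-deriv b ξ, ⟨by linarith [np ξ ξ0], by
        linarith [(abs_le.1 (bM ξ ξ0)).1]⟩, by ring, fun _ _ => le_rfl⟩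
    · obtain ⟨k, hk, e, hh⟩ := sl r' hr' r h1
      exact ⟨k, hk, by linarith, fun u v => hh v u⟩
  · have m1 := min_le_left (b (r₀ / 2) - l) (l - b ((r₀ + 1) / 2))
    have m2 := min_le_right (b (r₀ / 2) - l) (l - b ((r₀ + 1) / 2))
    obtain ⟨u, v⟩ := abs_le.1 hl
    refine ⟨le_of_not_gt fun h1 => ?_, le_of_not_gt fun h1 => ?_⟩
    · linarith [an hr (show 0 ≤ r₀ / 2 by linarith) h1.le]
    · linarith [an (show 0 ≤ (r₀ + 1) / 2 by linarith) hr h1.le]

namespace St
variable {β : ℝ → ℝ} {r l κ ε e T : ℝ} (h : St β r l κ ε) {x w : ℝ → ℝ}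
include h

theorem near {y : ℝ} (hy : |β y - l| ≤ κ * ε / 2) : |y - r| ≤ ε := by
  have := mul_pos h.κ0 h.ε0
  obtain ⟨u, v⟩ := abs_le.1 hy
  refine abs_le.2 ⟨le_of_not_gt fun h1 => ?_, le_of_not_gt fun h1 => ?_⟩
  · have := h.neg.le_of_lt (x := -y) ⟨h.ε0.le, le_rfl⟩ (by linarith)
    simp only [neg_neg] at this
    linarith
  · linarith [h.le_of_lt ⟨h.ε0.le, le_rfl⟩ h1]

theorem band_in {a b A : ℝ} (he : e ∈ Ioc 0 ε)
    (hd : ∀ t ∈ Icc a b, HasDerivAt x (-(β (x t) - l) + w t) t)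
    (hw : ∀ t ∈ Icc a b, |w t| ≤ κ * e / 2) (hA : |x b - r| ≤ A) (hab : a + A / (κ * e / 2) ≤ b) :
    |x a - r| ≤ e := by
  have := h.band (ρ := fun t => x (-t)) (N := fun t => l + w (-t)) (a := -b) (b := -a) he
    (fun t ht => ((hd (-t) ⟨by linarith [ht.2], by linarith [ht.1]⟩).scomp t
      (hasDerivAt_neg t)).congr_deriv (by simp; ring))
    (fun t ht => by simpa using hw (-t) ⟨by linarith [ht.2], by linarith [ht.1]⟩)
    (by simpa using hA) (by linarith)
  simpa using this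

theorem band_out {a b A : ℝ} (he : e ∈ Ioc 0 ε)
    (hd : ∀ t ∈ Icc a b, HasDerivAt x (β (x t) - l + w t) t)
    (hw : ∀ t ∈ Icc a b, |w t| ≤ κ * e / 2) (hA : |x a - r| ≤ A) (hab : a + A / (κ * e / 2) ≤ b) :
    |x b - r| ≤ e :=
  h.band (N := fun t => l - w t) he (fun t ht => (hd t ht).congr_deriv (by ring))
    (fun t ht => by simpa using hw t ht) hA hab

end St

/-- the logarithm of the norm of a linear solution -/
structure Hd (h : ℝ → ℝ) (d T H : ℝ) : Prop where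
  sm : ContDiffOn ℝ ∞ h (Ioi (-1 / 2))
  bd : ∀ τ ∈ Icc 0 T, |h τ| ≤ H
  der : ∀ τ ≥ T, |deriv h τ| ≤ d

theorem Hd.has {h : ℝ → ℝ} {d T H τ : ℝ} (k : Hd h d T H) (hτ : -1 / 2 < τ) :
    HasDerivAt h (deriv h τ) τ :=
  ((k.sm.contDiffAt (Ioi_mem_nhds hτ)).differentiableAt (by simp)).hasDerivAt

/-- the radial equations -/
def Ode (β : Bool → ℝ → ℝ) (l : Bool → ℝ) (h y : Bool → ℝ → ℝ) : Prop := y true 0 = y false 0 ∧
  ∀ s, ∀ τ ≥ 0, HasDerivAt (y s) (pm s * (χ τ * (β s (y s τ + h s τ) - l s))) τ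

section ode
variable {β : Bool → ℝ → ℝ} {l r κ ε : Bool → ℝ} {K : NNReal} {e d T H : ℝ}
  (hs : ∀ s, St (β s) (r s) (l s) (κ s) (ε s)) (hK : ∀ s x, |β s x - l s| ≤ K)
  (he : ∀ s, e ∈ Ioc 0 (ε s)) (hd : ∀ s, d ≤ κ s * e / 2) (hT : 1 ≤ T)
include hs hK he hd hT

theorem ode_bnd : ∃ X T', T ≤ T' ∧ ∀ h y, (∀ s, Hd (h s) d T H) → Ode β l h y →
    (∀ᶠ τ in atTop, |y false τ + h false τ - r false| ≤ ε false) → ∀ s, |y s 0| ≤ X ∧
      (∀ τ ≥ 0, |y s τ + h s τ| ≤ X) ∧ ∀ τ ≥ T', |y s τ + h s τ - r s| ≤ e := by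
  set Y := |r false| + e + |H| + 2 * (K * T) with hY
  set A := Y + |H| + |r true|
  set L := A / (κ true * e / 2)
  have e0 := (he true).1
  have KT : 0 ≤ K * T := by positivity
  have A0 : 0 ≤ A := by positivity
  have L0 : 0 ≤ L := by have := (hs true).κ0; positivity
  have KL : 0 ≤ (K + κ true * e / 2) * L := by have := (hs true).κ0; positivity
  refine ⟨A + |r true| + |r false| + e + (K + κ true * e / 2) * L, T + L, by linarith,
    fun h y hh hy hi => ?_⟩
  have dx : ∀ s, ∀ τ ≥ T, HasDerivAt (fun τ => y s τ + h s τ)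
      (pm s * (β s (y s τ + h s τ) - l s) + deriv (h s) τ) τ := fun s τ hτ => by
    have := (hy.2 s τ (by linarith)).add ((hh s).has (τ := τ) (by linarith))
    rwa [χ1 (hT.trans hτ), one_mul] at this
  have dw : ∀ s, ∀ τ ≥ T, |deriv (h s) τ| ≤ κ s * e / 2 := fun s τ hτ =>
    ((hh s).der τ hτ).trans (hd s)
  have bi : ∀ τ ≥ T, |y false τ + h false τ - r false| ≤ e := fun τ hτ => by
    obtain ⟨b, hb, hb'⟩ :=
      (hi.and (eventually_ge_atTop (τ + ε false / (κ false * e / 2)))).exists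
    exact (hs false).band_in (x := fun τ => y false τ + h false τ) (he false)
      (fun t ht => (dx false t (hτ.trans ht.1)).congr_deriv (by simp [pm]))
      (fun t ht => dw false t (hτ.trans ht.1)) hb hb'
  have dy : ∀ s, ∀ a ∈ Icc 0 T, |y s a - y s 0| ≤ K * T := fun s a ha => by
    refine (mv (C := K) ha.1 (fun t ht => hy.2 s t ht.1) fun t _ => ?_).trans
      (mul_le_mul_of_nonneg_left (by linarith [ha.2]) K.2)
    rw [abs_mul, abs_mul, pm_abs, one_mul]
    exact (mul_le_of_le_one_left (abs_nonneg _) (χ_abs t)).trans (hK s _)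
  have hH : ∀ s, ∀ a ∈ Icc 0 T, |h s a| ≤ |H| := fun s a ha => ((hh s).bd a ha).trans (le_abs_self H)
  have TT : T ∈ Icc 0 T := ⟨by linarith, le_rfl⟩
  have y0 : ∀ s, |y s 0| ≤ |r false| + e + |H| + K * T := fun s => by
    have : y s 0 = y false 0 := by cases s; exacts [rfl, hy.1]
    have h1 := abs_le.1 (bi T le_rfl)
    have h2 := abs_le.1 (dy false T TT)
    have h3 := abs_le.1 (hH false T TT)
    rw [this]
    exact abs_le.2 ⟨by linarith [neg_abs_le (r false)], by linarith [le_abs_self (r false)]⟩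
  have x1 : ∀ s, ∀ a ∈ Icc 0 T, |y s a + h s a| ≤ Y + |H| := fun s a ha => by
    have h1 := abs_le.1 (y0 s)
    have h2 := abs_le.1 (dy s a ha)
    have h3 := abs_le.1 (hH s a ha)
    exact abs_le.2 ⟨by linarith, by linarith⟩
  have xT : |y true T + h true T - r true| ≤ A := (abs_sub _ _).trans (by linarith [x1 true T TT])
  have bo : ∀ τ ≥ T + L, |y true τ + h true τ - r true| ≤ e := fun τ hτ =>
    (hs true).band_out (x := fun τ => y true τ + h true τ) (he true)
      (fun t ht => (dx true t ht.1).congr_deriv (by simp [pm])) (fun t ht => dw true t ht.1) xT hτ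
  have r0 := abs_nonneg (r true)
  have r1 := abs_nonneg (r false)
  have H0 := abs_nonneg H
  intro s
  refine ⟨by linarith [y0 s], fun τ hτ => ?_, fun τ hτ => ?_⟩
  · rcases le_total τ T with h1 | h1
    · linarith [x1 s τ ⟨hτ, h1⟩]
    cases s
    · have := abs_le.1 (bi τ h1)
      exact abs_le.2 ⟨by linarith [neg_abs_le (r false)], by linarith [le_abs_self (r false)]⟩
    rcases le_total τ (T + L) with h2 | h2
    · have := mv (f := fun τ => y true τ + h true τ) (C := K + κ true * e / 2) h1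
        (fun t ht => dx true t ht.1) fun t ht => (abs_add_le _ _).trans (add_le_add
          (by rw [abs_mul, pm_abs, one_mul]; exact hK _ _) (dw true t ht.1))
      have h3 : (K + κ true * e / 2) * (τ - T) ≤ (K + κ true * e / 2) * L :=
        mul_le_mul_of_nonneg_left (by linarith) (by have := (hs true).κ0; positivity)
      have h4 := abs_le.1 (this.trans h3)
      have h5 := abs_le.1 (x1 true T TT)
      exact abs_le.2 ⟨by linarith, by linarith⟩
    · have := abs_le.1 (bo τ h2)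
      exact abs_le.2 ⟨by linarith [neg_abs_le (r true)], by linarith [le_abs_self (r true)]⟩
  · cases s
    exacts [bi τ (by linarith), bo τ hτ]

theorem ode_ex (hβ : ∀ s, ContDiff ℝ ∞ (β s)) (hL : ∀ s, LipschitzWith K (β s))
    {h : Bool → ℝ → ℝ} (hh : ∀ s, Hd (h s) d T H) : ∃ y : Bool → ℝ → ℝ,
    (∀ s, ContDiff ℝ ∞ (y s)) ∧ (∀ s, ∀ τ ≤ 0, y s τ = y false 0) ∧
    (∀ s τ, HasDerivAt (y s) (pm s * (χ τ * (β s (y s τ + h s τ) - l s))) τ) ∧
    ∀ τ ≥ T, |y false τ + h false τ - r false| ≤ e := by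
  let F : Bool → ℝ × ℝ → ℝ := fun s p => pm s * (χ p.1 * (β s (p.2 + h s p.1) - l s))
  have cF : ∀ s, ContDiff ℝ ∞ (F s) := fun s => contDiff_const.mul (cd_chi contDiff_fst
    fun p hp => ((hβ s).contDiffAt.comp p (contDiffAt_snd.add
      (((hh s).sm.contDiffAt (Ioi_mem_nhds hp)).comp p contDiffAt_fst))).sub contDiffAt_const)
  have bF : ∀ s p, |F s p| ≤ K := fun s p => by
    rw [abs_mul, abs_mul, pm_abs, one_mul]
    exact (mul_le_of_le_one_left (abs_nonneg _) (χ_abs _)).trans (hK s _)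
  have lF : ∀ s t, LipschitzWith K fun x => F s (t, x) := fun s t =>
    LipschitzWith.of_dist_le_mul fun x x' => by
      have := (hL s).dist_le_mul (x + h s t) (x' + h s t)
      rw [dist_add_right] at this
      refine le_trans ?_ this
      simp only [F, Real.dist_eq]
      rw [← mul_sub, ← mul_sub, abs_mul, abs_mul, pm_abs, one_mul, sub_sub_sub_cancel_right]
      exact mul_le_of_le_one_left (abs_nonneg _) (χ_abs _)
  let G : ℝ → ℝ → ℝ := fun t x => -F false (-t, x)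
  have cG : ∀ x, Continuous (G · x) := fun x => ((cF false).continuous.comp (by fun_prop)).neg
  have lG : ∀ t, LipschitzWith K (G t) := fun t => (lF false (-t)).neg
  have bG : ∀ a b, ∃ L, ∀ t ∈ Icc a b, ∀ x, ‖G t x‖ ≤ L := fun _ _ =>
    ⟨K, fun t _ x => by simpa [G] using bF false (-t, x)⟩
  choose σ h0 hσ using fun n : ℕ => glob cG lG bG (-(T + n)) (r false - h false (T + n))
  have inb : ∀ n : ℕ, ∀ t ∈ Icc T (T + n), |σ n (-t) + h false t - r false| ≤ e := fun n t ht =>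
    (hs false).band_in (x := fun t => σ n (-t) + h false t) (w := deriv (h false)) (b := T + n)
      (A := 0) (he false) (fun u hu => by
        have := ((hσ n (-u)).scomp u (hasDerivAt_neg u)).add
          ((hh false).has (τ := u) (by linarith [ht.1, hu.1]))
        refine this.congr_deriv ?_
        simp [G, F, pm, χ1 (hT.trans (ht.1.trans hu.1))])
      (fun u hu => ((hh false).der u (ht.1.trans hu.1)).trans (hd false))
      (by simp only [h0]; simp) (by simpa using ht.2)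
  obtain ⟨x, -, φ, hφ, hx⟩ := (isCompact_closedBall (r false - h false T) e).tendsto_subseq
    (x := fun n => σ n (-T)) fun n => by
      rw [Metric.mem_closedBall, Real.dist_eq, ← sub_add, sub_add_eq_add_sub]
      exact inb n T ⟨le_rfl, by linarith [n.cast_nonneg (α := ℝ)]⟩
  obtain ⟨ρ, hρ0, hρ⟩ := glob cG lG bG (-T) x
  obtain ⟨ρ', hρ0', hρ'⟩ := glob (F := fun t x => F true (t, x))
    (fun x => (cF true).continuous.comp (by fun_prop)) (lF true)
    (fun _ _ => ⟨K, fun t _ x => bF true (t, x)⟩) 0 (ρ (-0))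
  let y : Bool → ℝ → ℝ := fun s => bif s then ρ' else fun t => ρ (-t)
  have hy : ∀ s τ, HasDerivAt (y s) (F s (τ, y s τ)) τ := fun s τ => by
    cases s
    · exact ((hρ (-τ)).scomp τ (hasDerivAt_neg τ)).congr_deriv (by simp [G, y])
    · exact hρ' τ
  refine ⟨y, fun s => cd_ode (cF s) (hy s), fun s τ hτ => ?_, hy, fun t ht => ?_⟩
  · have := mv (C := 0) hτ (fun t _ => hy s t) fun t ht => by simp [F, χ0 ht.2]
    have h1 : y s 0 = y false 0 := by cases s; exacts [rfl, hρ0']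
    rw [zero_mul, abs_nonpos_iff] at this
    linarith
  have h1 : Tendsto (fun n => σ (φ n) (-t)) atTop (𝓝 (ρ (-t))) := by
    refine tendsto_iff_dist_tendsto_zero.2 (squeeze_zero (fun _ => dist_nonneg)
      (fun n => dist_back lG (hσ (φ n)) hρ (neg_le_neg ht)) ?_)
    rw [hρ0]
    simpa using (tendsto_iff_dist_tendsto_zero.1 hx).mul_const (exp (K * (-T - -t)))
  refine le_of_tendsto ((h1.add_const _).sub_const _).abs ?_
  filter_upwards [(tendsto_natCast_atTop_atTop.comp hφ.tendsto_atTop).eventually_ge_atTop (t - T)]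
    with n hn
  exact inb _ t ⟨ht, by simp only [Function.comp] at hn; linarith⟩

end ode

end Crest.Agent.X212.Rad94
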