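import Crest.Agent.X212.Rad94.Lin
import Crest.Agent.X212.Rad96.Defs

/-!
# Row 212, AN-S (helper94): the radial problem for a fixed connection (format free)

`Rp` : sections `S`, slices `sl s τ` at the height `τ` of the end `s` (`false` incoming), operators
`D α c` with the radial mass `c` (the target contains the cut rows).
-/

set_option autoImplicit false
set_option linter.unusedSectionVars false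
noncomputable section
open scoped Topology InnerProductSpace
open MeasureTheory Set Function Filter Real

namespace Crest.Agent.X212.Rad94
open M (pm)

/-- the data -/
structure Rp : Type 1 where
  A : Type
  S : Type
  V : Type
  H : Bool → Type
  [gS : AddCommGroup S]
  [mS : Module ℝ S]
  [gV : AddCommGroup V]
  [mV : Module ℝ V]
  [nH : ∀ s, NormedAddCommGroup (H s)]
  [iH : ∀ s, InnerProductSpace ℝ (H s)]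
  o : A
  sm : A → ℝ → Prop
  sl : ∀ s, ℝ → S →ₗ[ℝ] H s
  q0 : S → ℝ
  F' : V → Prop
  Q' : V → ℝ
  D : A → (Bool → ℝ → ℝ) → S →ₗ[ℝ] V
  E : (Bool → ℝ → ℝ) → S →ₗ[ℝ] S
  E' : (Bool → ℝ → ℝ) → V →ₗ[ℝ] V
  rot : ℂ → S →ₗ[ℝ] S
  pr : S →ₗ[ℝ] ℂ
  l : Bool → ℝ
  ε : ℝ
  γ : ℝ

attribute [instance] Rp.gS Rp.mS Rp.gV Rp.mV Rp.nH Rp.iH

namespace Rp
variable (R : Rp)

/-- the square of the norm of a slice -/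
def n (s : Bool) (u : R.S) (τ : ℝ) : ℝ := ‖R.sl s τ u‖ ^ 2

def Fi (u : R.S) : Prop := ∀ s, IntegrableOn (fun τ => R.n s u τ * exp (-(2 * R.ε) * τ)) (Ioi 0)

def Q (u : R.S) : ℝ := R.q0 u + ∑ s, ∫ τ in Ioi 0, R.n s u τ * exp (-(2 * R.ε) * τ)

/-- the reference mass -/
def c0 (s : Bool) (τ : ℝ) : ℝ := χ τ * R.l s

/-- the flow on the end `s` of a solution -/
structure Flw (s : Bool) (u : R.S) (c z : ℝ → ℝ) (ψ ρ : ℝ → R.H s) : Prop where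
  d1 : ∀ τ > -1, HasDerivAt (fun τ => R.sl s τ u)
    (-ψ τ + ρ τ + (pm s * (c τ - R.l s)) • R.sl s τ u) τ
  d2 : ∀ τ > -1, HasDerivAt (fun τ => ⟪ψ τ, R.sl s τ u⟫_ℝ)
    (2 * ⟪ψ τ, -ψ τ + ρ τ + (pm s * (c τ - R.l s)) • R.sl s τ u⟫_ℝ) τ
  sm : ∀ τ > -1, ‖ρ τ‖ ≤ z τ * ‖R.sl s τ u‖
  gap : ∀ τ > -1, ∀ ν δ : ℝ, 0 ≤ δ → δ ≤ |ν| → δ ≤ R.γ - |ν| →
    δ * ‖R.sl s τ u‖ ≤ ‖ψ τ - ν • R.sl s τ u‖

structure Ax : Prop where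
  ε0 : 0 < R.ε
  γ0 : 8 * R.ε ≤ R.γ
  sm0 : R.sm R.o 0
  smm : ∀ α δ δ', R.sm α δ → δ ≤ δ' → R.sm α δ'
  q0n : ∀ u, 0 ≤ R.q0 u
  q0a : ∀ u v, R.q0 (u + v) ≤ 2 * R.q0 u + 2 * R.q0 v
  q0s : ∀ (r : ℝ) u, R.q0 (r • u) = r ^ 2 * R.q0 u
  q0r : ∀ z u, R.q0 (R.rot z u) = ‖z‖ ^ 2 * R.q0 u
  q0E : ∀ g u v, Rd g → R.q0 (u + (R.E g v - v)) = R.q0 u
  col : ∀ s u, ∫ τ in (-1 / 2 : ℝ)..0, R.n s u τ ≤ R.q0 u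
  smn : ∀ s u, ContDiffOn ℝ (⊤ : ℕ∞) (R.n s u) (Ioi (-1))
  sep : ∀ u, R.Fi u → R.Q u = 0 → u = 0
  slE : ∀ g s u, Rd g → ∀ τ > -1, R.sl s τ (R.E g u) = exp (g s τ) • R.sl s τ u
  EE : ∀ g u, Rd g → R.E g (R.E (-g) u) = u
  slr : ∀ z s u, ∀ τ > -1, ‖R.sl s τ (R.rot z u)‖ = ‖z‖ * ‖R.sl s τ u‖
  rr : ∀ z z' u, R.rot z (R.rot z' u) = R.rot (z * z') u
  rre : ∀ (r : ℝ) u, R.rot r u = r • u
  rE : ∀ z g u, R.rot z (R.E g u) = R.E g (R.rot z u)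
  prr : ∀ z u, R.pr (R.rot z u) = z * R.pr u
  prE : ∀ g u, Rd g → R.pr (R.E g u) = R.pr u
  prb : ∃ C, ∀ u, ‖R.pr u‖ ^ 2 ≤ C * R.q0 u
  DE : ∀ α c g u, Rd c → Rd g →
    R.D α (fun s τ => c s τ + pm s * deriv (g s) τ) (R.E g u) = R.E' g (R.D α c u)
  Dr : ∀ α c z u, R.D α c u = 0 → R.D α c (R.rot z u) = 0
  F0 : R.F' 0
  Q0 : R.Q' 0 = 0
  Qn : ∀ f, 0 ≤ R.Q' f
  Fs : ∀ f f', R.F' f → R.F' f' → R.F' (f - f') ∧ R.Q' (f - f') ≤ 2 * R.Q' f + 2 * R.Q' f'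
  FE : ∀ α c u g G, Rd c → Rd g → 0 ≤ G → (∀ s τ, |g s τ| ≤ G) → R.F' (R.D α c u) →
    R.F' (R.E' g (R.D α c u)) ∧ R.Q' (R.E' g (R.D α c u)) ≤ exp (2 * G) * R.Q' (R.D α c u)
  pert : ∃ C, ∀ α δ c u, δ ∈ Icc (0 : ℝ) 1 → R.sm α δ → Rd c → (∀ s τ, |c s τ - R.c0 s τ| ≤ δ) →
    R.Fi u → R.F' (R.D α c u - R.D R.o R.c0 u) ∧
      R.Q' (R.D α c u - R.D R.o R.c0 u) ≤ C * δ ^ 2 * R.Q u
  est : ∃ C, ∀ u, R.Fi u → R.F' (R.D R.o R.c0 u) →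
    R.Q u ≤ C * (R.Q' (R.D R.o R.c0 u) + ‖R.pr u‖ ^ 2)
  ex : ∃ δ > 0, ∀ α, R.sm α δ → ∃ u, u ≠ 0 ∧ R.Fi u ∧ R.D α R.c0 u = 0
  nd : ∀ s u, R.Fi u → R.D R.o R.c0 u = 0 →
    IntegrableOn (fun τ => R.n s u τ * exp (2 * R.ε * τ)) (Ioi 0) → u = 0
  fl : ∃ (z : ℝ → ℝ) (Λ C : ℝ), (∀ τ, z τ ≤ Λ) ∧ Tendsto z atTop (𝓝 0) ∧ 0 ≤ C ∧
    ∀ α δ c u s, 0 ≤ δ → R.sm α δ → Rd c → R.D α c u = 0 →
      ∃ ψ ρ, R.Flw s u (c s) (fun τ => z τ + C * δ) ψ ρ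

variable (b : Bool → ℝ → ℝ)

/-- the radial mass of `u` -/
def cm (u : R.S) (s : Bool) (τ : ℝ) : ℝ := χ τ * b s (R.n s u τ)

/-- solutions whose levels are eventually `η`-close to `l` -/
def Rad (η : ℝ) (α : R.A) (u : R.S) : Prop :=
  R.D α (R.cm b u) u = 0 ∧ ∀ s, ∀ᶠ τ in atTop, |b s (R.n s u τ) - R.l s| ≤ η

/-- existence, bounds, Lipschitz dependence -/
structure Out (η δ lo up T C : ℝ) : Prop where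
  ex : ∀ α, R.sm α δ → ∃ u, R.Rad b η α u
  bnd : ∀ α u, R.sm α δ → R.Rad b η α u → R.q0 u ≤ up ∧ ∀ s, (∀ τ ≥ 0, R.n s u τ ∈ Icc lo up) ∧
    ∀ τ ≥ T, |b s (R.n s u τ) - R.l s| ≤ η / 2
  lip : ∀ α α' u u', R.sm α δ → R.sm α' δ → R.Rad b η α u → R.Rad b η α' u' →
    R.F' (R.D α (R.cm b u') u') → ∃ z : ℂ, ‖z‖ = 1 ∧
      R.Q (u' - R.rot z u) ≤ C * R.Q' (R.D α (R.cm b u') u')

end Rp

/-- admissible profiles -/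
structure Prf (b : ℝ → ℝ) (l : ℝ) : Prop where
  sm : ContDiff ℝ (⊤ : ℕ∞) b
  neg : ∀ r ∈ Ico (0 : ℝ) 1, deriv b r < 0
  one : ∀ r, 1 ≤ r → b r = 0
  l0 : 0 < l
  l1 : l < b 0

/-- PART I (94) -/
def AbsStmt : Prop := ∀ (b : Bool → ℝ → ℝ) (l : Bool → ℝ), (∀ s, Prf (b s) (l s)) → ∃ ε₁ > 0,
  ∀ R : Rp, R.Ax → R.l = l → R.ε ≤ ε₁ → ∃ η₀ > 0, ∀ η ∈ Ioc 0 η₀,
    ∃ δ > 0, ∃ lo > 0, ∃ up T C, R.Out b η δ lo up T C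

end Crest.Agent.X212.Rad94
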