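import Crest.Agent.X212.Rad94.Abs
import Crest.Agent.X212.Sw.Fam

/-!
# Row 212, AN-S (helper94): pieces with exactly one class of solutions

`Two Z` : a piece with one incoming (`false`) and one outgoing (`true`) neck.  `Ker`, `Hdg` are the
level-free conditions; `OneStmt` : one class; `KerStmt`, `KerCStmt`, `HdgStmt` : the conditions can be
realised.
-/

set_option autoImplicit false
set_option linter.unusedSectionVars false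
noncomputable section
open scoped Manifold ContDiff Topology InnerProductSpace
open MeasureTheory Set Function Filter Real

namespace Crest.Agent.X212.Rad94
open An Cyf70 Sw Sw.En3
open M (Mf pm)

variable {κ lam ν : Type} [Fintype κ] [Fintype lam] [Fintype ν] [DecidableEq ν]
  {X : Mf 4} {nc k : ℕ}

/-! ### the cross-sections -/

section en
variable (e : En3 κ lam ν)

/-- the Dirac operator with mass of the reducible point `0` -/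
def A0 (φ : e.Y.M → Eu ν) (y : e.Y.M) : Eu ν := -e.m.ρ none y (e.cyl.eD (fz ⟨0, φ⟩) (y, 0))

/-- eigensections -/
def Eig (l : ℝ) (φ : e.Y.M → Eu ν) : Prop := e.cyl.Adm (fz ⟨0, φ⟩) ∧ A0 e φ = l • φ

/-- eigenvalues -/
def Ev (l : ℝ) : Prop := ∃ φ, Eig e l φ ∧ φ ≠ 0

/-- simple non-negative spectrum -/
def Smp : Prop := ∀ l ≥ 0, ∀ φ φ', Eig e l φ → Eig e l φ' → φ ≠ 0 →
  ∃ z : ℂ, φ' = fun y => cs e.m.J z (φ y)

/-- the spectral gap around `l` -/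
def Gp (l γ : ℝ) : Prop := ∀ φ, e.cyl.Adm (fz ⟨0, φ⟩) → ∀ μ δ : ℝ, 0 ≤ δ → δ ≤ |μ - l| →
  δ ≤ γ - |μ - l| → δ * e.D.F.nrm 0 φ ≤ e.D.F.nrm 0 (A0 e φ - μ • φ)

/-- a rational homology sphere whose reference connection is the reducible point -/
structure Rd0 : Prop where
  ok : e.OK
  h1 : e.H1
  f : e.f = 0
  red : ∀ x, e.cyl.eC ⟨0, 0⟩ x = 0

end en

/-! ### forms and spinors -/

section bg
variable (b : Bg X.I X.M κ lam ν nc)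

/-- one-forms -/
abbrev Fo (X : Mf 4) (κ : Type) : Type := Option κ → X.M → ℝ

/-- a one-form as a vector valued function -/
def vc (a : Fo X κ) (x : X.M) : Fm (Option κ) ℝ := WithLp.toLp 2 fun i => a i x

/-- smooth one-forms -/
def S1 (a : Fo X κ) : Prop := (∀ i, Sm X.I (a i)) ∧ ∀ i x, ∑ j, b.B.P i j x * a j x = a i x

/-- bounded one-forms -/
def A1 (a : Fo X κ) : Prop := S1 b a ∧ ∀ i, b.F.Cb (a i)

/-- bounded self-dual forms -/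
def SD (f : X.M → F2 κ) : Prop := b.F.Cb f ∧ ∀ x, b.p2 x (f x) = f x

/-- the differential -/
def d1 (a : Fo X κ) (x : X.M) : F2 κ := WithLp.toLp 2 fun s =>
  b.F.D s.1 (a s.2) x - b.F.D s.2 (a s.1) x - ∑ j, b.F.c s.1 s.2 j x * a j x

/-- the pairing `∫ f ∧ f'` -/
def wd (f f' : X.M → F2 κ) : ℝ :=
  ∫ x, ⟪f x, idx (b.B.st x) (ContinuousLinearMap.id ℝ ℝ) (f' x)⟫_ℝ ∂b.F.μ

/-- closed two-forms of compact support -/
structure Cc (η : X.M → F2 κ) : Prop where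
  sm : Sm X.I η
  cpt : HasCompactSupport η
  a2 : ∀ x, idx (b.B.a2 x) (ContinuousLinearMap.id ℝ ℝ) (η x) = η x
  cl : ∀ a, S1 b a → (∀ i, HasCompactSupport (a i)) → wd b (d1 b a) η = 0

/-- `H¹ = 0` and `dγ⁺` is not a combination of the `ϖ i` -/
def Clo (ϖ : Fin k → X.M → F2 κ) : Prop := ∀ γ (s : Fin k → ℝ), A1 b γ →
  (∀ x, b.p2 x (d1 b γ x) = ∑ i, s i • ϖ i x) → s = 0 ∧ ∃ f, Sm X.I f ∧ ∀ i, γ i = b.F.D i f

/-- another forcing form and another scale -/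
abbrev sft (f : X.M → F2 κ) (w : ℝ) : Bg X.I X.M κ lam ν nc :=
  { b with om := fun x => b.om x + f x, w := w }

/-- another mass -/
abbrev mas (m : X.M → En ν) : Bg X.I X.M κ lam ν nc := { b with ms := fun x => b.ms x + m x }

/-- the cut rows with the test spinors `η - η'` -/
def rw (a : Fo X κ) (η' : Fin nc → R4 → Eu ν) (u : X.M → Eu ν) (j : Fin nc) : ℂ :=
  b.l j ⟨a, u⟩ - b.lη j (η' j) ⟨a, u⟩

variable (g : Gm X κ lam Bool)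

/-- the Dirac operator with the radial mass `c` -/
def Dz (a : Fo X κ) (c : Bool → ℝ → ℝ) (u : X.M → Eu ν) (x : X.M) : Eu ν :=
  b.eD ⟨a, u⟩ x - g.rd c x • b.m.ρ none x (u x)

/-- the reducible solution -/
structure Ref (a₀ : Fo X κ) : Prop where
  a1 : A1 b a₀
  eq : ∀ x, b.eC ⟨a₀, 0⟩ x = 0
  dec : ∀ s, ∀ δ > 0, ∃ T, ∀ τ ≥ T, ∀ y, ‖vc a₀ (g.pt s τ y)‖ ≤ δ

/-- the weighted kernel -/
structure Kr (a : Fo X κ) (η' : Fin nc → R4 → Eu ν) (l ϖ : Bool → ℝ) (u : X.M → Eu ν) : Prop where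
  sc : Sc b.pp u
  fi : g.Fi ϖ u
  eq : Dz b g a (fun s τ => χ τ * l s) u = 0
  row : rw b a η' u = 0

/-- the kernel with growth `e^{ε τ}` is a line whose elements do not decay -/
structure Ker (a₀ : Fo X κ) (l : Bool → ℝ) (ε : ℝ) : Prop where
  est : ∃ (pr : (X.M → Eu ν) → ℂ) (C : ℝ), g.Row pr C ∧
    (∀ z u, Sm X.I u → pr (fun x => cs b.m.J z (u x)) = z * pr u) ∧
    ∀ u, Sc b.pp u → g.Fi (fun _ => ε) u → g.Fi (fun _ => ε) (Dz b g a₀ (fun s τ => χ τ * l s) u) →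
      g.Q (fun _ => ε) u ≤ C * (g.Q (fun _ => ε) (Dz b g a₀ (fun s τ => χ τ * l s) u) +
        ‖rw b a₀ 0 u‖ ^ 2 + ‖pr u‖ ^ 2)
  ex : ∃ δ > 0, ∀ a η', A1 b a → (∀ x, ‖vc a x - vc a₀ x‖ ≤ δ) → (∀ j, b.Tst (b.ct j).Ξ (η' j)) →
    ∃ u, Kr b g a η' l (fun _ => ε) u ∧ u ≠ 0
  nd : ∀ s u, Kr b g a₀ 0 l (update (fun _ => ε) s (-ε)) u → u = 0

/-- a right inverse of `d⁺` modulo the forms `ϖ` -/
structure Hdg (ϖ : Fin k → X.M → F2 κ) (ε : ℝ) (G : (X.M → F2 κ) → Fo X κ)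
    (S : (X.M → F2 κ) → Fin k → ℝ) : Prop where
  a1 : ∀ f, SD b f → A1 b (G f)
  eq : ∀ f, SD b f → ∀ x, b.p2 x (d1 b (G f) x) - ∑ i, S f i • ϖ i x = f x
  sub : ∀ f f', SD b f → SD b f' → G (f - f') = G f - G f' ∧ S (f - f') = S f - S f'
  wt : ∃ C, ∀ f, SD b f → g.Q (fun _ => ε) (vc (G f)) + ‖S f‖ ^ 2 ≤ C * g.Q (fun _ => ε) f
  ul : ∀ j, ∃ C, ∀ f r, SD b f → g.Ul j f r → g.Ul (j + 1) (vc (G f)) (C * r) ∧ ‖S f‖ ≤ C * r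

/-- the Hodge condition -/
def HdgOK (ϖ : Fin k → X.M → F2 κ) : Prop :=
  Clo b ϖ ∧ ∃ ε₀ > 0, ∃ G S, ∀ ε ∈ Ioc 0 ε₀, Hdg b g ϖ ε G S

/-- bounds of a cut row with the test spinor `η` -/
structure RB (j : Fin nc) (η : R4 → Eu ν) (r : ℝ) : Prop where
  bd : ∀ a u, S1 b a → Sm X.I u → ‖b.lη j η ⟨a, u⟩‖ ^ 2 ≤ r ^ 2 * g.q0 u
  sup : ∀ a a' u δ, S1 b a → S1 b a' → Sm X.I u → (∀ x, ‖vc a x - vc a' x‖ ≤ δ) →
    ‖b.lη j η ⟨a, u⟩ - b.lη j η ⟨a', u⟩‖ ^ 2 ≤ r ^ 2 * δ ^ 2 * g.q0 u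
  l2 : ∀ a a' u M, S1 b a → S1 b a' → Sm X.I u → (∀ x, ‖u x‖ ≤ M) →
    ‖b.lη j η ⟨a, u⟩ - b.lη j η ⟨a', u⟩‖ ^ 2 ≤ r ^ 2 * M ^ 2 * g.q0 (vc (a - a'))

/-- the radial mass of a spinor -/
def cm (β : Bool → ℝ → ℝ) (u : X.M → Eu ν) (s : Bool) (τ : ℝ) : ℝ := χ τ * β s (g.n2 s u τ)

end bg

/-! ### pieces with two ends -/

variable {e : Bool → En3 κ lam ν}

/-- one incoming and one outgoing neck -/
structure Two (Z : Pz X nc e) where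
  K : ∀ s, Nk (e s) Z.bg
  hK : ∀ s, Z.nk s = some (K s)
  o : Bool → ℝ
  hp : ∀ s, (K s).p = bif s then some (o s) else none
  hq : ∀ s, (K s).q = bif s then none else some (o s)

/-- the parameter `φ` on `Dm` is invertible near `0`, with values in `D` -/
structure Par (φ ψ : (Fin k → ℝ) → Fin k → ℝ) (r : ℝ) (D Dm : Set (Fin k → ℝ)) : Prop where
  r0 : 0 < r
  lip : ∃ C, LipschitzOnWith C ψ (Metric.ball 0 r)
  ri : ∀ s ∈ Metric.ball 0 r, ψ s ∈ D ∧ φ (ψ s) = s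
  li : ∀ t ∈ Dm, φ t ∈ Metric.ball 0 r → ψ (φ t) = t
  sub : D ⊆ Dm

namespace Two
variable {Z : Pz X nc e} (z : Two Z)

/-- the geometry -/
abbrev gm : Gm X κ lam Bool :=
  { B := Z.bg.B, G := Z.bg.G, Y := fun s => (e s).Y, D := fun s => (e s).D,
    K := fun s => (z.K s).toNk, sd := id, o := z.o, hp := z.hp, hq := z.hq }

/-- the standing hypotheses -/
structure OK (ϖ : Fin k → X.M → F2 κ) : Prop where
  ok : Z.OK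
  en : ∀ s, Rd0 (e s)
  ct : ∀ j y s, z.gm.ht s ((Z.bg.ct j).Ξ y) < 0
  ϖ : ∀ i, ϖ i ∈ Sec X.I Z.bg.p2 ∧ ∀ s x, -1 < z.gm.ht s x → ϖ i x = 0

/-- the kernel condition for the levels `l` -/
def KerOK (a₀ : Fo X κ) (l : Bool → ℝ) : Prop := (∀ s, Ev (e s) (l s) ∧ ∃ γ > 0, Gp (e s) (l s) γ) ∧
  ∃ ε₀ > 0, ∀ ε ∈ Ioc 0 ε₀, Ker Z.bg z.gm a₀ l ε

/-- level data and terms over the family `om + ∑ φ t i • ϖ i`, `t ∈ Dm` -/
structure Lv (ϖ : Fin k → X.M → F2 κ) (φ : (Fin k → ℝ) → Fin k → ℝ) (Dm : Set (Fin k → ℝ)) (w : ℝ)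
    (β : Bool → ℝ → ℝ) (W : Type) : Type 1 where
  S : Bool → Set ℝ
  ψ : Bool → ℝ → ℝ
  yt : W → ∀ s, Option ((e s).re w (β s) (S s) (ψ s)).YT
  P : (Fin k → ℝ) → Pc ⟨Bool, fun s => (e s).re w (β s) (S s) (ψ s), W, yt⟩ X nc id
  ok : ∀ t ∈ Dm, (P t).OK
  bg : ∀ t ∈ Dm, (P t).bg = sft Z.bg (fun x => ∑ i, φ t i • ϖ i x) w
  ng : ∀ t ∈ Dm, ∀ s, ∃ K ∈ (P t).nk s, K.ng = (z.K s).ng
  fo : ∀ v, (∀ j, ∃ C, ∀ t ∈ Dm, Z.bg.F.CB j ((P t).fo v) C) ∧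
    (∃ T, ∀ t ∈ Dm, ∀ x ∉ z.gm.cor T, (P t).fo v x = 0) ∧
    ∃ C, ∀ t ∈ Dm, ∀ t' ∈ Dm, ∀ x, ‖(P t).fo v x - (P t').fo v x‖ ≤ C * ‖t - t'‖
  η : ∀ v j, ∃ C R, ∀ t ∈ Dm, ∀ y, (R < ‖y‖ → (P t).η v j y = 0) ∧ ‖(P t).η v j y‖ ≤ C ∧
    ∀ t' ∈ Dm, ‖(P t).η v j y - (P t').η v j y‖ ≤ C * ‖t - t'‖
  gen : ∀ s, ((e s).re w (β s) (S s) (ψ s)).Gen
  gok : ∀ s, (gen s).OK

variable {z} {ϖ : Fin k → X.M → F2 κ} {φ : (Fin k → ℝ) → Fin k → ℝ} {Dm : Set (Fin k → ℝ)} {w : ℝ}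
  {β : Bool → ℝ → ℝ} {W : Type}

/-- a property of all small perturbations -/
def _root_.Crest.Agent.X212.Rad94.EvQ {W : Type} (p : (W →₀ ℝ) → Prop) : Prop :=
  ∃ s : W → ℝ, ∀ q : W →₀ ℝ, (q.sum fun v r => |r| * s v) < 1 → p q

namespace Lv
variable (L : z.Lv ϖ φ Dm w β W)

/-- the cross-sections of the level -/
abbrev en (s : Bool) : En3 κ lam ν := (e s).re w (β s) (L.S s) (L.ψ s)

/-- the limits are critical points with levels near `l` -/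
def Lim (l : Bool → ℝ) (η : ℝ) (x : BCs L.en) : Prop :=
  ∀ s, Crit (x s s) ∧ |β s (nm (x s s)) - l s| ≤ η

/-- they are the only ones -/
def Unq (l : Bool → ℝ) (η : ℝ) (x : BCs L.en) : Prop :=
  ∀ s (v : (L.en s).YC), Crit v → |β s (nm v) - l s| ≤ η → Eqv (x s s) v

/-- all solutions are bounded by `C` -/
def Bd (C : ℝ) (x : BCs L.en) (q : W →₀ ℝ) : Prop :=
  ∀ t ∈ Dm, ∀ c, (L.P t).Sol x q c → ∀ p, ‖c.Φ p‖ ≤ C

/-- exactly one class, over a parameter in `D` -/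
def One (D : Set (Fin k → ℝ)) (x : BCs L.en) (q : W →₀ ℝ) : Prop := ∃ t ∈ D, ∃ c,
  (L.P t).Sol x q c ∧ ∀ t' ∈ Dm, ∀ c', (L.P t').Sol x q c' → t' = t ∧ (L.P t).Eqv c c'

/-- the levels of all solutions are pinned -/
def Pin (l : Bool → ℝ) (η lo T : ℝ) (x : BCs L.en) (q : W →₀ ℝ) : Prop :=
  ∀ t ∈ Dm, ∀ c, (L.P t).Sol x q c → ∀ s, (∀ τ ≥ 0, lo ≤ z.gm.n2 s c.Φ τ) ∧
    ∀ τ ≥ T, |β s (z.gm.n2 s c.Φ τ) - l s| ≤ η

/-- the perturbation of the curvature equation -/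
def tau (q : W →₀ ℝ) (t : Fin k → ℝ) (c : Cfg X.M κ ν) : X.M → F2 κ := ((L.P t).pt q).C c

/-- the right hand side of the curvature equation -/
def rhs (q : W →₀ ℝ) (t : Fin k → ℝ) (c : Cfg X.M κ ν) (x : X.M) : F2 κ :=
  w • Z.bg.p2 x (Z.bg.qd x (c.Φ x) (c.Φ x)) + L.tau q t c x

/-- the perturbation of the test spinors -/
def et (q : W →₀ ℝ) (t : Fin k → ℝ) (j : Fin nc) (y : R4) : Eu ν :=
  q.sum fun v r => r • (L.P t).η v j y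

/-- the equations -/
structure Eq (a₀ : Fo X κ) (q : W →₀ ℝ) (t : Fin k → ℝ) (c : Cfg X.M κ ν) : Prop where
  D : Dz Z.bg z.gm c.a (cm z.gm β c.Φ) c.Φ = 0
  C : ∀ x, Z.bg.p2 x (d1 Z.bg (c.a - a₀) x) - ∑ i, φ t i • ϖ i x = L.rhs q t c x
  l : rw Z.bg c.a (L.et q t) c.Φ = 0

end Lv

variable (z ϖ φ)

/-- the conditions that do not involve the spinor -/
structure Base (ψ : (Fin k → ℝ) → Fin k → ℝ) (r : ℝ) (D Dm : Set (Fin k → ℝ)) (a₀ : Fo X κ) :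
    Prop where
  ok : z.OK ϖ
  par : Par φ ψ r D Dm
  ref : Ref Z.bg z.gm a₀
  hdg : HdgOK Z.bg z.gm ϖ

/-- high levels are paired -/
def Hi (a₀ : Fo X κ) : Prop := ∀ Λ, ∃ n, ∀ l₀, Ev (e false) l₀ → n ≤ l₀ →
  ∃ l, l false = l₀ ∧ Λ ≤ l true ∧ z.KerOK a₀ l

/-- all positive levels are paired -/
def Al (a₀ : Fo X κ) : Prop := ∀ l₀ > 0, Ev (e false) l₀ →
  (nc = 0 ∨ ∃ l₁ ∈ Ioo 0 l₀, Ev (e false) l₁) → ∃ l, l false = l₀ ∧ 0 < l true ∧ z.KerOK a₀ l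

/-- exactly one class for the levels `l` -/
def Rad (D Dm : Set (Fin k → ℝ)) (l : Bool → ℝ) : Prop := ∀ β : Bool → ℝ → ℝ,
  (∀ s, Prf (β s) (l s)) → ∀ C, ∃ η₀ > 0, ∀ η ∈ Ioc 0 η₀, ∃ lo > 0, ∃ T, ∃ w₀ > 0, ∀ w ∈ Ioc 0 w₀,
    ∀ (W : Type) (L : z.Lv ϖ φ Dm w β W), EvQ fun q => ∀ x, L.Lim l η x → L.Unq l (2 * η) x →
      L.Bd C x q → L.One D x q ∧ L.Pin l η lo T x q

/-- masses with support in `O` -/
structure _root_.Crest.Agent.X212.Rad94.Mass (b : Bg X.I X.M κ lam ν nc) (O : Set X.M) (δ : ℝ)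
    (m : X.M → En ν) : Prop where
  sm : Sm X.I m
  cpt : HasCompactSupport m
  sup : tsupport m ⊆ O
  J : ∀ x, b.m.J * m x = m x * b.m.J
  p : ∀ x, b.pm x * m x * b.pp x = m x
  bd : b.F.CB 1 m δ

/-- the region of the masses -/
structure Reg (O : Set X.M) : Prop where
  nc : nc ≤ 1
  ct : ∀ j, (Z.bg.ct j).η ≠ 0 ∧ (Z.bg.ct j).Ξ '' tsupport (Z.bg.ct j).η ⊆ O
  op : IsOpen O
  ne : O.Nonempty
  ht : ∀ x ∈ O, ∀ s, z.gm.ht s x ≤ -1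

end Two

/-- the piece is a cylinder -/
structure Two.Cyl {e₀ : En3 κ lam ν} {Z : Pz X nc fun _ : Bool => e₀} (z : Two Z)
    (K : Nd18.Nk e₀.D Z.bg.B Z.bg.G) : Prop where
  p : K.p = none
  q : K.q = none
  ψ : ∀ s, ∀ x ∈ (z.K s).ψ.source, (z.K s).ψ x = K.ψ x
  mp : ∀ x, Z.bg.m.p (K.ψ x) = e₀.m.p x.1
  mρ : ∀ i x, Z.bg.m.ρ i (K.ψ x) = e₀.m.ρ i x.1

variable (κ lam ν)

/-- **ONE** -/
def OneStmt : Prop := ∀ (X : Mf 4) (nc k : ℕ) (e : Bool → En3 κ lam ν) (Z : Pz X nc e) (z : Two Z)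
  (ϖ : Fin k → X.M → F2 κ) φ ψ r D Dm a₀ l, z.Base ϖ φ ψ r D Dm a₀ → z.KerOK a₀ l → z.Rad ϖ φ D Dm l

/-- **KER**: a generic small mass in the core pairs the high levels -/
def KerStmt : Prop := ∀ (X : Mf 4) (nc k : ℕ) (e : Bool → En3 κ lam ν) (Z : Pz X nc e) (z : Two Z)
  (ϖ : Fin k → X.M → F2 κ) a₀ (O : Set X.M), z.OK ϖ → Ref Z.bg z.gm a₀ → (∀ s, Smp (e s)) →
    z.Reg O → ∀ δ > 0, ∃ m, Mass Z.bg O δ m ∧ ∀ (Z' : Pz X nc e) (z' : Two Z'),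
      Z'.bg = mas Z.bg m → (∀ s, (z'.K s).ng = (z.K s).ng) → z'.Hi a₀

/-- **KERC**: on a cylinder all levels are paired -/
def KerCStmt : Prop := ∀ (X : Mf 4) (nc k : ℕ) (e₀ : En3 κ lam ν) (Z : Pz X nc fun _ : Bool => e₀)
  (z : Two Z) (ϖ : Fin k → X.M → F2 κ) a₀ (O : Set X.M) K, z.OK ϖ → Ref Z.bg z.gm a₀ → Smp e₀ →
    z.Reg O → z.Cyl K → ∀ δ > 0, ∃ m, Mass Z.bg O δ m ∧
      ∀ (Z' : Pz X nc fun _ : Bool => e₀) (z' : Two Z'), Z'.bg = mas Z.bg m →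
        (∀ s, (z'.K s).ng = (z.K s).ng) → z'.Hi a₀ ∧ z'.Al a₀

/-- **HDG**: `η i` span a maximal positive subspace -/
def HdgStmt : Prop := ∀ (X : Mf 4) (nc k : ℕ) (e : Bool → En3 κ lam ν) (Z : Pz X nc e) (z : Two Z)
  (η : Fin k → X.M → F2 κ), z.OK (fun i x => Z.bg.p2 x (η i x)) → (∀ i, Cc Z.bg (η i)) →
    (∀ γ, S1 Z.bg γ → d1 Z.bg γ = 0 → ∃ f, Sm X.I f ∧ ∀ i, γ i = Z.bg.F.D i f) →
    (∀ s : Fin k → ℝ, s ≠ 0 → 0 < wd Z.bg (∑ i, s i • η i) (∑ i, s i • η i)) →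
    (∀ η', Cc Z.bg η' → (∀ i, wd Z.bg η' (η i) = 0) → wd Z.bg η' η' ≤ 0) →
    HdgOK Z.bg z.gm (fun i x => Z.bg.p2 x (η i x)) ∧ ∃ (s : Fin k → ℝ) (a₀ : Fo X κ),
      Ref (sft Z.bg (fun x => ∑ i, s i • Z.bg.p2 x (η i x)) Z.bg.w) z.gm a₀

end Crest.Agent.X212.Rad94
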