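import Crest.Agent.X212.Rad94.Spl

/-! Finite step genericity, stable estimates and Graves' theorem (format free). -/

set_option autoImplicit false
set_option linter.unusedSectionVars false

noncomputable section

namespace Crest.Agent.X212.Rad94

open Set Filter Topology Function Module Metric
open Fred93 (Fr Est)

variable {E F G Λ : Type*} [NormedAddCommGroup E] [NormedSpace ℝ E] [CompleteSpace E]
  [NormedAddCommGroup F] [NormedSpace ℝ F] [CompleteSpace F]
  [NormedAddCommGroup G] [NormedSpace ℝ G] [NormedAddCommGroup Λ] [NormedSpace ℝ Λ]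

/-- the kernel drops in a direction that moves a kernel element out of the range -/
theorem pertG {T : E →L[ℝ] F} {m : ℤ} (hT : Fr T m) (c : E →L[ℝ] F) {k : E} (hk : T k = 0)
    (hc : c k ∉ range T) :
    ∀ᶠ ε in 𝓝[≠] (0 : ℝ), Fr (T + ε • c) m ∧ finrank ℝ (T + ε • c).ker < finrank ℝ T.ker := by
  have := hT.1.finite_ker
  obtain ⟨π, hπ⟩ := Submodule.ClosedComplemented.of_finiteDimensional T.ker
  let Q : E →L[ℝ] E := T.ker.subtypeL.comp π
  have hQ : ∀ u, T (Q u) = 0 := fun u => (π u).2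
  have hQk : ∀ u, T u = 0 → Q u = u := fun u hu => congrArg Subtype.val (hπ ⟨u, hu⟩)
  have hQQ : ∀ u, Q (Q u) = Q u := fun u => hQk _ (hQ u)
  let S : ℝ → E →L[ℝ] F := fun ε => T + c.comp Q + ε • c.comp (1 - Q)
  have hS : Continuous S := by fun_prop
  have e : S 0 = T + c.comp Q := by simp [S]
  have f0 : Fr (S 0) m := e ▸ hT.add_compact (T := c.comp Q)
    ((isCompactOperator_of_locallyCompactSpace_dom π).clm_comp (c.comp T.ker.subtypeL))
  have h0 : finrank ℝ (S 0).ker < finrank ℝ T.ker := by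
    have hle : (S 0).ker.map (Q : E →ₗ[ℝ] E) ≤ T.ker := by
      rintro _ ⟨u, -, rfl⟩
      exact hQ u
    have := Submodule.finiteDimensional_of_le hle
    refine (fr_le (B := (S 0).ker.map (Q : E →ₗ[ℝ] E)) (Q : E →ₗ[ℝ] E) (fun u hu => ⟨u, hu, rfl⟩)
      fun u hu h1 => ?_).trans_lt (Submodule.finrank_lt_finrank_of_lt (hle.lt_of_ne fun h => hc ?_))
    · rw [e] at hu
      have hu' : T u + c (Q u) = 0 := hu
      have h1' : Q u = 0 := h1
      rw [h1', map_zero, add_zero] at hu'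
      rw [← hQk u hu', h1']
    · obtain ⟨u, hu, h1⟩ : k ∈ (S 0).ker.map (Q : E →ₗ[ℝ] E) := h ▸ hk
      rw [e] at hu
      have hu' : T u + c (Q u) = 0 := hu
      have h1' : Q u = k := h1
      exact ⟨-u, by rw [map_neg, ← h1', neg_eq_iff_add_eq_zero, hu']⟩
  have hc' : Continuous fun ε : ℝ => T + ε • c := by fun_prop
  filter_upwards [nhdsWithin_le_nhds (hS.continuousAt.eventually f0.eventually'),
    nhdsWithin_le_nhds ((hc'.tendsto' 0 T (by simp)).eventually hT.eventually),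
    self_mem_nhdsWithin] with ε h h' hε
  have := h.1.1.finite_ker
  refine ⟨h', ((fr_le ((1 - Q + ε • Q : E →L[ℝ] E) : E →ₗ[ℝ] E) (fun u hu => ?_)
    fun u _ h3 => ?_).trans h.2).trans_lt h0⟩
  · have hu' : T u + ε • c u = 0 := hu
    show S ε (u - Q u + ε • Q u) = 0
    rw [← hu']
    simp only [S, add_apply, ContinuousLinearMap.comp_apply, smul_apply, sub_apply,
      one_apply_eq_self, map_add, map_sub, map_smul, hQQ, hQ]
    module
  · have h3' : u - Q u + ε • Q u = 0 := h3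
    have h4 := congrArg Q h3'
    rw [map_add, map_sub, map_smul, hQQ, sub_self, zero_add, map_zero] at h4
    have h5 : Q u = 0 := (smul_eq_zero.1 h4).resolve_left hε
    simpa [h5] using h3'

/-- **GEN**: invertibility is open and dense -/
theorem gen {T : E →L[ℝ] F} (P : Λ →L[ℝ] E →L[ℝ] F) (hT : ∀ w, Fr (T + P w) 0)
    (h : ∀ w k, (T + P w) k = 0 → k ≠ 0 → ¬ Surjective (T + P w) →
      ∃ v, P v k ∉ range (T + P w)) :
    IsOpen {w | Bijective (T + P w)} ∧ Dense {w | Bijective (T + P w)} := by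
  refine ⟨Crt72.isOpen_bij.preimage (f := fun w => T + P w) (by fun_prop), fun w => ?_⟩
  induction hn : finrank ℝ (T + P w).ker using Nat.strong_induction_on generalizing w with
  | _ n ih =>
    by_cases hi : Injective (T + P w)
    · exact subset_closure ⟨hi, (hT w).surj_of_inj hi⟩
    obtain ⟨k, hk, hk0⟩ : ∃ k, (T + P w) k = 0 ∧ k ≠ 0 := by
      by_contra hc
      push Not at hc
      exact hi ((injective_iff_map_eq_zero _).2 hc)
    obtain ⟨v, hv⟩ := h w k hk hk0 fun hs => hi ((hT w).inj_of_surj hs)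
    have hc : Continuous fun t : ℝ => w + t • v := by fun_prop
    refine isClosed_closure.mem_of_tendsto (b := 𝓝[≠] (0 : ℝ)) (f := fun t => w + t • v)
      ((hc.tendsto' 0 w (by simp)).mono_left nhdsWithin_le_nhds) ?_
    filter_upwards [pertG (hT w) (P v) hk hv] with t ht
    refine ih _ ?_ _ rfl
    rw [map_add, map_smul, ← add_assoc, ← hn]
    exact ht.2

/-- finitely many open dense conditions -/
theorem dense_fin {X ι : Type*} [TopologicalSpace X] [Finite ι] {s : ι → Set X}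
    (h : ∀ i, IsOpen (s i) ∧ Dense (s i)) : IsOpen {x | ∀ i, x ∈ s i} ∧ Dense {x | ∀ i, x ∈ s i} := by
  have e : {x | ∀ i, x ∈ s i} = ⋂₀ range s := by ext x; simp
  rw [e]
  exact ⟨(finite_range s).isOpen_sInter (forall_mem_range.2 fun i => (h i).1),
    (finite_range s).dense_sInter (forall_mem_range.2 fun i => (h i).1)
      (forall_mem_range.2 fun i => (h i).2)⟩

/-- the basic estimate with any `π` that is injective on the kernel -/
theorem est_of {T : E →L[ℝ] F} (hT : T.IsFredholm) (π : E →L[ℝ] G)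
    (h : ∀ x, T x = 0 → π x = 0 → x = 0) : ∃ C > 0, ∀ x, ‖x‖ ≤ C * (‖T x‖ + ‖π x‖) := by
  have := hT.finite_ker
  obtain ⟨p, C, -, -, hE⟩ := Fred93.exists_est hT
  have h' : Est (T.prod π) p |C| := fun x => (hE x).trans <|
    (mul_le_mul_of_nonneg_right (le_abs_self C) (by positivity)).trans <|
      mul_le_mul_of_nonneg_left (by
        have : ‖T x‖ ≤ ‖T.prod π x‖ := norm_fst_le (T.prod π x)
        linarith) (abs_nonneg C)
  obtain ⟨c, hc, H⟩ := h'.bound_of_inj (isCompactOperator_of_locallyCompactSpace_dom p)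
    ((injective_iff_map_eq_zero _).2 fun x hx => h x (congrArg Prod.fst hx) (congrArg Prod.snd hx))
  refine ⟨c, hc, fun x => (H x).trans (mul_le_mul_of_nonneg_left ?_ hc.le)⟩
  rw [ContinuousLinearMap.prod_apply, Prod.norm_def]
  exact max_le (by simp) (by simp)

/-- the estimate survives a small error -/
theorem est_err {T : E →L[ℝ] F} {π : E →L[ℝ] G} {C : ℝ} (hC : 0 < C)
    (h : ∀ x, ‖x‖ ≤ C * (‖T x‖ + ‖π x‖)) {x : E} {A : ℝ} (hx : ‖T x‖ ≤ A + ‖x‖ / (2 * C)) :
    ‖x‖ ≤ 2 * C * (A + ‖π x‖) := by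
  have h1 := (h x).trans (mul_le_mul_of_nonneg_left (add_le_add_left hx ‖π x‖) hC.le)
  have e : C * (A + ‖x‖ / (2 * C) + ‖π x‖) = C * (A + ‖π x‖) + ‖x‖ / 2 := by field_simp; ring
  linarith

/-- almost solutions are close to the kernel -/
theorem near_ker {T : E →L[ℝ] F} (hT : T.IsFredholm) :
    ∃ C > 0, ∀ x, ∃ k, T k = 0 ∧ ‖x - k‖ ≤ C * ‖T x‖ := by
  obtain ⟨p, C, hC, hp, hE⟩ := Fred93.exists_est hT
  refine ⟨C, hC, fun x => ⟨p x, (p x).2, ?_⟩⟩
  have := hE (x - p x)
  rwa [map_sub, map_sub, hp, sub_self, norm_zero, add_zero, show T (p x) = 0 from (p x).2,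
    sub_zero] at this

/-- **Graves**, with constants that depend on the linear map only -/
theorem graves {L : E →L[ℝ] F} (hL : Surjective L) : ∃ c > 0, ∀ (f : E → F) (r : ℝ), 0 ≤ r →
    (∀ x ∈ closedBall (0 : E) r, DifferentiableAt ℝ f x ∧ ‖fderiv ℝ f x - L‖ ≤ c) →
    ‖f 0‖ ≤ c * r → ∃ x ∈ closedBall (0 : E) r, f x = 0 := by
  obtain ⟨s, hs⟩ := L.exists_nonlinearRightInverse_of_surjective (LinearMap.range_eq_top.2 hL)
  have hs' : (0 : ℝ) < s.nnnorm := hs
  refine ⟨(s.nnnorm : ℝ)⁻¹ / 2, by positivity, fun f r hr hf h0 => ?_⟩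
  have hA : ApproximatesLinearOn f L (closedBall 0 r) ⟨(s.nnnorm : ℝ)⁻¹ / 2, by positivity⟩ :=
    fun x hx y hy => (convex_closedBall 0 r).norm_image_sub_le_of_norm_fderiv_le'
      (fun z hz => (hf z hz).1) (fun z hz => (hf z hz).2) hy hx
  refine hA.surjOn_closedBall_of_nonlinearRightInverse s hr Subset.rfl ?_
  rw [mem_closedBall, dist_comm, dist_zero_right]
  refine h0.trans (le_of_eq ?_)
  show _ = ((s.nnnorm : ℝ)⁻¹ - (s.nnnorm : ℝ)⁻¹ / 2) * r
  ring

/-- **Graves** in a family that is `C¹` continuous at one point -/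
theorem graves_ev {L : E →L[ℝ] F} (hL : Surjective L) {α : Type*} {l : Filter α} {f : α → E → F}
    (h0 : Tendsto (fun a => f a 0) l (𝓝 0))
    (h1 : ∀ c > 0, ∃ r > 0, ∀ᶠ a in l, ∀ x ∈ closedBall (0 : E) r,
      DifferentiableAt ℝ (f a) x ∧ ‖fderiv ℝ (f a) x - L‖ ≤ c) {r : ℝ} (hr : 0 < r) :
    ∀ᶠ a in l, ∃ x ∈ closedBall (0 : E) r, f a x = 0 := by
  obtain ⟨c, hc, H⟩ := graves hL
  obtain ⟨s, hs, h2⟩ := h1 c hc
  have hm : 0 < min r s := lt_min hr hs
  filter_upwards [h2, (tendsto_zero_iff_norm_tendsto_zero.1 h0).eventually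
    (eventually_le_nhds (mul_pos hc hm))] with a ha hb
  obtain ⟨x, hx, e⟩ := H (f a) _ hm.le
    (fun x hx => ha x (closedBall_subset_closedBall (min_le_right _ _) hx)) hb
  exact ⟨x, closedBall_subset_closedBall (min_le_left _ _) hx, e⟩

end Crest.Agent.X212.Rad94
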