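import Crest.Agent.X212.Rad94.Lin

/-!
# Row 212, AN-S (helper94): pairing of the levels by the index
-/

set_option autoImplicit false
set_option linter.unusedSectionVars false
noncomputable section
open scoped Manifold ContDiff Topology InnerProductSpace
open MeasureTheory Set Function Filter Real

namespace Crest.Agent.X212.Rad94
open An Cyf70
open M (Mf pm)

section spec
variable {S : Set ℝ} (hf : ∀ a b, (S ∩ Icc a b).Finite)
include hf

theorem fin_Ioo (a b : ℝ) : (S ∩ Ioo a b).Finite :=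
  (hf a b).subset (inter_subset_inter_right _ Ioo_subset_Icc_self)

theorem nth (hu : ∀ a, ∃ l ∈ S, a < l) (a : ℝ) (k : ℕ) :
    ∃ l ∈ S, a < l ∧ (S ∩ Ioo a l).ncard = k := by
  have nx : ∀ a, ∃ l ∈ S, a < l ∧ S ∩ Ioo a l = ∅ := fun a => by
    obtain ⟨b, hb, ab⟩ := hu a
    obtain ⟨l, hl, hm⟩ := Set.exists_min_image _ id ((hf a b).subset
      (inter_subset_inter_right S Ioc_subset_Icc_self)) ⟨b, hb, ab, le_rfl⟩
    exact ⟨l, hl.1, hl.2.1, eq_empty_of_forall_notMem fun x hx =>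
      (hm x ⟨hx.1, hx.2.1, hx.2.2.le.trans hl.2.2⟩).not_gt hx.2.2⟩
  induction k with
  | zero => obtain ⟨l, h1, h2, h3⟩ := nx a; exact ⟨l, h1, h2, by simp [h3]⟩
  | succ k ih =>
    obtain ⟨l, h1, h2, h3⟩ := ih
    obtain ⟨l', k1, k2, k3⟩ := nx l
    refine ⟨l', k1, h2.trans k2, ?_⟩
    rw [show S ∩ Ioo a l' = insert l (S ∩ Ioo a l) from ?_,
      ncard_insert_of_notMem (fun h => h.2.2.false) (fin_Ioo hf a l), h3]
    ext x
    refine ⟨fun hx => ?_, fun hx => ?_⟩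
    · rcases lt_trichotomy x l with h | h | h
      exacts [.inr ⟨hx.1, hx.2.1, h⟩, .inl h, absurd (k3 ▸ ⟨hx.1, h, hx.2.2⟩ : x ∈ (∅ : Set ℝ)) id]
    · rcases hx with rfl | hx
      exacts [⟨h1, h2, k2⟩, ⟨hx.1, hx.2.1, hx.2.2.trans k2⟩]

theorem exists_off (a : ℝ) : ∃ b > a, b ∉ S := by
  obtain ⟨b, hb, hb'⟩ := (Ioo_infinite (lt_add_one a)).exists_notMem_finite (fin_Ioo hf a (a + 1))
  exact ⟨b, hb.1, fun h => hb' ⟨h, hb⟩⟩

theorem count_spec : S.Countable := by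
  refine (countable_iUnion fun n : ℕ => (hf (-n) n).countable).mono fun x hx => ?_
  obtain ⟨n, hn⟩ := exists_nat_ge |x|
  exact mem_iUnion.2 ⟨n, hx, abs_le.1 hn⟩

end spec

variable {κ lam : Type} [Fintype κ] [Fintype lam] {X : Mf 4} {V W : Type}
  [NormedAddCommGroup V] [InnerProductSpace ℝ V] [FiniteDimensional ℝ V]
  [NormedAddCommGroup W] [InnerProductSpace ℝ W] [FiniteDimensional ℝ W]
  {g : Gm X κ lam Bool} {L : Lop g V W}

namespace Lop

variable (L) in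
/-- paired levels -/
structure Prd (n : ℤ) (l : Bool → ℝ) (γ : ℝ) : Prop where
  sp : ∀ s, l s ∈ L.Spec s
  pos : 0 < γ
  off : ∀ ϖ : Bool → ℝ, (∀ s, ϖ s ≠ 0 ∧ |ϖ s| ≤ γ) → L.Off (wt g l ϖ)
  ix : ∀ ϖ : Bool → ℝ, (∀ s, ϖ s ∈ Ioc 0 γ) → L.ix (wt g l ϖ) = n + 2 ∧
    ∀ s, ∀ ε ∈ Ioc 0 γ, L.ix (wt g l (update ϖ s (-ε))) = n

theorem Off.upd {p : Bool → ℝ} (h : L.Off p) {s : Bool} {b : ℝ} (hb : b ∉ L.Spec s) :
    L.Off (update p s b) := fun s' => by
  rcases eq_or_ne s' s with rfl | e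
  exacts [by rwa [update_self], by rw [update_of_ne e]; exact h s']

variable (hF : L.Fre) (hs : ∀ s, g.sd s = s) (hm : ∀ s, ∀ l ≥ 0, l ∈ L.Spec s → L.mult s l = 2)
include hF hs hm

theorem jump {p : Bool → ℝ} (hp : L.Off p) (s : Bool) {a b : ℝ} (ab : a ≤ b) (ha : a ∉ L.Spec s)
    (hb : b ∉ L.Spec s) (h0 : ∀ x ∈ L.Spec s ∩ Ioo a b, 0 ≤ x) :
    L.ix (update p s a) - L.ix (update p s b) =
      (bif s then 2 else -2) * ((L.Spec s ∩ Ioo a b).ncard : ℤ) := by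
  have := hF.jmp p s a b ab (by convert hp.upd ha) (by convert hp.upd hb)
  have e : ∑ᶠ ν ∈ L.Spec s ∩ Ioo a b, (L.mult s ν : ℤ) = 2 * (L.Spec s ∩ Ioo a b).ncard := by
    have f := fin_Ioo (hF.fin s) a b
    rw [finsum_mem_congr rfl (g := fun _ => (2 : ℤ)) fun x hx => by
      rw [hm s x (h0 x hx) hx.1]; rfl, finsum_mem_eq_finite_toFinset_sum _ f, Finset.sum_const,
      ncard_eq_toFinset_card _ f]
    simp [mul_comm]
  rw [e, hs] at this
  have e2 : (if s = true then 1 else -1) * (2 * ((L.Spec s ∩ Ioo a b).ncard : ℤ)) =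
      (bif s then 2 else -2) * ((L.Spec s ∩ Ioo a b).ncard : ℤ) := by cases s <;> simp
  rw [e2] at this
  convert this

theorem prd {n : ℤ} {l : Bool → ℝ} {γ : ℝ} (γ0 : 0 < γ) (sp : ∀ s, l s ∈ L.Spec s)
    (l0 : ∀ s, 0 ≤ l s) (iso : ∀ s, L.Spec s ∩ Icc (l s - γ) (l s + γ) ⊆ {l s})
    (h : L.ix (wt g l fun _ => γ) = n + 2) : L.Prd n l γ := by
  have sg : ∀ s, g.sg s = pm s := fun s => by rw [Gm.sg, hs]
  have ns : ∀ s x, x ≠ l s → |x - l s| ≤ γ → x ∉ L.Spec s := fun s x h1 h2 h3 =>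
    h1 (iso s ⟨h3, by linarith [(abs_le.1 h2).1], by linarith [(abs_le.1 h2).2]⟩)
  have off : ∀ ϖ : Bool → ℝ, (∀ s, ϖ s ≠ 0 ∧ |ϖ s| ≤ γ) → L.Off (wt g l ϖ) := fun ϖ k s => by
    refine ns s _ ?_ ?_ <;> cases s <;> simpa [wt, sg, pm] using by first | exact (k _).1 | exact (k _).2
  have up : ∀ ϖ s r, wt g l (update ϖ s r) = update (wt g l ϖ) s (l s - pm s * r) :=
    fun ϖ s r => funext fun s' => by
      rcases eq_or_ne s' s with rfl | e
      · simp [wt, sg]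
      · simp [wt, update_of_ne e]
  have ok : ∀ ϖ : Bool → ℝ, (∀ s, ϖ s ∈ Ioc 0 γ) → L.Off (wt g l ϖ) := fun ϖ k =>
    off ϖ fun s => ⟨(k s).1.ne', (abs_of_pos (k s).1).trans_le (k s).2⟩
  have mv : ∀ ϖ : Bool → ℝ, (∀ s, ϖ s ∈ Ioc 0 γ) → ∀ s r, r ≠ 0 → |r| ≤ ϖ s →
      L.ix (wt g l (update ϖ s r)) = L.ix (wt g l ϖ) - if r < 0 then 2 else 0 :=
    fun ϖ k s r r0 r1 => by
      obtain ⟨a1, a2⟩ := abs_le.1 r1
      obtain ⟨k1, k2⟩ := k s
      have sub : ∀ a b, l s - γ ≤ a → b ≤ l s + γ → L.Spec s ∩ Ioo a b =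
          if l s ∈ Ioo a b then {l s} else ∅ := fun a b u v => by
        have : L.Spec s ∩ Ioo a b ⊆ {l s} := fun x hx =>
          iso s ⟨hx.1, u.trans hx.2.1.le, hx.2.2.le.trans v⟩
        split_ifs with c
        · exact this.antisymm (singleton_subset_iff.2 ⟨sp s, c⟩)
        · exact eq_empty_of_forall_notMem fun x hx => c (this hx ▸ hx.2)
      have z : ∀ a b, l s - γ ≤ a → b ≤ l s + γ → ∀ x ∈ L.Spec s ∩ Ioo a b, 0 ≤ x :=
        fun a b u v x hx => (iso s ⟨hx.1, u.trans hx.2.1.le, hx.2.2.le.trans v⟩ :) ▸ l0 s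
      have n1 : l s - pm s * r ∉ L.Spec s := ns s _ (by cases s <;> simpa [pm] using r0)
        (by cases s <;> simpa [pm] using r1.trans k2)
      have e := up ϖ s (ϖ s)
      rw [update_eq_self] at e
      rw [up]
      nth_rewrite 2 [e]
      have n2 : l s - pm s * ϖ s ∉ L.Spec s := by simpa [wt, sg] using ok ϖ k s
      cases s
      · simp only [pm, Bool.false_eq_true, if_false, neg_mul, one_mul, sub_neg_eq_add] at *
        have := jump hF hs hm (ok ϖ k) false (by linarith) n1 n2 (z _ _ (by linarith) (by linarith))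
        rw [sub _ _ (by linarith) (by linarith)] at this
        by_cases c : r < 0
        · rw [if_pos ⟨by linarith, by linarith⟩] at this
          rw [if_pos c]; simp at this; omega
        · rw [if_neg fun k => c (by linarith [k.1, k.2])] at this
          rw [if_neg c]; simp at this; omega
      · simp only [pm, if_true, one_mul] at *
        have := jump hF hs hm (ok ϖ k) true (by linarith) n2 n1 (z _ _ (by linarith) (by linarith))
        rw [sub _ _ (by linarith) (by linarith)] at this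
        by_cases c : r < 0
        · rw [if_pos ⟨by linarith, by linarith⟩] at this
          rw [if_pos c]; simp at this; omega
        · rw [if_neg fun k => c (by linarith [k.1, k.2])] at this
          rw [if_neg c]; simp at this; omega
  have up' : ∀ (ϖ : Bool → ℝ) s r, (∀ s, ϖ s ∈ Ioc 0 γ) → r ∈ Ioc 0 γ →
      ∀ s', update ϖ s r s' ∈ Ioc 0 γ := fun ϖ s r k hr s' => by
    rcases eq_or_ne s' s with rfl | e
    exacts [by rwa [update_self], by rw [update_of_ne e]; exact k s']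
  have γγ : γ ∈ Ioc 0 γ := ⟨γ0, le_rfl⟩
  have a : ∀ ϖ : Bool → ℝ, (∀ s, ϖ s ∈ Ioc 0 γ) → L.ix (wt g l ϖ) = n + 2 := fun ϖ k => by
    have e : ϖ = update (update (fun _ => γ) false (ϖ false)) true (ϖ true) :=
      funext fun s => by cases s <;> simp
    rw [e, mv _ (up' _ _ _ (fun _ => γγ) (k _)) _ _ (k _).1.ne'
      (by simpa [abs_of_pos (k true).1] using (k true).2), mv _ (fun _ => γγ) _ _ (k _).1.ne'
      (by simpa [abs_of_pos (k false).1] using (k false).2), h, if_neg (k _).1.not_gt,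
      if_neg (k _).1.not_gt]
    simp
  refine ⟨sp, γ0, off, fun ϖ k => ⟨a ϖ k, fun s ε hε => ?_⟩⟩
  rw [← update_idem (f := ϖ) γ, mv _ (up' _ _ _ k γγ) _ _ (neg_ne_zero.2 hε.1.ne')
    (by simpa [abs_of_pos hε.1] using hε.2), a _ (up' _ _ _ k γγ), if_pos (neg_lt_zero.2 hε.1)]
  simp

omit hs hm in
theorem iso (s : Bool) (l : ℝ) : ∃ γ > 0, ∀ γ' ≤ γ, L.Spec s ∩ Icc (l - γ') (l + γ') ⊆ {l} :=
  let ⟨γ, γ0, _, h⟩ := hF.gap s l
  ⟨γ / 2, half_pos γ0, fun _ k => (inter_subset_inter_right _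
    (Icc_subset_Icc (by linarith) (by linarith))).trans h⟩

/-- the pair of levels -/
def pr2 (a b : ℝ) (s : Bool) : ℝ := bif s then b else a

theorem pair (hu : ∀ a, ∃ l ∈ L.Spec true, a < l) (ev : ∀ l, L.Off l → Even (L.ix l)) {n : ℕ}
    {l₀ p : ℝ} (h0 : l₀ ∈ L.Spec false) (l0 : 0 ≤ l₀) (p0 : 0 ≤ p) (hp : p ∉ L.Spec true)
    (h : ∀ γ > 0, l₀ + γ ∉ L.Spec false → 2 * n + 2 ≤ L.ix (pr2 (l₀ + γ) p)) :
    ∃ l γ, l false = l₀ ∧ p < l true ∧ L.Prd (2 * n) l γ := by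
  obtain ⟨γ₀, g0, i0⟩ := iso hF false l₀
  have o : ∀ γ ∈ Ioc 0 γ₀, l₀ + γ ∉ L.Spec false := fun γ k e => by
    have := i0 γ k.2 ⟨e, by linarith [k.1], le_rfl⟩
    simp [k.1.ne'] at this
  have of : ∀ γ ∈ Ioc 0 γ₀, L.Off (pr2 (l₀ + γ) p) := fun γ k s => by
    cases s; exacts [o γ k, hp]
  have u0 : ∀ a b c : ℝ, update (pr2 a b) false c = pr2 c b := fun a b c =>
    funext fun s => by cases s <;> simp [pr2]
  have u1 : ∀ a b c : ℝ, update (pr2 a b) true c = pr2 a c := fun a b c =>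
    funext fun s => by cases s <;> simp [pr2]
  obtain ⟨j, hj⟩ := ev _ (of γ₀ ⟨g0, le_rfl⟩)
  have := h γ₀ g0 (o γ₀ ⟨g0, le_rfl⟩)
  obtain ⟨k, hk⟩ : ∃ k : ℕ, L.ix (pr2 (l₀ + γ₀) p) = 2 * n + 2 + 2 * k :=
    ⟨(j - n - 1).toNat, by omega⟩
  obtain ⟨l₁, s1, p1, c1⟩ := nth (hF.fin true) hu p k
  obtain ⟨γ₁, g1, i1⟩ := iso hF true l₁
  set γ := min γ₀ (min γ₁ (l₁ - p))
  have γ0 : 0 < γ := lt_min g0 (lt_min g1 (sub_pos.2 p1))
  have a0 : γ ≤ γ₀ := min_le_left _ _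
  have a1 : γ ≤ γ₁ := (min_le_right _ _).trans (min_le_left _ _)
  have a2 : γ ≤ l₁ - p := (min_le_right _ _).trans (min_le_right _ _)
  refine ⟨pr2 l₀ l₁, γ, rfl, p1, prd hF hs hm γ0 (fun s => by cases s; exacts [h0, s1])
    (fun s => by cases s; exacts [l0, p0.trans p1.le])
    (fun s => by cases s; exacts [i0 γ a0, i1 γ a1]) ?_⟩
  have n1 : l₁ - γ ∉ L.Spec true := fun e => by
    have := i1 γ a1 ⟨e, le_rfl, by linarith⟩
    simp [γ0.ne'] at this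
  have j0 := jump hF hs hm (of γ₀ ⟨g0, le_rfl⟩) false (by linarith) (o γ ⟨γ0, a0⟩)
    (o γ₀ ⟨g0, le_rfl⟩) fun x hx => by linarith [hx.2.1]
  have j1 := jump hF hs hm (of γ ⟨γ0, a0⟩) true (by linarith) hp n1 fun x hx => p0.trans hx.2.1.le
  have e0 : L.Spec false ∩ Ioo (l₀ + γ) (l₀ + γ₀) = ∅ := eq_empty_of_forall_notMem fun x hx => by
    have : x = l₀ := i0 γ₀ le_rfl ⟨hx.1, by linarith [hx.2.1], hx.2.2.le⟩
    linarith [hx.2.1]
  have e1 : L.Spec true ∩ Ioo p (l₁ - γ) = L.Spec true ∩ Ioo p l₁ := by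
    ext x
    refine ⟨fun hx => ⟨hx.1, hx.2.1, by linarith [hx.2.2]⟩, fun hx => ⟨hx.1, hx.2.1, ?_⟩⟩
    exact lt_of_not_ge fun k => hx.2.2.ne (i1 γ a1 ⟨hx.1, k, by linarith [hx.2.2]⟩)
  rw [u0, u0, e0, hk] at j0
  rw [u1, u1, e1, c1] at j1
  rw [show wt g (pr2 l₀ l₁) (fun _ => γ) = pr2 (l₀ + γ) (l₁ - γ) from funext fun s => by
    cases s <;> simp [wt, pr2, Gm.sg, hs, pm]]
  simp at j0 j1
  omega

theorem hi (hu : ∀ s a, ∃ l ∈ L.Spec s, a < l) (ev : ∀ l, L.Off l → Even (L.ix l)) (n : ℕ) (Λ : ℝ) :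
    ∃ N, ∀ l₀ ∈ L.Spec false, N ≤ l₀ → ∃ l γ, l false = l₀ ∧ Λ ≤ l true ∧ L.Prd (2 * n) l γ := by
  obtain ⟨p, p0, hp⟩ := exists_off (hF.fin true) (max Λ 0)
  obtain ⟨a, a0, ha⟩ := exists_off (hF.fin false) 0
  have of : L.Off (pr2 a p) := fun s => by cases s; exacts [ha, hp]
  obtain ⟨N, -, aN, hN⟩ := nth (hF.fin false) (hu false) a (2 * n + 2 - L.ix (pr2 a p)).toNat
  refine ⟨N, fun l₀ h0 hl => ?_⟩
  obtain ⟨l, γ, e, k, h⟩ := pair hF hs hm (hu true) ev (n := n) h0 (by linarith)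
    ((le_max_right _ _).trans p0.le) hp fun γ γ0 o => by
      have j := jump hF hs hm of false (by linarith) ha o fun x hx => by linarith [hx.2.1]
      have c := ncard_le_ncard (inter_subset_inter_right (L.Spec false)
        (Ioo_subset_Ioo_right (show N ≤ l₀ + γ by linarith))) (fin_Ioo (hF.fin false) a _)
      have u0 : ∀ c : ℝ, update (pr2 a p) false c = pr2 c p := fun c =>
        funext fun s => by cases s <;> simp [pr2]
      rw [u0, u0] at j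
      simp at j
      omega
  exact ⟨l, γ, e, ((le_max_left _ _).trans p0.le).trans k.le, h⟩

theorem al (hu : ∀ a, ∃ l ∈ L.Spec true, a < l) (ev : ∀ l, L.Off l → Even (L.ix l))
    (es : L.Spec true = L.Spec false) (i0 : ∀ l ∉ L.Spec false, L.ix (fun _ => l) = 0) {n : ℕ}
    (hn : n ≤ 1) {l₀ : ℝ} (l0 : 0 < l₀) (h0 : l₀ ∈ L.Spec false)
    (h1 : n = 0 ∨ ∃ l₁ ∈ Ioo 0 l₀, l₁ ∈ L.Spec false) :
    ∃ l γ, l false = l₀ ∧ 0 < l true ∧ L.Prd (2 * n) l γ := by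
  obtain ⟨p, p0, hp⟩ := iso hF true 0
  have lo : ∀ x > 0, x ∈ L.Spec true → p < x := fun x x0 hx => lt_of_not_ge fun k =>
    x0.ne' (hp p le_rfl ⟨hx, by linarith, by linarith⟩)
  have np : p ∉ L.Spec true := fun e => (lo p p0 e).false
  have pl := lo l₀ l0 (es ▸ h0)
  obtain ⟨l, γ, e, k, h⟩ := pair hF hs hm hu ev (n := n) h0 l0.le p0.le np fun γ γ0 o => by
    have j := jump hF hs hm (p := fun _ => l₀ + γ) (fun s => by cases s; exacts [o, es ▸ o]) true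
      (by linarith) np (es ▸ o) fun x hx => by linarith [hx.2.1]
    rw [update_eq_self_iff.2 rfl, i0 _ o, show update (fun _ => l₀ + γ) true p = pr2 (l₀ + γ) p from
      funext fun s => by cases s <;> simp [pr2]] at j
    have f := fin_Ioo (hF.fin true) p (l₀ + γ)
    have m0 : l₀ ∈ L.Spec true ∩ Ioo p (l₀ + γ) := ⟨es ▸ h0, pl, by linarith⟩
    have c : n + 1 ≤ (L.Spec true ∩ Ioo p (l₀ + γ)).ncard := by
      rcases h1 with rfl | ⟨l₁, k1, k2⟩
      · exact (ncard_pos f).2 ⟨_, m0⟩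
      · have := (one_lt_ncard f).2 ⟨_, m0, l₁, ⟨es ▸ k2, lo _ k1.1 (es ▸ k2), by linarith [k1.2]⟩,
          k1.2.ne'⟩
        omega
    simp at j
    omega
  exact ⟨l, γ, e, p0.trans k, h⟩

end Lop

end Crest.Agent.X212.Rad94
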