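import Crest.Agent.X212.Rad94.Leaf
import Crest.Agent.X212.Rad94.KerA
import Crest.Agent.X212.Taub88.Pt8
import Crest.Agent.X212.Wz78.Sd
import Crest.Agent.X212.Ulc97.Geo

/-!
# Row 212, AN-S (helper94): tools for `KerStmt`
-/

set_option autoImplicit false
set_option linter.unusedSectionVars false
noncomputable section
open scoped Manifold ContDiff Topology InnerProductSpace
open MeasureTheory Set Function Filter Real

namespace Crest.Agent.X212.Rad94
open An Cyf70 Sw Sw.En3 Sob92 Ell97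
open M (Mf pm)

variable {κ lam ν : Type} [Fintype κ] [Fintype lam] [Fintype ν] [DecidableEq ν]
  {X : Mf 4} {nc k : ℕ}

section lop
variable {A V W : Type} [Fintype A] [NormedAddCommGroup V] [InnerProductSpace ℝ V]
  [FiniteDimensional ℝ V] [NormedAddCommGroup W] [InnerProductSpace ℝ W] [FiniteDimensional ℝ W]
  {g : Gm X κ lam A} {L : Lop g V W}

theorem Lop.app_ms (c : A → ℝ → ℝ) (R : X.M → V →L[ℝ] W) (u : X.M → V) (x : X.M) :
    (L.ms c R).A.app g.F u x = L.A.app g.F u x + R x (u x) - g.rd c x • L.A.σ none x (u x) := by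
  simp only [Lop.ms, Op.app, Pre.op, _root_.sub_apply, _root_.add_apply,
    _root_.smul_apply]
  abel

theorem Lop.good_ms (h : L.OK) {c : A → ℝ → ℝ} (hc : g.F.Cb (g.rd c)) {R : X.M → V →L[ℝ] W}
    (hR : L.Zer R) : ∃ C, (L.ms c R).A.Good g.F C := by
  obtain ⟨C, k⟩ := h.good
  obtain ⟨C', k'⟩ := Cb_sub (Cb_add ⟨C, k.B⟩ hR.1) (Cb_smul hc ⟨C, k.σ none⟩)
  have m := fun j => le_max_left (C j) (C' j)
  exact ⟨fun j => max (C j) (C' j), ⟨CBs_mono k.p.cb m, k.p.idem, k.p.symm⟩,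
    ⟨CBs_mono k.q.cb m, k.q.idem, k.q.symm⟩, fun a => CBs_mono (k.σ a) m,
    CBs_mono k' fun j => le_max_right _ _, k.σp, k.qσ, fun x v => by
      simp only [Lop.ms, _root_.sub_apply, _root_.add_apply,
        _root_.smul_apply, map_sub, map_add, map_smul, k.qB, k.qσ, hR.2], k.Pσ⟩

theorem Gm.rd_zero (g : Gm X κ lam A) : g.rd 0 = 0 := funext fun x => by simp [Gm.rd]

theorem Lop.zer0 : L.Zer 0 := ⟨Cb_const 0, fun x v => by simp⟩

theorem Lop.ms_ok (h : L.OK) {R : X.M → V →L[ℝ] W} (hR : L.Zer R)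
    (hd : ∀ s τ y, -1 < τ → R (g.pt s τ y) = 0) : (L.ms 0 R).OK :=
  ⟨h.gm, Lop.good_ms h (g.rd_zero ▸ Cb_const 0) hR, h.cl, h.cy, h.p, h.q, h.σ, fun s δ hδ => by
    obtain ⟨T, hT⟩ := h.B s δ hδ
    refine ⟨max T 0, fun τ hτ y => ?_⟩
    simpa [Lop.ms, g.rd_zero, hd s τ y (by linarith [le_max_right T 0])] using
      hT τ ((le_max_left _ _).trans hτ) y⟩

theorem Lop.good_sh (h : L.OK) (l : A → ℝ) : ∃ C, (L.sh l).Good g.F C :=
  Lop.good_ms h (Ulc97.Cb_rd (c := fun s τ => χ τ * l s) (fun _ => ⟨smoothTransition.contDiff.mul contDiff_const,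
    fun τ hτ => by simp [smoothTransition.zero_of_nonpos hτ]⟩)
    fun s => let ⟨_, k⟩ := Nd18.bd_st; ⟨_, k.mul (.const (l s))⟩) Lop.zer0

theorem Lop.cl_sh (h : L.OK) (l : A → ℝ) : (L.sh l).Cliff g.F := h.cl

theorem Lop.off_ms {c : A → ℝ → ℝ} {R : X.M → V →L[ℝ] W} {p : A → ℝ} (h : L.Off p) :
    (L.ms c R).Off p := h

theorem Lop.zer_ms {c : A → ℝ → ℝ} {R R' : X.M → V →L[ℝ] W} (h : L.Zer R') : (L.ms c R).Zer R' := h

theorem Gm.Fi.mono {ϖ ϖ' : A → ℝ} {u : X.M → V} (h : g.Fi ϖ u) (k : ϖ ≤ ϖ') : g.Fi ϖ' u := fun s => by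
  refine ((h s).mul_bdd (g := fun τ => exp (-(2 * (ϖ' s - ϖ s)) * τ)) (c := 1) (by fun_prop)
    ((ae_restrict_mem measurableSet_Ioi).mono fun τ hτ => ?_)).congr (.of_forall fun τ => ?_)
  · rw [norm_of_nonneg (exp_pos _).le, exp_le_one_iff]
    nlinarith [k s, mem_Ioi.1 hτ]
  · simp only [mul_assoc, ← exp_add]; congr 2; ring

variable (g) in
/-- the pairing on the core -/
def Gm.ip (v u : X.M → V) : ℝ := ∫ x in g.cor 0, ⟪v x, u x⟫_ℝ ∂g.F.μ

variable (h : g.OK) {u u' v : X.M → V}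
include h

theorem Gm.int0 {f : X.M → ℝ} (hf : Continuous f) : IntegrableOn f (g.cor 0) g.F.μ :=
  hf.continuousOn.integrableOn_compact (h.cpt 0)

theorem Gm.ip_lin (hv : Continuous v) (hu : Continuous u) (hu' : Continuous u') (a b : ℝ) :
    g.ip v (fun x => a • u x + b • u' x) = a * g.ip v u + b * g.ip v u' := by
  simp only [Gm.ip, inner_add_right, real_inner_smul_right]
  rw [integral_add ((Gm.int0 h (hv.inner hu)).const_mul a) ((Gm.int0 h (hv.inner hu')).const_mul b),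
    integral_const_mul, integral_const_mul]

theorem Gm.ip_sq (hv : Continuous v) (hu : Continuous u) : g.ip v u ^ 2 ≤ g.q0 v * g.q0 u := by
  have := discrim_le_zero (a := g.q0 v) (b := 2 * g.ip v u) (c := g.q0 u) fun t => by
    have i1 := Gm.int0 h (f := fun x => ‖v x‖ ^ 2) (hv.norm.pow 2)
    have i2 := Gm.int0 h (hv.inner (𝕜 := ℝ) hu)
    have i3 := Gm.int0 h (f := fun x => ‖u x‖ ^ 2) (hu.norm.pow 2)
    have : 0 ≤ ∫ x in g.cor 0, (t * t * ‖v x‖ ^ 2 + 2 * t * ⟪v x, u x⟫_ℝ + ‖u x‖ ^ 2) ∂g.F.μ :=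
      integral_nonneg fun x => by
        have := sq_nonneg ‖t • v x + u x‖
        rw [norm_add_sq_real, real_inner_smul_left, norm_smul, mul_pow, norm_eq_abs, sq_abs] at this
        simp only [Pi.zero_apply]; linarith
    rw [integral_add (f := fun x => t * t * ‖v x‖ ^ 2 + 2 * t * ⟪v x, u x⟫_ℝ)
      ((i1.const_mul _).add (i2.const_mul _)) i3,
      integral_add (i1.const_mul _) (i2.const_mul _), integral_const_mul, integral_const_mul] at this
    simp only [Gm.q0, Gm.ip]; linarith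
  rw [discrim] at this
  linarith

theorem Gm.q0_nn (u : X.M → V) : 0 ≤ g.q0 u := integral_nonneg fun _ => sq_nonneg _

theorem Lop.line (hW : L.Wgt) {Z : Type} [NormedAddCommGroup Z] [NormedSpace ℝ Z]
    [FiniteDimensional ℝ Z] {ℓ : (X.M → V) → Z} {C₀ : ℝ} (r0 : g.Row ℓ C₀) {J : V →L[ℝ] V}
    (JJ : ∀ v, J (J v) = -v) (nJ : ∀ v, ‖J v‖ = ‖v‖) {l w w' : A → ℝ} (o1 : L.Off (Lop.wt g l w))
    (o2 : L.Off (Lop.wt g l w')) (hw : w' ≤ w) (i2 : L.ix (Lop.wt g l w') = Module.finrank ℝ Z)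
    (i1 : L.ix (Lop.wt g l w) = Module.finrank ℝ Z + 2) (nd : ∀ u, L.Kr l w' 0 ℓ u → u = 0)
    (hv : L.Kr l w 0 ℓ v) (hJ : L.Kr l w 0 ℓ fun x => J (v x)) (q : g.q0 v ≠ 0) :
    ∃ (pr : (X.M → V) → ℂ) (C : ℝ), g.Row pr C ∧
      (∀ (ζ : ℂ) u, Sm X.I u → pr (fun x => ζ.re • u x + ζ.im • J (u x)) = ζ * pr u) ∧
      ∀ u, Sc L.A.p u → g.Fi w u → g.Fi w ((L.sh l).app g.F u) →
        g.Q w u ≤ C * (g.Q w ((L.sh l).app g.F u) + ‖ℓ u‖ ^ 2 + ‖pr u‖ ^ 2) := by
  have cv := hv.sc.1.continuous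
  have cJ : ∀ {u : X.M → V}, Sm X.I u → Continuous fun x => J (u x) := fun hu =>
    J.continuous.comp hu.continuous
  obtain ⟨pr, hpr⟩ : ∃ pr : (X.M → V) → ℂ, ∀ u, pr u = ⟨g.ip v u, -g.ip v fun x => J (u x)⟩ :=
    ⟨_, fun _ => rfl⟩
  have qv := Gm.q0_nn h v
  have rp : g.Row pr (2 * g.q0 v) := ⟨fun u u' hu hu' => by
      have a1 := Gm.ip_lin h cv hu.continuous hu'.continuous 1 1
      have a2 := Gm.ip_lin h cv (cJ hu) (cJ hu') 1 1
      simp only [one_smul, one_mul] at a1 a2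
      simp only [hpr]
      refine Complex.ext a1 ?_
      simp only [Pi.add_apply, map_add, a2, Complex.add_im, neg_add], fun r u hu => by
      have a1 := Gm.ip_lin h cv hu.continuous hu.continuous r 0
      have a2 := Gm.ip_lin h cv (cJ hu) (cJ hu) r 0
      simp only [zero_smul, zero_mul, add_zero] at a1 a2
      simp only [hpr]
      refine Complex.ext (a1.trans (by simp)) ?_
      simp [a2], fun u hu => by
      have a1 := Gm.ip_sq h cv hu.continuous
      have a2 := Gm.ip_sq h cv (cJ hu)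
      simp only [Gm.q0, nJ] at a1 a2 ⊢
      rw [hpr, Complex.sq_norm, Complex.normSq_mk]
      linarith⟩
  have pl : ∀ (ζ : ℂ) u, Sm X.I u → pr (fun x => ζ.re • u x + ζ.im • J (u x)) = ζ * pr u :=
    fun ζ u hu => by
      have a1 := Gm.ip_lin h cv hu.continuous (cJ hu) ζ.re ζ.im
      have a2 := Gm.ip_lin h cv (cJ hu) hu.continuous ζ.re (-ζ.im)
      simp only [hpr]
      refine Complex.ext (a1.trans (by simp)) ?_
      simp only [map_add, map_smul, JJ, smul_neg, ← neg_smul, a2, Complex.mul_im]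
      ring
  have pv : pr v ≠ 0 := fun k => q (by
    simpa only [hpr, Gm.ip, Gm.q0, real_inner_self_eq_norm_sq, Complex.zero_re] using
      congrArg Complex.re k)
  have pJ : pr (fun x => J (v x)) = Complex.I * pr v := by
    simpa only [Complex.I_re, Complex.I_im, zero_smul, one_smul, zero_add] using
      pl Complex.I v hv.sc.1
  obtain ⟨C', hE⟩ := hW.est (Z × ℂ) l w (fun u => (ℓ u, pr u)) (|C₀| + 2 * g.q0 v) o1
    ⟨fun u u' hu hu' => Prod.ext (r0.add u u' hu hu') (rp.add u u' hu hu'),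
      fun r u hu => Prod.ext (r0.smul r u hu) (rp.smul r u hu), fun u hu => by
        have q := Gm.q0_nn h u
        have a1 := (r0.bd u hu).trans (mul_le_mul_of_nonneg_right (le_abs_self _) q)
        rcases max_choice ‖ℓ u‖ ‖pr u‖ with k | k <;> rw [Prod.norm_mk, k] <;>
          nlinarith [rp.bd u hu, mul_nonneg qv q, mul_nonneg (abs_nonneg C₀) q]⟩ fun u hu => by
    by_contra u0
    have := hW.dim Z l w w' _ _ o1 o2 hw r0 i2 nd 3 ![v, fun x => J (v x), u] (fun i => by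
        fin_cases i
        exacts [hv, hJ, ⟨hu.sc, hu.fi, hu.eq, congrArg Prod.fst hu.row⟩]) (by
      refine Fintype.linearIndependent_iff.2 fun c hc => ?_
      have s1 := hJ.sc.1
      have sm : ∀ (r : ℝ) {f : X.M → V}, Sm X.I f → Sm X.I (r • f) := fun r f hf =>
        (contMDiff_const (I' := 𝓘(ℝ, ℝ)) (c := r)).smul hf
      rw [Fin.sum_univ_three] at hc
      replace hc : c 0 • v + c 1 • (fun x => J (v x)) + c 2 • u = 0 := hc
      have a1 := congrArg pr hc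
      rw [rp.add _ _ ((sm _ hv.sc.1).add (sm _ s1)) (sm _ hu.sc.1),
        rp.add _ _ (sm _ hv.sc.1) (sm _ s1), rp.smul _ _ hv.sc.1, rp.smul _ _ s1,
        rp.smul _ _ hu.sc.1, pJ, show pr u = 0 from congrArg Prod.snd hu.row, show pr 0 = 0 by
          simpa using rp.smul 0 _ hv.sc.1] at a1
      have a2 : ((c 0 : ℂ) + c 1 * Complex.I) * pr v = 0 := by
        simp only [Complex.real_smul] at a1; linear_combination a1
      have a3 := (mul_eq_zero.1 a2).resolve_right pv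
      have c0 : c 0 = 0 := by simpa using congrArg Complex.re a3
      have c1 : c 1 = 0 := by simpa using congrArg Complex.im a3
      have c2 : c 2 = 0 := by simpa [c0, c1, u0] using hc
      intro i; fin_cases i; exacts [c0, c1, c2])
    omega
  refine ⟨pr, max (2 * g.q0 v) |C'|, ⟨rp.add, rp.smul, fun u hu => (rp.bd u hu).trans
    (mul_le_mul_of_nonneg_right (le_max_left _ _) (Gm.q0_nn h u))⟩, pl, fun u hu f1 f2 => ?_⟩
  have q : 0 ≤ g.Q w ((L.sh l).app g.F u) :=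
    add_nonneg (Gm.q0_nn h _) (Finset.sum_nonneg fun s _ =>
      integral_nonneg fun τ => mul_nonneg (Ulc97.n2_nn _ _) (exp_pos _).le)
  refine (hE u hu f1 f2).trans (mul_le_mul ((le_abs_self _).trans (le_max_right _ _)) ?_
    (by positivity) ((abs_nonneg _).trans (le_max_right _ _)))
  rcases max_choice ‖ℓ u‖ ‖pr u‖ with k | k <;> rw [Prod.norm_mk, k] <;>
    linarith [sq_nonneg ‖ℓ u‖, sq_nonneg ‖pr u‖]

theorem Gm.zero_on (hv : Continuous v) (q : g.q0 v = 0) {O : Set X.M} (hO : IsOpen O)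
    (hs : O ⊆ g.cor 0) : ∀ x ∈ O, v x = 0 := fun x hx => by
  rw [Gm.q0, integral_eq_zero_iff_of_nonneg (fun _ => sq_nonneg _)
    (Gm.int0 h (hv.norm.pow 2))] at q
  have := Sob92.openPos g.F.toPre
  simpa using Measure.eqOn_open_of_ae_eq (ae_restrict_of_ae_restrict_of_subset hs q) hO
    (hv.norm.pow 2).continuousOn continuousOn_const hx

end lop

section bg
variable {b : Bg X.I X.M κ lam ν nc}

theorem pp_mas (m : X.M → En ν) : (mas b m).pp = b.pp := by
  funext x; simp only [Bg.pp, Bg.vol]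

theorem rw_mas (m : X.M → En ν) : rw (mas b m) = rw b := by
  have : (mas b m).ta = b.ta := by funext j c y; simp only [Bg.ta]
  funext a η u j; simp only [rw, Bg.l, Bg.lη, this]

theorem A1_mas (m : X.M → En ν) (a : Fo X κ) : A1 (mas b m) a ↔ A1 b a := by simp only [A1, S1]

variable (hb : b.OK)
include hb

theorem pc (x : X.M) : Taub88.PC (fun i j => b.B.P i j x) (fun i j k l => b.B.o i j k l x) (b.m.p x)
    b.m.J fun i => b.m.ρ i x :=
  ⟨hb.B.pr x, Wz78.b_on hb.B x, hb.m.cl x trivial, hb.m.psym x trivial, fun a => hb.m.ρsk a x trivial,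
    hb.m.Jsk, fun a => hb.m.Jρ a x trivial, hb.m.Jp x trivial, by rw [hb.m.Jsq, neg_one_mul]⟩

theorem JJ (v : Eu ν) : b.m.J (b.m.J v) = -v := congrArg (· v) hb.m.Jsq

theorem norm_J (v : Eu ν) : ‖b.m.J v‖ = ‖v‖ := by
  rw [← sq_eq_sq₀ (norm_nonneg _) (norm_nonneg _), ← real_inner_self_eq_norm_sq, hb.m.Jsk, JJ hb,
    inner_neg_right, neg_neg, real_inner_self_eq_norm_sq]

theorem Sc.J {u : X.M → Eu ν} (hu : Sc b.pp u) : Sc b.pp fun x => b.m.J (u x) :=
  ⟨b.m.J.contMDiff.comp hu.1, fun x => (pc hb x).pp_J (hu.2 x)⟩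

theorem Dz_J {m : X.M → En ν} (hm : ∀ x, b.m.J * m x = m x * b.m.J) (g : Gm X κ lam Bool) (a : Fo X κ)
    (c : Bool → ℝ → ℝ) {u : X.M → Eu ν} (hu : Sm X.I u) (x : X.M) :
    Dz (mas b m) g a c (fun x => b.m.J (u x)) x = b.m.J (Dz (mas b m) g a c u x) := by
  have e1 := fun i v => (pc hb x).J_ρ i v
  have e2 := fun i v => congrArg (· v) (hb.AJ i x)
  have e3 := fun v => congrArg (· v) (hb.msJ x)
  have e4 := fun v => congrArg (· v) (hm x)
  have e5 := fun v => congrArg (· v) (hb.m.Jp x trivial)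
  simp only [mul_apply_eq_comp] at e2 e3 e4 e5
  have e6 : ∀ i, Sob92.dv X.I (b.F.e i) (fun x => b.m.J (u x)) x = b.m.J (Sob92.dv X.I (b.F.e i) u x) :=
    fun i => Sob92.dv_clm b.m.J ((hu x).mdifferentiableAt (by simp))
  simp only [Dz, Bg.eD, Wz78.dir, Wz78.nab, Bg.W, Bg.jp, map_add, map_sub, map_smul, map_sum,
    _root_.add_apply, _root_.smul_apply, mul_apply_eq_comp, e1, e2, e3, e4,
    e5, e6]

end bg

end Crest.Agent.X212.Rad94
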