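import Crest.Agent.X212.Rad94.KerB

/-!
# Row 212, AN-S (helper94): `KerStmt`, `KerCStmt`
-/

set_option autoImplicit false
set_option linter.unusedSectionVars false
noncomputable section
open scoped Manifold ContDiff Topology InnerProductSpace
open MeasureTheory Set Function Filter Real

namespace Crest.Agent.X212.Rad94
open An Cyf70 Sw Sw.En3 Sob92 Ell97
open M (Mf pm)

variable {κ lam ν : Type} [Fintype κ] [Fintype lam] [Fintype ν] [DecidableEq ν]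
  {X : Mf 4} {nc k : ℕ}

variable {e : Bool → En3 κ lam ν} {Z : Pz X nc e} {z : Two Z} {ϖ : Fin k → X.M → F2 κ} {a₀ : Fo X κ}
  {L : Lop z.gm (Eu ν) (Eu ν)} {O : Set X.M} {δ : ℝ} {m : X.M → En ν}

variable (L a₀) in
/-- the change of the connection -/
def RA (a : Fo X κ) (x : X.M) : En ν := ∑ i, (a i x - a₀ i x) • (L.A.σ i x ∘L Z.bg.m.J)

theorem RA_self : RA a₀ L a₀ = 0 := funext fun x => by simp [RA]

section
variable (hz : z.OK ϖ) (hD : z.Dir a₀ L)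
include hz hD

theorem app_eq (a : Fo X κ) (l : Bool → ℝ) {u : X.M → Eu ν} (hu : Sc Z.bg.pp u) (x : X.M) :
    ((L.ms 0 m).sh l).app z.gm.F u x + RA a₀ L a x (u x) =
      Dz (mas Z.bg m) z.gm a (fun s τ => χ τ * l s) u x := by
  have p := pc hz.ok.bg x
  have e1 : ∀ i, L.A.σ i x (Z.bg.m.J (u x)) = Z.bg.m.ρ i x (Z.bg.m.J (Z.bg.m.p x (u x))) := fun i => by
    rw [hD.σ, mul_apply_eq_comp, (hu.J hz.ok.bg).2 x, p.p_of (hu.2 x)]
  have e2 : RA a₀ L a x (u x) =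
      ∑ i, (a i x - a₀ i x) • Z.bg.m.ρ i x (Z.bg.m.J (Z.bg.m.p x (u x))) := by
    simp only [RA, _root_.sum_apply, _root_.smul_apply, ContinuousLinearMap.comp_apply, e1]
  rw [Lop.sh, Lop.app_ms, Lop.app_ms, hD.app u hu, Gm.rd_zero, e2]
  simp only [Lop.ms, Dz, Bg.eD, Wz78.dir, Wz78.nab, Bg.W, Bg.jp, map_add, map_smul,
    _root_.add_apply, _root_.smul_apply, mul_apply_eq_comp,
    hD.σ none, hu.2 x, sub_smul,
    Finset.sum_add_distrib, Finset.sum_sub_distrib, Pi.zero_apply, zero_smul,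
    _root_.zero_apply]
  abel

theorem kr_iff (a : Fo X κ) (η' : Fin nc → R4 → Eu ν) (l w : Bool → ℝ) (u : X.M → Eu ν) :
    Kr (mas Z.bg m) z.gm a η' l w u ↔ (L.ms 0 m).Kr l w (RA a₀ L a) (rw Z.bg a η') u :=
  ⟨fun h => have k : Sc Z.bg.pp u := pp_mas (b := Z.bg) m ▸ h.sc
    ⟨hD.p.symm ▸ k, h.fi, fun x => (app_eq hz hD a l k x).trans (congrFun h.eq x),
      rw_mas (b := Z.bg) m ▸ h.row⟩, fun h => have k : Sc Z.bg.pp u := hD.p ▸ h.sc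
    ⟨(pp_mas (b := Z.bg) m).symm ▸ k, h.fi, funext fun x => (app_eq hz hD a l k x).symm.trans (h.eq x),
      (rw_mas (b := Z.bg) m).symm ▸ h.row⟩⟩

theorem kr_iff0 (l w : Bool → ℝ) (u : X.M → Eu ν) :
    Kr (mas Z.bg m) z.gm a₀ 0 l w u ↔ (L.ms 0 m).Kr l w 0 (rw Z.bg a₀ 0) u := by
  rw [kr_iff hz hD, RA_self]

theorem zer_RA (h0 : A1 Z.bg a₀) {a : Fo X κ} (ha : A1 Z.bg a) : L.Zer (RA a₀ L a) := by
  obtain ⟨C, k⟩ := hD.ok.good
  refine ⟨Cb_sum _ fun i _ => Cb_smul (Cb_sub (ha.2 i) (h0.2 i)) (Cb_comp ⟨C, k.σ i⟩ (Cb_const _)),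
    fun x v => ?_⟩
  simp only [RA, _root_.sum_apply, _root_.smul_apply, map_sum, map_smul,
    ContinuousLinearMap.comp_apply, k.qσ]

theorem RA_le : ∃ C ≥ 0, ∀ a x, ‖RA a₀ L a x‖ ≤ C * ‖vc a x - vc a₀ x‖ := by
  obtain ⟨C, k⟩ := hD.ok.good
  refine ⟨Fintype.card (Option κ) * (|C 0| * ‖Z.bg.m.J‖), by positivity, fun a x => ?_⟩
  rw [mul_assoc, ← nsmul_eq_mul, ← Finset.card_univ, ← Finset.sum_const]
  refine norm_sum_le_of_le _ fun i _ => ?_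
  rw [norm_smul, mul_comm]
  exact mul_le_mul ((ContinuousLinearMap.opNorm_comp_le _ _).trans (mul_le_mul_of_nonneg_right
    ((CB_bound ((k.σ i).2 0) x).trans (le_abs_self _)) (norm_nonneg _)))
    (PiLp.norm_apply_le (vc a x - vc a₀ x) i) (norm_nonneg _) (by positivity)

omit hD in
theorem row1 (hR : RbStmt κ lam ν) (j : Fin nc) {η : R4 → Eu ν} (hη : Z.bg.Tst (Z.bg.ct j).Ξ η)
    {a : Fo X κ} (ha : S1 Z.bg a) : (∃ C, z.gm.Row (fun u => Z.bg.lη j η ⟨a, u⟩) C) ∧ ∀ (ζ : ℂ) u,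
      Sm X.I u → Z.bg.lη j η ⟨a, fun x => cs Z.bg.m.J ζ (u x)⟩ = ζ * Z.bg.lη j η ⟨a, u⟩ := by
  obtain ⟨R, h1⟩ := hη.cpt.isCompact.isBounded.subset_closedBall 0
  obtain ⟨M, h2⟩ := hη.sm.continuous.bounded_above_of_compact_support hη.cpt
  obtain ⟨C, h3⟩ := hR X nc k e Z z ϖ hz j R
  have := (h3 η M hη (fun y hy => image_eq_zero_of_notMem_tsupport fun k =>
    hy.not_ge (mem_closedBall_zero_iff.1 (h1 k))) h2).2 a ha
  exact ⟨⟨_, this.1⟩, this.2⟩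

omit hD in
theorem row_rw (hR : RbStmt κ lam ν) {η' : Fin nc → R4 → Eu ν}
    (hη : ∀ j, Z.bg.Tst (Z.bg.ct j).Ξ (η' j)) {a : Fo X κ} (ha : S1 Z.bg a) :
    (∃ C, z.gm.Row (rw Z.bg a η') C) ∧ ∀ u, Sm X.I u → rw Z.bg a η' u = 0 →
      rw Z.bg a η' (fun x => Z.bg.m.J (u x)) = 0 := by
  have r1 := fun j => row1 hz hR j (hz.ok.bg.ct j).η ha
  have r2 := fun j => row1 hz hR j (hη j) ha
  choose C₁ h1 using fun j => (r1 j).1
  choose C₂ h2 using fun j => (r2 j).1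
  refine ⟨⟨∑ j, 2 * (|C₁ j| + |C₂ j|), fun u v hu hv => funext fun j => ?_,
    fun r u hu => funext fun j => ?_, fun u hu => ?_⟩, fun u hu h => funext fun j => ?_⟩
  · simp only [rw, Pi.add_apply, (h1 j).add u v hu hv, (h2 j).add u v hu hv]; ring
  · simp only [rw, Pi.smul_apply, (h1 j).smul r u hu, (h2 j).smul r u hu, smul_sub]
  · have q : 0 ≤ z.gm.q0 u := integral_nonneg fun _ => sq_nonneg _
    rw [← Real.le_sqrt (norm_nonneg _) (by positivity), pi_norm_le_iff_of_nonneg (sqrt_nonneg _)]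
    refine fun j => Real.le_sqrt_of_sq_le (le_trans ?_ (mul_le_mul_of_nonneg_right
      (Finset.single_le_sum (f := fun j => 2 * (|C₁ j| + |C₂ j|)) (fun j _ => by positivity)
        (Finset.mem_univ j)) q))
    have a1 := ((h1 j).bd u hu).trans (mul_le_mul_of_nonneg_right (le_abs_self _) q)
    have a2 := ((h2 j).bd u hu).trans (mul_le_mul_of_nonneg_right (le_abs_self _) q)
    have a3 := pow_le_pow_left₀ (norm_nonneg _) (norm_sub_le (Z.bg.l j ⟨a, u⟩)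
      (Z.bg.lη j (η' j) ⟨a, u⟩)) 2
    simp only [rw]
    nlinarith [sq_nonneg (‖Z.bg.l j ⟨a, u⟩‖ - ‖Z.bg.lη j (η' j) ⟨a, u⟩‖)]
  · have a1 := (r1 j).2 Complex.I u hu
    have a2 := (r2 j).2 Complex.I u hu
    simp only [cs, Complex.I_re, Complex.I_im, zero_smul, one_smul, zero_add] at a1 a2
    have := congrFun h j
    simp only [rw, Bg.l, Pi.zero_apply] at this ⊢
    rw [a1, a2, ← mul_sub, this, mul_zero]

theorem ker_of (hF : FreStmt κ lam) (hW : WgtStmt κ lam) (hR : RbStmt κ lam ν) (hU : UcpStmt κ lam)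
    (h0 : A1 Z.bg a₀) (hO : z.Reg O) (hm : Mass Z.bg O δ m) {l : Bool → ℝ} {γ : ℝ}
    (P : L.Prd (2 * nc) l γ) (G : ∀ w : Bool → ℝ, (∀ s, w s ∈ range ((↑) : ℚ → ℝ)) →
      L.Off (Lop.wt z.gm l w) → L.ix (Lop.wt z.gm l w) ≤ 2 * nc →
      ∀ u, Kr (mas Z.bg m) z.gm a₀ 0 l w u → u = 0) :
    ∃ ε₀ > 0, ∀ ε ∈ Ioc 0 ε₀, Ker (mas Z.bg m) z.gm a₀ l ε := by
  have hb := hz.ok.bg
  have gk := hD.ok.gm
  have zm : L.Zer m := ⟨Cb_of_hcs hm.sm hm.cpt, fun x v => by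
    rw [hD.q, ← hm.p x, mul_apply_eq_comp, mul_apply_eq_comp]
    exact congrArg (· (m x (Z.bg.pp x v))) (pc hb x).pm_pm⟩
  have ok : (L.ms 0 m).OK := Lop.ms_ok hD.ok zm fun s τ y hτ => image_eq_zero_of_notMem_tsupport
    fun k => by linarith [hO.ht _ (hm.sup k) s, Ulc97.ht_pt (g := z.gm) (s := s) hτ y]
  have F := hF _ _ _ _ _ L hD.ok
  have W := hW _ _ _ _ _ _ ok (hF _ _ _ _ _ _ ok)
  have ix := fun p hp => F.cpt p m hp zm ok
  have fr : (Module.finrank ℝ (Fin nc → ℂ) : ℤ) = 2 * nc := by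
    rw [Module.finrank_pi_fintype]; simp [mul_comm]
  have t0 : ∀ j, Z.bg.Tst (Z.bg.ct j).Ξ ((0 : Fin nc → R4 → Eu ν) j) := fun j =>
    ⟨contDiff_const, HasCompactSupport.zero, fun y => map_zero _⟩
  obtain ⟨⟨C₀, r0⟩, rJ⟩ := row_rw hz hR t0 h0.1
  obtain ⟨ε₀, q0, q1⟩ := exists_rat_btwn P.pos
  refine ⟨ε₀, q0, fun ε hε => ?_⟩
  have εγ : ε ∈ Ioc 0 γ := ⟨hε.1, hε.2.trans q1.le⟩
  have ne : ∀ {x}, x ∈ Ioc 0 γ → x ≠ 0 ∧ |x| ≤ γ := fun k => ⟨k.1.ne', (abs_of_pos k.1).trans_le k.2⟩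
  have of : ∀ {x y} s, x ∈ Ioc 0 γ → y ∈ Ioc 0 γ → L.Off (Lop.wt z.gm l (update (fun _ => x) s (-y))) :=
    fun s hx hy => P.off _ fun s' => by
      rcases eq_or_ne s' s with rfl | e
      · simpa using ne hy
      · simpa [update_of_ne e] using ne hx
  have nd : ∀ s u, Kr (mas Z.bg m) z.gm a₀ 0 l (update (fun _ => ε) s (-ε)) u → u = 0 :=
    fun s u hu => by
      obtain ⟨ε', p0, p1⟩ := exists_rat_btwn hε.1
      have k : (ε' : ℝ) ∈ Ioc 0 γ := ⟨p0, p1.le.trans εγ.2⟩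
      refine G (update (fun _ => ε₀) s (-ε')) (fun s' => ?_) (of s ⟨q0, q1.le⟩ k)
        ((P.ix _ fun _ => ⟨q0, q1.le⟩).2 s _ k).le u ⟨hu.sc, hu.fi.mono fun s' => ?_, hu.eq, hu.row⟩
      · rcases eq_or_ne s' s with rfl | e
        exacts [⟨-ε', by simp⟩, ⟨ε₀, by simp [update_of_ne e]⟩]
      · rcases eq_or_ne s' s with rfl | e
        exacts [by simpa using p1.le, by simpa [update_of_ne e] using hε.2]
  have o1 : L.Off (Lop.wt z.gm l fun _ => ε) := P.off _ fun _ => ne εγ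
  have i1 := (ix _ o1).trans (P.ix _ fun _ => εγ).1
  obtain ⟨δ', d0, hx⟩ := W.ex (Fin nc → ℂ) l (fun _ => ε) (Lop.off_ms o1) (by omega)
  obtain ⟨C, C0, hC⟩ := RA_le hz hD
  have ex : ∀ a η', A1 Z.bg a → (∀ x, ‖vc a x - vc a₀ x‖ ≤ δ' / (C + 1)) →
      (∀ j, Z.bg.Tst (Z.bg.ct j).Ξ (η' j)) → ∃ u, Kr (mas Z.bg m) z.gm a η' l (fun _ => ε) u ∧ u ≠ 0 :=
    fun a η' ha hd hη => by
      obtain ⟨C', r⟩ := (row_rw hz hR hη ha.1).1
      obtain ⟨u, hu, u0⟩ := hx _ _ _ (Lop.zer_ms (zer_RA hz hD h0 ha)) (fun x => (hC a x).trans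
        ((mul_le_mul_of_nonneg_left (hd x) C0).trans (by
          rw [← mul_div_assoc, div_le_iff₀ (by positivity)]; nlinarith))) r
      exact ⟨u, (kr_iff hz hD ..).2 hu, u0⟩
  refine ⟨?_, ⟨_, by positivity, fun a η' ha hd hη => ex a η' ((A1_mas m a).1 ha) hd fun j =>
    ⟨(hη j).sm, (hη j).cpt, pp_mas (b := Z.bg) m ▸ (hη j).pos⟩⟩, nd⟩
  obtain ⟨v, hv, v0⟩ := ex a₀ 0 h0 (fun x => by rw [sub_self, norm_zero]; positivity) t0
  have hv' := (kr_iff0 hz hD ..).1 hv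
  have sv : Sc Z.bg.pp v := pp_mas (b := Z.bg) m ▸ hv.sc
  obtain ⟨pr, C', a1, a2, a3⟩ := Lop.line gk W r0 (JJ hb) (norm_J hb) (Lop.off_ms o1)
    (Lop.off_ms (of false εγ εγ))
    (fun s => by cases s <;> simp; linarith [hε.1])
    (((ix _ (of false εγ εγ)).trans ((P.ix _ fun _ => εγ).2 _ _ εγ)).trans fr.symm) (fr ▸ i1)
    (fun u hu => nd false u ((kr_iff0 hz hD ..).2 hu)) hv' ((kr_iff0 hz hD ..).1
      ⟨(pp_mas (b := Z.bg) m).symm ▸ sv.J hb, fun s => by simpa only [Gm.n2, norm_J hb] using hv.fi s,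
        funext fun x => by rw [Dz_J hb hm.J _ _ _ sv.1, hv.eq]; simp,
        (rw_mas (b := Z.bg) m).symm ▸ rJ v sv.1 hv'.row⟩)
    fun q => v0 (hU _ _ z.gm _ _ _ gk (Lop.good_sh ok l) (Lop.cl_sh ok l) v hv'.sc
      (funext fun x => by simpa using hv'.eq x) O hO.op hO.ne (Gm.zero_on gk sv.1.continuous q hO.op
        fun x hx s => (hO.ht x hx s).trans (by norm_num)))
  refine ⟨pr, C', a1, a2, fun u hu f1 f2 => ?_⟩
  rw [pp_mas] at hu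
  have ea : ((L.ms 0 m).sh l).app z.gm.F u = Dz (mas Z.bg m) z.gm a₀ (fun s τ => χ τ * l s) u :=
    funext fun x => by simpa [RA_self] using app_eq (m := m) hz hD a₀ l hu x
  rw [rw_mas, ← ea]
  exact a3 u (hD.p.symm ▸ hu) f1 (ea ▸ f2)

theorem kerOK_of {Z' : Pz X nc e} {z' : Two Z'} (h : Z'.bg = mas Z.bg m)
    (hn : ∀ s, (z'.K s).ng = (z.K s).ng) (hF : L.Fre) {l : Bool → ℝ} (sp : ∀ s, l s ∈ L.Spec s)
    (k : ∃ ε₀ > 0, ∀ ε ∈ Ioc 0 ε₀, Ker (mas Z.bg m) z.gm a₀ l ε) : z'.KerOK a₀ l := by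
  refine ⟨fun s => ⟨(hD.sp s _).1 (sp s), ?_⟩, ?_⟩
  · obtain ⟨γ, γ0, k, -⟩ := hF.gap s (l s)
    exact ⟨γ, γ0, hD.gap s _ _ k⟩
  obtain ⟨b', nk'⟩ := Z'
  obtain rfl : b' = _ := h
  have hK : (fun s => (z'.K s).toNk) = fun s => (z.K s).toNk := funext fun s => by
    have := hn s
    generalize z'.K s = K' at this
    generalize z.K s = K at this
    obtain ⟨⟨⟩⟩ := K'
    obtain ⟨⟨⟩⟩ := K
    simp only [Nk.ng, Prod.mk.injEq] at this
    obtain ⟨rfl, rfl, rfl, rfl⟩ := this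
    rfl
  have ho : z'.o = z.o := funext fun s => by
    have a1 := (z'.hp s).symm.trans ((congrArg (·.1) (hn s)).trans (z.hp s))
    have a2 := (z'.hq s).symm.trans ((congrArg (·.2.1) (hn s)).trans (z.hq s))
    cases s
    exacts [Option.some.inj a2, Option.some.inj a1]
  have ge : ∀ (B G Y) [∀ s, CompactSpace (Y s : Mf 3).M] D K K' (o o' : Bool → ℝ) hp hq hp' hq',
      K = K' → o = o' → (⟨B, G, Y, D, K, id, o, hp, hq⟩ : Gm X κ lam Bool) =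
        ⟨B, G, Y, D, K', id, o', hp', hq'⟩ := by
    rintro B G Y _ D K _ o _ hp hq hp' hq' rfl rfl; rfl
  have e : z'.gm = z.gm := ge _ _ _ _ _ _ _ _ _ _ _ _ hK ho
  rw [e]
  exact k

end

variable (hD : DirStmt κ lam ν) (hF : FreStmt κ lam) (hW : WgtStmt κ lam) (hN : UnbStmt κ lam)
  (hG : GenkStmt κ lam ν) (hR : RbStmt κ lam ν) (hU : UcpStmt κ lam)
include hD hF hW hN hG hR hU

theorem ker_all (hz : z.OK ϖ) (h0 : Ref Z.bg z.gm a₀) (hO : z.Reg O) (d0 : 0 < δ) :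
    ∃ L m, z.Dir a₀ L ∧ L.Fre ∧ (∀ s a, ∃ l ∈ L.Spec s, a < l) ∧ Mass Z.bg O δ m ∧
      ∀ (Z' : Pz X nc e) (z' : Two Z'), Z'.bg = mas Z.bg m → (∀ s, (z'.K s).ng = (z.K s).ng) →
        ∀ l γ, L.Prd (2 * nc) l γ → z'.KerOK a₀ l := by
  obtain ⟨L, k⟩ := hD X nc e Z z a₀ hz.ok h0.a1 h0.dec
  have F := hF _ _ _ _ _ L k.ok
  obtain ⟨m, hm, hk⟩ := hG X nc _ e Z z ϖ a₀ L O hz h0.a1 k hO {p | ((∀ s, p.1 s ∈ L.Spec s) ∧
      ∀ s, p.2 s ∈ range ((↑) : ℚ → ℝ)) ∧ L.Off (Lop.wt z.gm p.1 p.2) ∧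
      L.ix (Lop.wt z.gm p.1 p.2) ≤ 2 * nc} (((countable_pi fun s => count_spec (F.fin s)).prod
    (countable_pi fun _ => countable_range _)).mono fun p hp => hp.1) (fun p hp => hp.2) δ d0
  exact ⟨L, m, k, F, fun s => hN _ _ _ _ _ L k.ok s (k.ne s), hm, fun Z' z' h hn l γ P =>
    kerOK_of hz k h hn F P.sp (ker_of hz k hF hW hR hU h0.a1 hO hm P fun w a1 a2 a3 =>
      hk (l, w) ⟨⟨P.sp, a1⟩, a2, a3⟩)⟩

omit hD hF hW hN hG hR hU in
theorem hi_of {Z' : Pz X nc e} {z' : Two Z'} (k : z.Dir a₀ L) (F : L.Fre) (hs : ∀ s, Smp (e s))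
    (hu : ∀ s a, ∃ l ∈ L.Spec s, a < l) (h : ∀ l γ, L.Prd (2 * nc) l γ → z'.KerOK a₀ l) :
    z'.Hi a₀ := fun Λ => by
  obtain ⟨N, hN⟩ := Lop.hi F (fun _ => rfl) (fun s l l0 hl => k.mult s (hs s) l l0 ((k.sp s l).1 hl))
    hu k.ev nc Λ
  refine ⟨N, fun l₀ h0 hl => ?_⟩
  obtain ⟨l, γ, a1, a2, a3⟩ := hN l₀ ((k.sp _ _).2 h0) hl
  exact ⟨l, a1, a2, h l γ a3⟩

/-- **KER** -/
theorem kerStmt : KerStmt κ lam ν := fun _ _ _ _ _ _ _ _ _ hz h0 hs hO _ d0 => by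
  obtain ⟨L, m, k, F, hu, hm, h⟩ := ker_all hD hF hW hN hG hR hU hz h0 hO d0
  exact ⟨m, hm, fun Z' z' a b => hi_of k F hs hu (h Z' z' a b)⟩

/-- **KERC** -/
theorem kerCStmt (hI : Idx0Stmt κ lam) : KerCStmt κ lam ν :=
    fun X nc _ e₀ Z z _ _ _ K hz h0 hs hO hK _ d0 => by
  obtain ⟨L, m, k, F, hu, hm, h⟩ := ker_all hD hF hW hN hG hR hU hz h0 hO d0
  refine ⟨m, hm, fun Z' z' a b => ⟨hi_of k F (fun _ => hs) hu (h Z' z' a b), fun l₀ l0 e0 e1 => ?_⟩⟩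
  have sr : ∀ x, x ∈ K.ψ.source := fun x => by
    rw [K.src, hK.p, hK.q]; exact ⟨trivial, by simp [Nd18.Jv]⟩
  have vl : ∀ x, Z.bg.vol (K.ψ x) = e₀.cyl.vol (x.1, 0) := fun x => by
    simp only [Bg.vol, K.o _ _ _ _ x (sr x), hK.mρ]; rfl
  have pp : ∀ x, Z.bg.pp (K.ψ x) = e₀.cyl.pp (x.1, 0) := fun x => by
    simp only [Bg.pp, vl, hK.mp]; rfl
  have pm' : ∀ x, Z.bg.pm (K.ψ x) = e₀.cyl.pm (x.1, 0) := fun x => by
    simp only [Bg.pm, vl, hK.mp]; rfl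
  have i0 := hI X Bool z.gm _ _ L k.ok F false K hK.p hK.q (fun x => ⟨by
    rw [k.p, pp, (k.Ep false _).1], by rw [k.q, pm', (k.Ep false _).2.1], fun i => by
    rw [k.σ, pp, hK.mρ, (k.Ep false _).2.2]⟩) fun δ hδ => by
      choose T hT using fun s => k.ok.B s δ hδ
      refine ⟨|T false| + |T true| + |z.o false| + |z.o true| + 1, fun x hx => ?_⟩
      have E : (L.E true).B = (L.E false).B := congrArg Op.B (eq_of_heq (k.EE true false rfl))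
      have pt : ∀ s, 0 ≤ z.gm.sg s * (x.2 - z.o s) - 1 →
          K.ψ x = z.gm.pt s (z.gm.sg s * (x.2 - z.o s) - 1) x.1 := fun s hτ => by
        have := Ulc97.mem_src (g := z.gm) (s := s) (lt_of_lt_of_le (by norm_num) hτ) x.1
        rw [Gm.pt, Ulc97.tt_sg] at *
        exact (hK.ψ s x this).symm
      have b0 := abs_nonneg (T false)
      have b1 := abs_nonneg (T true)
      have b2 := abs_nonneg (z.o false)
      have b3 := abs_nonneg (z.o true)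
      rcases le_abs'.1 hx with c | c
      · have s0 : z.gm.sg false = -1 := by simp [Gm.sg, pm]
        rw [pt false (by rw [s0]; linarith [neg_abs_le (z.o false)])]
        exact hT false _ (by rw [s0]; linarith [neg_abs_le (z.o false), le_abs_self (T false)]) _
      · have s0 : z.gm.sg true = 1 := by simp [Gm.sg, pm]
        rw [pt true (by rw [s0]; linarith [le_abs_self (z.o true)]), ← E]
        exact hT true _ (by rw [s0]; linarith [le_abs_self (z.o true), le_abs_self (T true)]) _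
  obtain ⟨l, γ, a1, a2, a3⟩ := Lop.al F (fun _ => rfl)
    (fun s l l0 hl => k.mult s hs l l0 ((k.sp s l).1 hl)) (hu true) k.ev
    (Set.ext fun l => (k.sp true l).trans (k.sp false l).symm) i0 hO.nc l0 ((k.sp _ _).2 e0)
    (e1.imp_right fun ⟨l₁, u, v⟩ => ⟨l₁, u, (k.sp _ _).2 v⟩)
  exact ⟨l, a1, a2, h Z' z' a b l γ a3⟩

end Crest.Agent.X212.Rad94
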