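import Crest.Agent.X212.Nd18.Defs
import Crest.Agent.X212.Cyf70.Op
import Crest.Agent.X212.Ell97.Loc
import Crest.Agent.X212.M.Band

/-!
# Row 212, AN-S (helper94): operators of Dirac type on a manifold with cylindrical ends

`Gm` : the geometry; `Lop` : an operator that is asymptotic to `ν (∂_t + L)`; weighted norms at
function level; the leaves FRE, WGT, RINV, UL.
-/

set_option autoImplicit false
set_option linter.unusedSectionVars false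
noncomputable section
open scoped Manifold ContDiff Topology InnerProductSpace
open MeasureTheory Set Function Filter Real

namespace Crest.Agent.X212.Rad94
open An Cyf70 Ell97
open Nd18 (YD)
open M (Mf pm)

/-- a background with the half-infinite necks `K s`; `sd s = true` : outgoing -/
structure Gm (X : Mf 4) (κ lam A : Type) [Fintype κ] [Fintype lam] : Type 1 where
  B : Base X.M (Option κ) lam
  G : Geo X.I X.M (Option κ) lam
  Y : A → Mf 3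
  [cpt : ∀ s, CompactSpace (Y s).M]
  D : ∀ s, YD (Y s).I (Y s).M κ lam
  K : ∀ s, Nd18.Nk (D s) B G
  sd : A → Bool
  o : A → ℝ
  hp : ∀ s, (K s).p = bif sd s then some (o s) else none
  hq : ∀ s, (K s).q = bif sd s then none else some (o s)

attribute [instance] Gm.cpt

/-- the cut-off -/
abbrev χ : ℝ → ℝ := Real.smoothTransition

variable {κ lam A : Type} [Fintype κ] [Fintype lam] [Fintype A] {X : Mf 4}
  {N V W Z : Type} [NormedAddCommGroup N] [NormedSpace ℝ N]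
  [NormedAddCommGroup V] [InnerProductSpace ℝ V] [FiniteDimensional ℝ V]
  [NormedAddCommGroup W] [InnerProductSpace ℝ W] [FiniteDimensional ℝ W]
  [NormedAddCommGroup Z] [NormedSpace ℝ Z] [FiniteDimensional ℝ Z]

/-- radial functions: smooth, zero for `τ ≤ 0` -/
def Rd (c : A → ℝ → ℝ) : Prop := ∀ s, ContDiff ℝ ∞ (c s) ∧ ∀ τ ≤ 0, c s τ = 0

namespace Gm
variable (g : Gm X κ lam A)

abbrev F : Fr X.I X.M (Option κ) := g.G.F

/-- the sign of the end -/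
abbrev sg (s : A) : ℝ := pm (g.sd s)

/-- the time at the height `τ`; the neck is `τ > -1` -/
def tt (s : A) (τ : ℝ) : ℝ := g.o s + g.sg s * (τ + 1)

/-- the point at the height `τ` -/
def pt (s : A) (τ : ℝ) (y : (g.Y s).M) : X.M := (g.K s).ψ (y, g.tt s τ)

/-- the height -/
def ht (s : A) (x : X.M) : ℝ := g.sg s * ((g.K s).tm x - g.o s) - 1

/-- the part of height at most `T` -/
def cor (T : ℝ) : Set X.M := {x | ∀ s, g.ht s x ≤ T}

/-- a slab of length one -/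
def slab (s : A) (τ : ℝ) : Set X.M := g.ht s ⁻¹' Icc τ (τ + 1)

/-- the function on `X` of the radial functions `c` -/
def rd (c : A → ℝ → ℝ) (x : X.M) : ℝ := ∑ s, c s (g.ht s x)

structure OK : Prop where
  B : g.B.OK X.I
  G : g.G.OK g.B
  tame : ∃ C, g.F.Tame C
  vol : g.F.IsVol
  con : ConnectedSpace X.M
  D : ∀ s, (g.D s).OK
  cY : ∀ s, ConnectedSpace (g.Y s).M
  dj : Pairwise fun s s' => Disjoint (g.K s).ψ.target (g.K s').ψ.target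
  cpt : ∀ T, IsCompact (g.cor T)

/-- the square of the norm of the slice -/
def n2 (s : A) (f : X.M → N) (τ : ℝ) : ℝ := ∫ y, ‖f (g.pt s τ y)‖ ^ 2 ∂(g.D s).F.μ

/-- the square of the norm on the core -/
def q0 (f : X.M → N) : ℝ := ∫ x in g.cor 0, ‖f x‖ ^ 2 ∂g.F.μ

/-- growth at most `e^{ϖ τ}` in `L²` -/
def Fi (ϖ : A → ℝ) (f : X.M → N) : Prop :=
  ∀ s, IntegrableOn (fun τ => g.n2 s f τ * exp (-(2 * ϖ s) * τ)) (Ioi 0)

/-- the square of the weighted norm -/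
def Q (ϖ : A → ℝ) (f : X.M → N) : ℝ :=
  g.q0 f + ∑ s, ∫ τ in Ioi 0, g.n2 s f τ * exp (-(2 * ϖ s) * τ)

/-- uniformly local Sobolev bounds -/
def Ul (k : ℕ) (f : X.M → N) (r : ℝ) : Prop :=
  nS g.F.toPre (g.cor 1) k f ≤ r ∧ ∀ s τ, 0 ≤ τ → nS g.F.toPre (g.slab s τ) k f ≤ r

/-- finitely many conditions that are bounded on the core -/
structure Row (ℓ : (X.M → V) → Z) (C : ℝ) : Prop where
  add : ∀ u v, Sm X.I u → Sm X.I v → ℓ (u + v) = ℓ u + ℓ v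
  smul : ∀ (r : ℝ) u, Sm X.I u → ℓ (r • u) = r • ℓ u
  bd : ∀ u, Sm X.I u → ‖ℓ u‖ ^ 2 ≤ C * g.q0 u

end Gm

/-- smooth sections -/
def Sc (p : X.M → V →L[ℝ] V) (u : X.M → V) : Prop := Sm X.I u ∧ ∀ x, p x (u x) = u x

/-- an operator with its limits -/
structure Lop (g : Gm X κ lam A) (V W : Type) [NormedAddCommGroup V] [InnerProductSpace ℝ V]
    [NormedAddCommGroup W] [InnerProductSpace ℝ W] where
  A : Op X.M (Option κ) V W
  E : ∀ s, Op (g.Y s).M (Option κ) V W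

namespace Lop
variable {g : Gm X κ lam A} (L : Lop g V W)

structure OK : Prop where
  gm : g.OK
  good : ∃ C, L.A.Good g.F C
  cl : L.A.Cliff g.F
  cy : ∀ s, CyO (g.D s).F (L.E s)
  p : ∀ s τ y, -1 < τ → L.A.p (g.pt s τ y) = (L.E s).p y
  q : ∀ s τ y, -1 < τ → L.A.q (g.pt s τ y) = (L.E s).q y
  σ : ∀ s τ y a, -1 < τ → L.A.σ a (g.pt s τ y) = (L.E s).σ a y
  B : ∀ s, ∀ δ > 0, ∃ T, ∀ τ ≥ T, ∀ y, ‖L.A.B (g.pt s τ y) - (L.E s).B y‖ ≤ δ

/-- the operator with the radial mass `c` and a term of order zero -/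
def ms (c : A → ℝ → ℝ) (R : X.M → V →L[ℝ] W) : Lop g V W :=
  ⟨{ L.A with B := fun x => L.A.B x + R x - g.rd c x • L.A.σ none x }, L.E⟩

/-- `ν (∂_t + L - l)` on the ends -/
def sh (l : A → ℝ) : Op X.M (Option κ) V W := (L.ms (fun s τ => χ τ * l s) 0).A

/-- the eigenspace -/
def Eg (s : A) (l : ℝ) : Submodule ℝ (Sec (g.Y s).I (L.E s).p) :=
  kerS (g.D s).F { sop (L.E s) with B := fun y => (sop (L.E s)).B y - l • (L.E s).p y }

/-- the spectrum -/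
def Spec (s : A) : Set ℝ := {l | L.Eg s l ≠ ⊥}

/-- the multiplicity -/
def mult (s : A) (l : ℝ) : ℕ := Module.finrank ℝ (L.Eg s l)

/-- the operator on Sobolev spaces -/
def T (l : A → ℝ) : g.F.H 1 L.A.p →L[ℝ] g.F.H 0 L.A.q := (L.sh l).H g.F 0

/-- the index -/
def ix (l : A → ℝ) : ℤ := Fred93.ind (L.T l)

/-- off the spectrum -/
def Off (l : A → ℝ) : Prop := ∀ s, l s ∉ L.Spec s

/-- the weight `ϖ` for the mass `l` acts as the mass `wt l ϖ` -/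
def wt (g : Gm X κ lam A) (l ϖ : A → ℝ) (s : A) : ℝ := l s - g.sg s * ϖ s

/-- the weighted kernel of `sh l + R` and the rows `ℓ` -/
structure Kr (l ϖ : A → ℝ) (R : X.M → V →L[ℝ] W) (ℓ : (X.M → V) → Z) (u : X.M → V) : Prop where
  sc : Sc L.A.p u
  fi : g.Fi ϖ u
  eq : ∀ x, (L.sh l).app g.F u x + R x (u x) = 0
  row : ℓ u = 0

/-- terms of order zero -/
def Zer (R : X.M → V →L[ℝ] W) : Prop := g.F.Cb R ∧ ∀ x v, L.A.q x (R x v) = R x v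

/-- `spec ∩ [l - γ, l + γ] ⊆ {l}`, as an estimate -/
def Gap (s : A) (l γ : ℝ) : Prop := ∀ (u : Sec (g.Y s).I (L.E s).p) (ν δ : ℝ), 0 ≤ δ →
  δ ≤ |ν - l| → δ ≤ γ - |ν - l| →
  δ * (g.D s).F.nrm 0 u.1 ≤ (g.D s).F.nrm 0 ((sop (L.E s)).app (g.D s).F u.1 - ν • u.1)

open Classical in
/-- **FRE**: Fredholm property, jumps of the index, spectrum of the ends -/
structure Fre : Prop where
  fin : ∀ s a b, (L.Spec s ∩ Icc a b).Finite
  fd : ∀ s l, FiniteDimensional ℝ (L.Eg s l)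
  gap : ∀ s l, ∃ γ > 0, L.Gap s l γ ∧ L.Spec s ∩ Icc (l - γ / 2) (l + γ / 2) ⊆ {l}
  fr : ∀ l, L.Off l → (L.T l).IsFredholm
  cpt : ∀ l R, L.Off l → L.Zer R → (L.ms 0 R).OK → (L.ms 0 R).ix l = L.ix l
  jmp : ∀ l s a b, a ≤ b → L.Off (update l s a) → L.Off (update l s b) →
    L.ix (update l s a) - L.ix (update l s b) =
      (if g.sd s then 1 else -1) * ∑ᶠ ν ∈ L.Spec s ∩ Ioo a b, (L.mult s ν : ℤ)

/-- **WGT**: the weighted problem at function level -/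
structure Wgt : Prop where
  /-- the basic estimate -/
  est : ∀ (Z : Type) [NormedAddCommGroup Z] [NormedSpace ℝ Z] [FiniteDimensional ℝ Z] l ϖ
    (ℓ : (X.M → V) → Z) C, L.Off (wt g l ϖ) → g.Row ℓ C → (∀ u, L.Kr l ϖ 0 ℓ u → u = 0) →
    ∃ C', ∀ u, Sc L.A.p u → g.Fi ϖ u → g.Fi ϖ ((L.sh l).app g.F u) →
      g.Q ϖ u ≤ C' * (g.Q ϖ ((L.sh l).app g.F u) + ‖ℓ u‖ ^ 2)
  /-- a positive index gives solutions, also after a small perturbation -/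
  ex : ∀ (Z : Type) [NormedAddCommGroup Z] [NormedSpace ℝ Z] [FiniteDimensional ℝ Z] l ϖ,
    L.Off (wt g l ϖ) → (Module.finrank ℝ Z : ℤ) < L.ix (wt g l ϖ) → ∃ δ > 0,
    ∀ R (ℓ : (X.M → V) → Z) C, L.Zer R → (∀ x, ‖R x‖ ≤ δ) → g.Row ℓ C →
      ∃ u, L.Kr l ϖ R ℓ u ∧ u ≠ 0
  /-- the dimension of the kernel -/
  dim : ∀ (Z : Type) [NormedAddCommGroup Z] [NormedSpace ℝ Z] [FiniteDimensional ℝ Z] l ϖ ϖ'
    (ℓ : (X.M → V) → Z) C, L.Off (wt g l ϖ) → L.Off (wt g l ϖ') → ϖ' ≤ ϖ → g.Row ℓ C →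
    L.ix (wt g l ϖ') = Module.finrank ℝ Z → (∀ u, L.Kr l ϖ' 0 ℓ u → u = 0) →
    ∀ (n : ℕ) (u : Fin n → X.M → V), (∀ i, L.Kr l ϖ 0 ℓ (u i)) → LinearIndependent ℝ u →
      (n : ℤ) ≤ L.ix (wt g l ϖ) - Module.finrank ℝ Z

/-- a right inverse of `L` modulo the columns `ϖ` with the weight `ε` -/
structure Rv {k : ℕ} (ϖ : Fin k → X.M → W) (ε : ℝ) (G : (X.M → W) → X.M → V)
    (S : (X.M → W) → Fin k → ℝ) : Prop where
  sc : ∀ f, Sc L.A.q f → g.F.Cb f → Sc L.A.p (G f) ∧ g.F.Cb (G f)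
  eq : ∀ f, Sc L.A.q f → g.F.Cb f → ∀ x, L.A.app g.F (G f) x - ∑ i, S f i • ϖ i x = f x
  sub : ∀ f f', Sc L.A.q f → g.F.Cb f → Sc L.A.q f' → g.F.Cb f' →
    G (f - f') = G f - G f' ∧ S (f - f') = S f - S f'
  wt : ∃ C, ∀ f, Sc L.A.q f → g.F.Cb f →
    g.Q (fun _ => ε) (G f) + ‖S f‖ ^ 2 ≤ C * g.Q (fun _ => ε) f
  ul : ∀ j, ∃ C, ∀ f r, Sc L.A.q f → g.F.Cb f → g.Ul j f r → g.Ul (j + 1) (G f) (C * r) ∧ ‖S f‖ ≤ C * r
  dec : ∀ f, Sc L.A.q f → HasCompactSupport f → ∀ s, ∀ δ > 0, ∃ T, ∀ τ ≥ T, ∀ y,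
    ‖G f (g.pt s τ y)‖ ≤ δ

/-- **RINV** -/
def Rinv : Prop := ∀ (k : ℕ) (ϖ : Fin k → X.M → W), L.Off 0 → (∀ i, ϖ i ∈ Sec X.I L.A.q) →
  (∀ v, Sc L.A.q v → g.F.Cb v → (∃ ε > 0, ∀ w : List (Option κ), g.Fi (fun _ => -ε) (g.F.Dw w v)) →
    (L.A.adj g.F).app g.F v = 0 → (∀ i, g.F.ip 0 v (ϖ i) = 0) → v = 0) →
  (∀ s τ y, 1 ≤ τ → L.A.B (g.pt s τ y) = (L.E s).B y) →
  ∃ ε₀ > 0, ∃ G S, ∀ ε ∈ Ioc 0 ε₀, L.Rv ϖ ε G S

end Lop

namespace Gm
variable (g : Gm X κ lam A)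

/-- **UL**: the calculus of the uniformly local norms -/
structure UlC : Prop where
  el : ∀ (V W : Type) [NormedAddCommGroup V] [InnerProductSpace ℝ V] [FiniteDimensional ℝ V]
    [NormedAddCommGroup W] [InnerProductSpace ℝ W] [FiniteDimensional ℝ W]
    (P : Op X.M (Option κ) V W), (∃ C, P.Good g.F C) → P.CliffL g.F → ∀ k, ∃ C, ∀ u r, Sc P.p u →
      g.Ul k (P.app g.F u) r → g.Ul k u r → g.Ul (k + 1) u (C * r)
  sup : ∀ (V : Type) [NormedAddCommGroup V] [InnerProductSpace ℝ V] [FiniteDimensional ℝ V] k,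
    ∃ C, ∀ (u : X.M → V) r, Sm X.I u → g.Ul (k + 4) u r → g.F.CB k u (C * r)
  cb : ∀ (V : Type) [NormedAddCommGroup V] [InnerProductSpace ℝ V] [FiniteDimensional ℝ V] k,
    ∃ C, ∀ (u : X.M → V) r, Sm X.I u → g.F.CB k u r → g.Ul k u (C * r)
  mul : ∀ (U V W : Type) [NormedAddCommGroup U] [InnerProductSpace ℝ U] [FiniteDimensional ℝ U]
    [NormedAddCommGroup V] [InnerProductSpace ℝ V] [FiniteDimensional ℝ V] [NormedAddCommGroup W]
    [InnerProductSpace ℝ W] [FiniteDimensional ℝ W] k, 7 ≤ k → ∃ C,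
    ∀ (b : X.M → U →L[ℝ] V →L[ℝ] W) (a : X.M → U) (u : X.M → V) c r r', ∀ j ≤ k, Sm X.I b →
      Sm X.I a → Sm X.I u → g.F.CB k b c → g.Ul k a r → g.Ul j u r' →
      g.Ul j (fun x => b x (a x) (u x)) (C * c * r * r')
  l4 : ∀ (U V W : Type) [NormedAddCommGroup U] [InnerProductSpace ℝ U] [FiniteDimensional ℝ U]
    [NormedAddCommGroup V] [InnerProductSpace ℝ V] [FiniteDimensional ℝ V] [NormedAddCommGroup W]
    [InnerProductSpace ℝ W] [FiniteDimensional ℝ W] k, ∃ C,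
    ∀ (b : X.M → U →L[ℝ] V →L[ℝ] W) (a : X.M → U) (u : X.M → V) c r r', Sm X.I b →
      Sm X.I a → Sm X.I u → g.F.CB k b c →
      (g.Ul (k + 1) a r → g.Ul (k + 1) u r' → g.Ul k (fun x => b x (a x) (u x)) (C * c * r * r')) ∧
      (g.Ul k a r → (∀ x, ‖a x‖ ≤ r) → g.Ul k u r' → (∀ x, ‖u x‖ ≤ r') →
        g.Ul k (fun x => b x (a x) (u x)) (C * c * r * r'))
  rad : ∀ (V : Type) [NormedAddCommGroup V] [InnerProductSpace ℝ V] [FiniteDimensional ℝ V]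
    (β : A → ℝ → ℝ), (∀ s, ContDiff ℝ ∞ (β s)) → ∀ k M, ∃ C, ∀ u : X.M → V, Sm X.I u → g.Ul k u M →
      (∀ s τ, 0 ≤ τ → g.n2 s u τ ≤ M) →
      g.Ul k (fun x => g.rd (fun s τ => χ τ * β s (g.n2 s u τ)) x • u x) C
  lim : ∀ (V : Type) [NormedAddCommGroup V] [InnerProductSpace ℝ V] [FiniteDimensional ℝ V]
    (u : ℕ → X.M → V) (C : ℕ → ℝ) (ε : ℝ), 0 < ε → (∀ n, g.F.CBs (u n) C) →
      (∀ δ > 0, ∃ N, ∀ n ≥ N, ∀ m ≥ N, g.Q (fun _ => ε) (u n - u m) ≤ δ) →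
      ∃ v, g.F.CBs v C ∧ (∀ x, Tendsto (fun n => u n x) atTop (𝓝 (v x))) ∧
        Tendsto (fun n => g.Q (fun _ => ε) (u n - v)) atTop (𝓝 0)
  sep : ∀ (V : Type) [NormedAddCommGroup V] [InnerProductSpace ℝ V] (u : X.M → V) (ϖ : A → ℝ),
    Continuous u → g.Fi ϖ u → g.Q ϖ u = 0 → u = 0
  le : ∀ (V W : Type) [NormedAddCommGroup V] [InnerProductSpace ℝ V] [NormedAddCommGroup W]
    [InnerProductSpace ℝ W] (u u' : X.M → V) (f : X.M → W) (ϖ : A → ℝ) (c : ℝ), Continuous u →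
    Continuous u' → Continuous f → (∀ x, ‖f x‖ ≤ c * (‖u x‖ + ‖u' x‖)) → g.Fi ϖ u → g.Fi ϖ u' →
      g.Fi ϖ f ∧ g.Q ϖ f ≤ 2 * c ^ 2 * (g.Q ϖ u + g.Q ϖ u')
  alg : ∀ (V : Type) [NormedAddCommGroup V] [InnerProductSpace ℝ V] k (u v : X.M → V) r r' (c : ℝ),
    Sm X.I u → Sm X.I v → g.Ul k u r → g.Ul k v r' → g.Ul k (u + c • v) (r + |c| * r') ∧
      ∀ j ≤ k, ∀ r'' ≥ r, g.Ul j u r''
  q : ∀ ε > 0, ∃ C, ∀ (V : Type) [NormedAddCommGroup V] [InnerProductSpace ℝ V] (u : X.M → V) r,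
    Continuous u → g.Ul 0 u r → g.Fi (fun _ => ε) u ∧ g.Q (fun _ => ε) u ≤ C * r ^ 2
  n : ∀ (V : Type) [NormedAddCommGroup V] [InnerProductSpace ℝ V] (u : X.M → V) r,
    Continuous u → 0 ≤ r → g.q0 u ≤ r ^ 2 → (∀ s τ, 0 ≤ τ → g.n2 s u τ ≤ r ^ 2) →
      g.Ul 0 u ((Fintype.card A + 1) * r)

end Gm

variable (κ lam)

/-- LEAF FRE -/
def FreStmt : Prop := ∀ (X : Mf 4) (A : Type) [Fintype A] (g : Gm X κ lam A) (V W : Type)
  [NormedAddCommGroup V] [InnerProductSpace ℝ V] [FiniteDimensional ℝ V] [NormedAddCommGroup W]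
  [InnerProductSpace ℝ W] [FiniteDimensional ℝ W] (L : Lop g V W), L.OK → L.Fre

/-- LEAF UNB: the spectrum is unbounded above -/
def UnbStmt : Prop := ∀ (X : Mf 4) (A : Type) [Fintype A] (g : Gm X κ lam A) (V W : Type)
  [NormedAddCommGroup V] [InnerProductSpace ℝ V] [FiniteDimensional ℝ V] [NormedAddCommGroup W]
  [InnerProductSpace ℝ W] [FiniteDimensional ℝ W] (L : Lop g V W), L.OK → ∀ s,
  (∃ y, (L.E s).p y ≠ 0) → ∀ a, ∃ l ∈ L.Spec s, a < l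

/-- LEAF IDX0: the manifold is a cylinder -/
def Idx0Stmt : Prop := ∀ (X : Mf 4) (A : Type) [Fintype A] (g : Gm X κ lam A) (V W : Type)
  [NormedAddCommGroup V] [InnerProductSpace ℝ V] [FiniteDimensional ℝ V] [NormedAddCommGroup W]
  [InnerProductSpace ℝ W] [FiniteDimensional ℝ W] (L : Lop g V W), L.OK → L.Fre →
  ∀ s (K : Nd18.Nk (g.D s) g.B g.G), K.p = none → K.q = none →
    (∀ x, L.A.p (K.ψ x) = (L.E s).p x.1 ∧ L.A.q (K.ψ x) = (L.E s).q x.1 ∧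
      ∀ a, L.A.σ a (K.ψ x) = (L.E s).σ a x.1) →
    (∀ δ > 0, ∃ T, ∀ x : (g.Y s).M × ℝ, T ≤ |x.2| → ‖L.A.B (K.ψ x) - (L.E s).B x.1‖ ≤ δ) →
    ∀ l ∉ L.Spec s, L.ix (fun _ => l) = 0

/-- LEAF WGT -/
def WgtStmt : Prop := ∀ (X : Mf 4) (A : Type) [Fintype A] (g : Gm X κ lam A) (V W : Type)
  [NormedAddCommGroup V] [InnerProductSpace ℝ V] [FiniteDimensional ℝ V] [NormedAddCommGroup W]
  [InnerProductSpace ℝ W] [FiniteDimensional ℝ W] (L : Lop g V W), L.OK → L.Fre → L.Wgt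

/-- LEAF UL -/
def UlStmt : Prop := ∀ (X : Mf 4) (A : Type) [Fintype A] (g : Gm X κ lam A), g.OK → g.UlC

/-- LEAF RINV -/
def RinvStmt : Prop := ∀ (X : Mf 4) (A : Type) [Fintype A] (g : Gm X κ lam A) (V W : Type)
  [NormedAddCommGroup V] [InnerProductSpace ℝ V] [FiniteDimensional ℝ V] [NormedAddCommGroup W]
  [InnerProductSpace ℝ W] [FiniteDimensional ℝ W] (L : Lop g V W), L.OK → L.Fre → g.UlC → L.Rinv

end Crest.Agent.X212.Rad94
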