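import Crest.Agent.X212.Rtw9.Lf
import Crest.Agent.X212.Psc68.Sup
import Crest.Agent.X212.Sw88.C0v

/-!
# Row 212, RAD-SUP (helper94): local `L²` bounds give a bound of the spinor, uniformly in the scale
-/

set_option autoImplicit false
set_option linter.unusedSectionVars false
noncomputable section
open scoped Manifold ContDiff Topology InnerProductSpace
open MeasureTheory Set Filter

namespace Crest.Agent.X212.Rad94
open An Wz78 Sob92 Cyf70 Sw88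
open Sw (Bg En3 Pz)
open M (Mf)
open Mp86 (Lop gr2)
open Psc68 (bu bu_ne bu_one)

variable {κ lam ν : Type} [Fintype κ] [Fintype lam] [Fintype ν] [DecidableEq ν]
  {X : Mf 4} {nc : ℕ}

/-- the constant of the differential inequality -/
def kq (n : ℝ) (C : ℕ → ℝ) (A G R : ℝ) : ℝ :=
  (1 + (2 * (R + C 0) + (kS n (C 2) / 2 + n * (2 * C 0 + C 0 ^ 2))) +
    3 * (n * (6 * A ^ 2 + 2 * (A + |C 0| * A)))) * Real.exp (2 * G)

/-- the constant of the De Giorgi step -/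
def kQ (n : ℝ) (C : ℕ → ℝ) (A G R L : ℝ) : ℝ :=
  (3 + 8 * (|C 0| + 1) ^ 2) * (kq n C A G R * (|L| + 1))

theorem dg_step {b : Bg X.I X.M κ lam ν nc} (hb : b.OK) {C : ℕ → ℝ} (hC : b.Bd C)
    {c : Sw.Cfg X.M κ ν} (hc : b.Adm c) {g ζ ξ : X.M → ℝ} (hg : Sm X.I g) {A G R L r : ℝ}
    {W : Set X.M} (hD : ∀ x, b.eD c x = ∑ i, b.F.D i g x • b.m.ρ i x (c.Φ x))
    (hE : ∀ x, ‖b.eC c x‖ ≤ R) (hζ : Sm X.I ζ) (hA : b.F.CB 2 ζ A) (hK : HasCompactSupport ζ)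
    (h01 : ∀ x, ζ x ∈ Icc (0 : ℝ) 1) (cξ : Continuous ξ) (kξ : HasCompactSupport ξ)
    (ξ01 : ∀ x, ξ x ∈ Icc (0 : ℝ) 1) (hG : ∀ x, ζ x ≠ 0 → ξ x = 1 ∧ |g x| ≤ G)
    (hW : ∀ x, ξ x ≠ 0 → x ∈ W) (hL : ∫⁻ x in W, ‖c.Φ x‖ₑ ^ 2 ∂b.F.μ ≤ ENNReal.ofReal L)
    {x₀ : X.M} (h1 : ζ x₀ = 1) (g0 : g x₀ = 0) (r0 : 0 < r) (hr : ∀ x, ‖c.Φ x‖ ≤ r ^ 2) :
    ‖c.Φ x₀‖ ^ 2 ≤ kQ (Fintype.card (Option κ)) C A G R L * r ^ 3 := by
  have := Sob92.openPos b.F.toPre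
  have sE : Sm X.I fun x => Real.exp (-g x) := Real.contDiff_exp.contMDiff.comp hg.neg
  set ψ : X.M → Eu ν := fun x => Real.exp (-g x) • c.Φ x with hψ
  have sψ : Sm X.I ψ := sE.smul hc.sΦ
  have e0 : ∀ x, dir X.I b.F.e b.m.ρ (b.W c) ψ x + b.ms x (ψ x) = 0 := fun x => by
    have d : ∀ i, b.F.D i (fun x => Real.exp (-g x)) x = -Real.exp (-g x) * b.F.D i g x := fun i =>
      D_fn b.F.toPre (φ := fun s => Real.exp (-s)) (by simpa using (hasDerivAt_neg (g x)).exp)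
        (hg x) i
    rw [hψ, dir_smul b.F.toPre _ _ (sE x) (hc.sΦ x), map_smul, add_assoc, ← smul_add]
    change _ + _ • b.eD c x = 0
    simp only [d, hD, Finset.smul_sum, ← Finset.sum_add_distrib, smul_smul, ← add_smul, neg_mul,
      neg_add_cancel, zero_smul, Finset.sum_const_zero]
  have n1 : ∀ x, ‖ψ x‖ ^ 2 = Real.exp (-g x) ^ 2 * ‖c.Φ x‖ ^ 2 := fun x => by
    rw [hψ, norm_smul, mul_pow, Real.norm_eq_abs, sq_abs]
  set n : ℝ := (Fintype.card (Option κ) : ℝ) with hn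
  set Λ := 2 * (R + C 0) + (kS n (C 2) / 2 + n * (2 * C 0 + C 0 ^ 2)) with hΛ
  have h3 : ∀ x, 2 * ‖b.eC c x + b.om x‖ + (|sc b x| / 2 + n * (2 * C 0 + C 0 ^ 2)) ≤ Λ :=
    fun x => by
      linarith [(norm_add_le _ _).trans (add_le_add (hE x) (hC.om x)), scal_le hC.tame x]
  have k0 := (norm_nonneg _).trans (hC.ms x₀)
  have L0 : 0 ≤ Λ := le_trans (by positivity) (h3 x₀)
  have hN := Lop_cb hC.tame hA
  have N0 := le_trans (by positivity) (hN x₀)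
  set q := kq n C A G R with hq'
  have q0 : 0 < q := by rw [hq', kq, ← hΛ]; positivity
  have sΦ : Sm X.I fun y => ‖c.Φ y‖ ^ 2 := (contDiff_norm_sq ℝ).contMDiff.comp hc.sΦ
  have sw := (hζ.mul hζ).mul ((contDiff_norm_sq ℝ).contMDiff.comp sψ)
  have c1 : Continuous fun x => ξ x * ‖c.Φ x‖ ^ 2 := cξ.mul sΦ.continuous
  have cσ := continuous_const (y := q).mul c1
  have hσ : HasCompactSupport fun x => ξ x * ‖c.Φ x‖ ^ 2 := kξ.mul_right
  have a0 : ∀ x, 0 ≤ ξ x * ‖c.Φ x‖ ^ 2 := fun x => mul_nonneg (ξ01 x).1 (sq_nonneg _)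
  have U : Mp86.Sub b.F (fun y => ζ y * ζ y * ‖ψ y‖ ^ 2) fun y => q * (ξ y * ‖c.Φ y‖ ^ 2) := by
    refine ⟨sw, fun s hs => hK.isCompact.of_isClosed_subset
      (isClosed_le continuous_const sw.continuous) fun x hx => subset_tsupport _ fun h => ?_,
      fun x => Psc68.sub_cut hb hc sψ hζ (h01 x) L0 (hN x) (mul_nonneg q0.le (a0 x))
        fun h => ⟨?_, ?_⟩, cσ⟩
    · simp only [mem_ofPred_eq, h, zero_mul] at hx
      linarith
    · refine le_trans ?_ (Psc68.boch2 hb hc (sψ x) (.of_forall fun y => by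
        rw [hψ, map_smul, p_of hb (hc.pΦ y)]) (.of_forall e0) (hC.ms x) fun i => hC.dms i x)
      have a1 := mul_le_mul_of_nonneg_left (inner_fc_qd_ge hb (hc.pΦ x))
        (sq_nonneg (Real.exp (-g x)))
      have a2 := mul_le_mul_of_nonneg_right (h3 x) (sq_nonneg ‖ψ x‖)
      have a3 : 0 ≤ Real.exp (-g x) ^ 2 * (b.w * ‖c.Φ x‖ ^ 4) :=
        mul_nonneg (sq_nonneg _) (mul_nonneg hb.w (by positivity))
      rw [show b.qd x (ψ x) (ψ x) = _ from qd_smul _ _ _ _, real_inner_smul_right, ← sq]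
      rw [n1] at a2 ⊢
      nlinarith
    · rw [(hG x h).1, one_mul, n1, hq', kq, ← hΛ, mul_assoc]
      gcongr
      rw [← Real.exp_nat_mul, Real.exp_le_exp]
      push_cast; linarith [neg_abs_le (g x), (hG x h).2]
  have i1 : Integrable (fun x => ξ x * ‖c.Φ x‖ ^ 2) b.F.μ := c1.integrable_of_hasCompactSupport hσ
  have i2 : Integrable (fun x => (q * (ξ x * ‖c.Φ x‖ ^ 2)) ^ 4) b.F.μ :=
    Mp86.integ_pow (F := b.F) cσ hσ.mul_left four_ne_zero
  have i3 : ∫ x, ξ x * ‖c.Φ x‖ ^ 2 ∂b.F.μ ≤ |L| := by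
    rw [← ENNReal.ofReal_le_ofReal_iff (abs_nonneg L),
      ofReal_integral_eq_lintegral_ofReal i1 (.of_forall a0)]
    refine ((lintegral_mono fun x => ?_).trans (lintegral_indicator_le _ W)).trans
      (hL.trans (ENNReal.ofReal_le_ofReal (le_abs_self L)))
    by_cases h : ξ x = 0
    · simp [h]
    · rw [indicator_of_mem (hW x h), ← ofReal_norm, ← ENNReal.ofReal_pow (norm_nonneg _)]
      exact ENNReal.ofReal_le_ofReal (mul_le_of_le_one_left (sq_nonneg _) (ξ01 x).2)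
  have := U.en.sup_le ((Mp86.l4_of_tame hC.tame).mono (S' := |C 0| + 1)
    (by linarith [le_abs_self (C 0)])) (by positivity) (β := q * (|L| + 1) * r ^ 3) (by positivity)
    i2 ((integral_mono i2 (i1.const_mul (q ^ 4 * r ^ 12)) fun x => ?_).trans ?_) x₀
  · rw [h1, n1, g0] at this
    simpa [kQ, mul_assoc, hq'] using this
  · have a1 : ξ x * ‖c.Φ x‖ ^ 2 ≤ r ^ 4 := (mul_le_of_le_one_left (sq_nonneg _) (ξ01 x).2).trans
      ((pow_le_pow_left₀ (norm_nonneg _) (hr x) 2).trans_eq (by ring))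
    have a2 := mul_le_mul_of_nonneg_right (pow_le_pow_left₀ (a0 x) a1 3) (a0 x)
    beta_reduce
    nlinarith [mul_le_mul_of_nonneg_left a2 (pow_pos q0 4).le]
  · rw [integral_const_mul]
    have l1 : |L| ≤ (|L| + 1) ^ 4 := (le_add_of_nonneg_right zero_le_one).trans
      (le_self_pow₀ (le_add_of_nonneg_left (abs_nonneg L)) four_ne_zero)
    exact (mul_le_mul_of_nonneg_left (i3.trans l1) (by positivity)).trans_eq (by ring)

theorem boot {α : Type} {f : α → ℝ} {B K : ℝ} (hB : ∀ x, f x ≤ B)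
    (hs : ∀ r > 0, (∀ x, f x ≤ r ^ 2) → ∀ x, f x ^ 2 ≤ K * r ^ 3) (x : α) : f x ≤ K ^ 2 := by
  have : Nonempty α := ⟨x⟩
  have bd : BddAbove (range f) := ⟨B, forall_mem_range.2 hB⟩
  have le := le_ciSup bd
  set M := ⨆ x, f x
  refine (le x).trans (le_of_not_gt fun h => ?_)
  have M0 : 0 < M := (sq_nonneg _).trans_lt h
  have r0 := Real.sqrt_pos.2 M0
  have r2 := Real.sq_sqrt M0.le
  have s := hs _ r0 fun x => (le x).trans_eq r2.symm
  have a1 : M ≤ √(K * √M ^ 3) := ciSup_le fun y => Real.le_sqrt_of_sq_le (s y)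
  have a2 := (Real.le_sqrt M0.le ((sq_nonneg _).trans (s x))).1 a1
  have a3 : √M ≤ K := le_of_mul_le_mul_right (by nlinarith) (pow_pos r0 3)
  nlinarith

theorem prod_icc {N : Type} [Fintype N] {a : ℝ} {f : N → ℝ} (ha : 0 ≤ a ∧ a ≤ 1)
    (hf : ∀ i, f i ∈ Icc (0 : ℝ) 1) : a * ∏ i, f i ∈ Icc (0 : ℝ) 1 := by
  have q0 := Finset.prod_nonneg fun i (_ : i ∈ Finset.univ) => (hf i).1
  exact ⟨mul_nonneg ha.1 q0, mul_le_one₀ ha.2 q0
    (Finset.prod_le_one (fun i _ => (hf i).1) fun i _ => (hf i).2)⟩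

/-- **RAD-SUP** -/
theorem sup : Rtw9.SupStmt κ lam ν := fun N _ e C B R L => by
  have hA : ∀ i, ∃ A, 0 ≤ A ∧ ∀ w b S ψ, ((e i).re w b S ψ).OK →
      ∀ r y, ‖deriv (e i).f r • (e i).ζ y‖ ≤ A := fun i => by
    by_cases h : ∃ w b S ψ, ((e i).re w b S ψ).OK
    · obtain ⟨w, b, S, ψ, h⟩ := h
      exact (hl_le ((e i).re w b S ψ)).imp fun A k => ⟨k.1, fun _ _ _ _ _ => k.2 h⟩
    · exact ⟨0, le_rfl, fun w b S ψ k => absurd ⟨w, b, S, ψ, k⟩ h⟩
  choose A A0 hA using hA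
  choose T hT using fun i => Nd18.cbs_Dτ (e i).D
  obtain ⟨S, hS⟩ := Nd18.bd_ct
  obtain ⟨K₀, hK₀⟩ := crude N e C B R
  refine ⟨kQ (Fintype.card (Option κ)) C (kA C (1 + ∑ i, |cF (T i) 2 S|) (Fintype.card N))
    (∑ _ : N, |B|) (∑ i, A i + R) L ^ 2, fun w hw β S' ψ hB X nc P hP hC e' c hc hE hL =>
    boot (B := K₀ / √w) (fun x => (le_div_iff₀' (Real.sqrt_pos.2 hw)).2
      (hK₀ w hw β S' ψ hB X nc P hP hC e' c hc hE x)) fun r r0 hr x₀ => ?_⟩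
  let g : N → X.M → ℝ := fun i x => (P.nk i).elim 0 fun K => γ K c (K.τ x) - γ K c (K.τ x₀)
  let φ : ℝ → N → X.M → ℝ := fun ρ i x => (P.nk i).elim 1 fun K => bu (K.τ x₀) ρ (K.τ x)
  have kφ : ∀ ρ i, Sm X.I (φ ρ i) ∧ P.bg.F.CB 2 (φ ρ i) (1 + ∑ i, |cF (T i) 2 S|) ∧
      ∀ x, φ ρ i x ∈ Icc (0 : ℝ) 1 := fun ρ i => by
    simp only [φ]
    rcases P.nk i with _ | K
    · exact ⟨contMDiff_const, cb_one _ _, fun _ => by simp⟩
    exact ⟨Nd18.contDiff_ct.contMDiff.comp K.sm_τ, CB_mono (CB_fn K.sm_τ (hT i K.toNk) 2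
      (hS _ _ _)) (cF_le (fun i => cF (T i) 2 S) i), fun _ => Nd18.ct_mem⟩
  have k : ∀ i, Sm X.I (g i) ∧ g i x₀ = 0 ∧ φ 1 i x₀ = 1 ∧
      (∀ x, φ 1 i x ≠ 0 → φ (1 + 1) i x = 1 ∧ |g i x| ≤ |B|) ∧
      (∀ x, φ (1 + 1) i x ≠ 0 → ∀ K ∈ P.nk i, |K.τ x - K.τ x₀| ≤ 2) ∧
      ∀ x, ((P.nk i).elim 0 fun K => K.rad c x) =
        ∑ a, P.bg.F.D a (g i) x • P.bg.m.ρ a x (c.Φ x) := fun i => by
    simp only [g, φ]
    rcases P.nk i with _ | K
    · exact ⟨contMDiff_const, rfl, rfl, fun _ _ => by simp, fun _ _ => by simp,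
        fun x => by simp [Pre.D_def, dv_const]⟩
    have s1 := sm_γτ K (hP.en i) hc.sΦ
    refine ⟨s1.sub contMDiff_const, sub_self _, by
      simpa using bu_one (t := K.τ x₀) (r := 0) (s := K.τ x₀) (by simp), fun x hx => ⟨bu_one
      (bu_ne hx), ?_⟩, fun x hx K' hK' => ?_, fun x => ?_⟩
    · have m := bu_ne hx
      refine (γ_lip K (hP.en i) hc.sΦ (fun r _ => (hB i r).trans (le_abs_self _)) _
        _).trans (mul_le_of_le_one_right (abs_nonneg _) (abs_le.2 ⟨by linarith [m.1], by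
          linarith [m.2]⟩))
    · obtain rfl : K = K' := Option.some.inj hK'
      have m := bu_ne hx
      exact abs_le.2 ⟨by linarith [m.1], by linarith [m.2]⟩
    · refine (rad_eq K (hP.en i) hc.sΦ x).trans (Finset.sum_congr rfl fun a _ => ?_)
      simp only [Option.elim, Pre.D_def]
      rw [dv_sub' (s1 x) contMDiffAt_const, dv_const, Pi.zero_apply, sub_zero]
  obtain ⟨χ, c1, c2, c3, c4⟩ := hC.tame.exh {x₀} isCompact_singleton
  obtain ⟨χ', d1, d2, d3, d4⟩ := hC.tame.exh _ c2.isCompact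
  have p := fun ρ => Cht98.CB_prod (fun i => (kφ ρ i).1) (fun i => (kφ ρ i).2.1) Finset.univ
  refine dg_step hP.bg hC hc (g := fun x => ∑ i, g i x) (ζ := fun x => χ x * ∏ i, φ 1 i x)
    (ξ := fun x => χ' x * ∏ i, φ (1 + 1) i x) (contMDiff_finsetSum fun i _ => (k i).1)
    (fun x => ?_) (fun x => ?_) (c1.1.mul (p 1).1) (Cht98.CB_mul c1.1 (p 1).1 (c1.2 2) (p 1).2)
    c2.mul_right (fun x => prod_icc (c3 x) fun i => (kφ 1 i).2.2 x)
    (d1.1.mul (p _).1).continuous d2.mul_right (fun x => prod_icc (d3 x) fun i => (kφ _ i).2.2 x)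
    (fun x hx => ?_) (fun x hx i => (k i).2.2.2.2.1 x (Finset.prod_ne_zero_iff.1
      (right_ne_zero_of_mul hx) i (Finset.mem_univ i))) (hL x₀) ?_ ?_ r0 hr
  · rw [(hE x).1]
    change ∑ i, _ = _
    simp only [(k _).2.2.2.2.2, Pre.D_def]
    rw [Finset.sum_comm]
    exact Finset.sum_congr rfl fun a _ => by
      rw [← Finset.sum_smul, dv_sum' _ fun i => (k i).1 x]
  · rw [← add_sub_cancel (P.p0.C c x) (P.bg.eC c x)]
    refine (norm_add_le _ _).trans (add_le_add ((norm_sum_le _ _).trans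
      (Finset.sum_le_sum fun i _ => ?_)) (hE x).2)
    rcases P.nk i with _ | K
    · simpa using A0 i
    · exact norm_hl K c x (hA i _ _ _ _ (hP.en i))
  · have m := fun i => (k i).2.2.2.1 x (Finset.prod_ne_zero_iff.1 (right_ne_zero_of_mul hx) i
      (Finset.mem_univ i))
    exact ⟨by rw [d4 x (subset_tsupport _ (left_ne_zero_of_mul hx)), one_mul,
      Finset.prod_eq_one fun i _ => (m i).1],
      (Finset.abs_sum_le_sum_abs _ _).trans (Finset.sum_le_sum fun i _ => (m i).2)⟩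
  · simp [c4 x₀ rfl, (k _).2.2.1]
  · simp [(k _).2.1]

end Crest.Agent.X212.Rad94
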