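import Crest.Agent.X212.Nk89.Gwa

/-!
# Row 212, GL-WALL-PSC (helper94): the lower bound when symmetries exhaust the kernel
-/

set_option autoImplicit false
set_option linter.unusedSectionVars false
noncomputable section
open scoped Topology InnerProductSpace
open Set Function Filter

namespace Crest.Agent.X212.Rad94
open An Fred93 Sym93 Slc61 Ker54 Nk89

variable {C Y H H' T Z : Type} [NormedAddCommGroup C] [NormedSpace ℝ C] [CompleteSpace C]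
  [NormedAddCommGroup Y] [NormedSpace ℝ Y] [CompleteSpace Y] [NormedAddCommGroup H]
  [NormedSpace ℝ H] [CompleteSpace H] [NormedAddCommGroup T] [NormedSpace ℝ T]
  [NormedAddCommGroup H'] [NormedSpace ℝ H'] [NormedAddCommGroup Z] [NormedSpace ℝ Z]

/-- rows that are bounded below on the kernel -/
theorem low_of {F : C → Y} {A : C →L[ℝ] Y} {B : C →L[ℝ] H'} {τ : C →L[ℝ] T} {x₀ : C}
    (hF : HasFDerivAt F A x₀) (h0 : F x₀ = 0) (hs : Surjective A) {c₀ : ℝ} (c0 : 0 ≤ c₀)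
    (hk : ∀ u, A u = 0 → τ u = 0 ∧ ‖u‖ ≤ c₀ * ‖B u‖) : ∀ c ≥ (0 : ℝ), ∃ K ≥ (0 : ℝ),
      ∀ᶠ v in 𝓝 x₀, ∀ β ≥ (0 : ℝ),
        ‖B (v - x₀)‖ ≤ β + c * ‖τ (v - x₀)‖ → ‖v - x₀‖ ≤ K * (‖F v‖ + β) := fun c hc => by
  obtain ⟨G, G0, hG⟩ := A.exists_preimage_norm_le hs
  set K := G + c₀ * (1 + ‖B‖ * G) with hK
  have K0 : 0 ≤ K := by positivity
  have h12 : ∀ u, ‖u‖ ≤ K * (‖A u‖ + ‖B u‖) ∧ ‖τ u‖ ≤ ‖τ‖ * (K * ‖A u‖) := fun u => by
    obtain ⟨u', e, a⟩ := hG (A u)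
    obtain ⟨a1, a2⟩ := hk (u - u') (by rw [map_sub, e, sub_self])
    have a3 : ‖B (u - u')‖ ≤ ‖B u‖ + ‖B‖ * (G * ‖A u‖) := by
      rw [map_sub]
      exact (norm_sub_le _ _).trans (add_le_add_right ((B.le_opNorm _).trans
        (mul_le_mul_of_nonneg_left a (norm_nonneg _))) _)
    have p1 := norm_nonneg (A u)
    have p2 := norm_nonneg (B u)
    have p3 : 0 ≤ c₀ * (‖B‖ * G) := by positivity
    refine ⟨?_, ?_⟩
    · have := norm_le_norm_sub_add u u'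
      rw [hK]
      nlinarith [mul_le_mul_of_nonneg_left a3 c0, mul_nonneg c0 p1, mul_nonneg p3 p2,
        mul_nonneg G0.le p2]
    · rw [map_sub, sub_eq_zero] at a1
      rw [a1]
      refine (τ.le_opNorm _).trans (mul_le_mul_of_nonneg_left (a.trans
        (mul_le_mul_of_nonneg_right ?_ p1)) (norm_nonneg _))
      exact le_add_of_nonneg_right (by positivity)
  clear_value K
  set L := K * (1 + c * (‖τ‖ * K)) + 1
  have L1 : 0 < L := by positivity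
  refine ⟨2 * L, by positivity, (hF.isLittleO.def (c := 1 / (2 * L)) (by positivity)).mono
    fun v hv β hβ hb => ?_⟩
  rw [h0, sub_zero] at hv
  set u := v - x₀
  have a1 : ‖A u‖ ≤ ‖F v‖ + 1 / (2 * L) * ‖u‖ :=
    (norm_le_insert' _ (F v)).trans (by rw [norm_sub_rev]; gcongr)
  have a2 : ‖u‖ ≤ L * (‖A u‖ + β) := by
    have := mul_le_mul_of_nonneg_left (h12 u).2 hc
    have t : 0 ≤ c * (‖τ‖ * K) := by positivity
    nlinarith [(h12 u).1, mul_le_mul_of_nonneg_left (hb.trans (add_le_add_right this β)) K0,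
      norm_nonneg (A u), mul_nonneg (mul_nonneg K0 t) hβ]
  have a3 : L * (1 / (2 * L) * ‖u‖) = ‖u‖ / 2 := by field_simp
  nlinarith [mul_le_mul_of_nonneg_left a1 L1.le]

variable {L K h : Type} [NormedAddCommGroup L] [NormedSpace ℝ L] [CompleteSpace L]
  [NormedAddCommGroup K] [NormedSpace ℝ K] [FiniteDimensional ℝ K] [Fintype h] {V : h → Type}
  [∀ i, NormedAddCommGroup (V i)] [∀ i, InnerProductSpace ℝ (V i)] [∀ i, CompleteSpace (V i)]
  {J : ∀ i, V i →L[ℝ] V i} (hJ : ∀ i v, J i (J i v) = -v) {x₀ : C} {ψ : ∀ i, V i}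
  (hψ : ∀ i, ψ i ≠ 0) {d : L →L[ℝ] C} {σ : C →L[ℝ] H} (hb : Bijective (σ.comp d))
  {S : (L × K) × C → C} {P : K →L[ℝ] C}
  (hS : HasStrictFDerivAt S ((d.coprod P).coprod (.id ℝ C)) (0, x₀)) (h0 : S (0, x₀) = x₀)
  {ρ : ∀ i, L × K → V i →L[ℝ] V i} (hρ : ∀ i, ∃ ρ', HasStrictFDerivAt (𝕜 := ℝ) (ρ i) ρ' 0)
  (ρ0 : ∀ i v, ρ i 0 v = v) (hi : ∀ s ξ, P s = d ξ → s = 0) {f : C → Y}
  {A : ∀ i, C → V i →L[ℝ] V i} (c1 : DifferentiableAt ℝ f x₀)
  (c3 : ∀ i, DifferentiableAt ℝ (A i) x₀)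
  (h1 : Fr ((fderiv ℝ f x₀).prod σ) (Module.finrank ℝ K + 2 * Fintype.card h))
  (h2 : ∀ i, Fr (A i x₀) 0) (hr : Surjective (fderiv ℝ (bigF f A) (x₀, ψ)))
  (hz : ∀ a, bigF f A (bigS J S ρ (a, x₀, ψ)) = 0)
include hJ hψ hb hS h0 hρ ρ0 hi c1 c3 h1 h2 hr hz

/-- **KER**: the kernel consists of gauge directions, symmetries and phases -/
theorem ker_abs : bigF f A (x₀, ψ) = 0 ∧ ∃ Λ : L × K × (h → ℝ) →L[ℝ] C × ∀ i, V i,
    (∀ p, (Λ p).1 = d p.1 + P p.2.1) ∧ (∀ θ i, (Λ (0, 0, θ)).2 i = θ i • J i (ψ i)) ∧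
    ∀ v, fderiv ℝ (bigF f A) (x₀, ψ) v = 0 ↔ v ∈ range Λ := by
  choose r hr' using hρ
  let d' : L →L[ℝ] C × ∀ i, V i :=
    d.prod (ContinuousLinearMap.pi fun i => (r i).flip (ψ i) ∘L .inl ℝ _ _)
  let P' : K × (h → ℝ) →L[ℝ] C × ∀ i, V i := (P ∘L .fst ℝ _ _).prod
    (ContinuousLinearMap.pi fun i => (r i).flip (ψ i) ∘L .inr ℝ _ _ ∘L .fst ℝ _ _ +
      (ContinuousLinearMap.proj i ∘L .snd ℝ _ (h → ℝ)).smulRight (J i (ψ i)))
  have hd : ∀ ξ, d' ξ = (d ξ, fun i => r i (ξ, 0) (ψ i)) := fun _ => rfl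
  have hP : ∀ s, P' s = (P s.1, fun i => r i (0, s.1) (ψ i) + s.2 i • J i (ψ i)) := fun _ => rfl
  let z₀ : (L × K × (h → ℝ)) × C × ∀ i, V i := (0, x₀, ψ)
  let p0 : (L × K × (h → ℝ)) × C × (∀ i, V i) →L[ℝ] L × K :=
    (ContinuousLinearMap.id ℝ L).prodMap (.fst ℝ K _) ∘L .fst ℝ _ _
  have hS' : HasStrictFDerivAt (bigS J S ρ) ((d'.coprod P').coprod (.id ℝ _)) z₀ := by
    have b1 := HasStrictFDerivAt.comp (g := S) z₀ hS
      (p0.prod (.fst ℝ C _ ∘L .snd ℝ _ _)).hasStrictFDerivAt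
    have b2 : ∀ i, HasStrictFDerivAt (fun z => (bigS J S ρ z).2 i)
        (ContinuousLinearMap.proj i ∘L .snd ℝ _ _ ∘L (d'.coprod P').coprod (.id ℝ _)) z₀ :=
      fun i => by
      have a1 : HasStrictDerivAt (fun s : ℝ => (Circle.exp s : ℂ)) Complex.I 0 := by
        have := ((Complex.ofRealCLM.hasStrictFDerivAt (x := (0 : ℝ))).hasStrictDerivAt.mul_const
          Complex.I).cexp
        simpa [Circle.coe_exp] using this
      have a2 := HasStrictFDerivAt.comp (g := fun s : ℝ => (Circle.exp s : ℂ)) z₀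
        a1.hasStrictFDerivAt (ContinuousLinearMap.proj (R := ℝ) (φ := fun _ : h => ℝ) i ∘L
          .snd ℝ K _ ∘L .snd ℝ L _ ∘L .fst ℝ _ (C × ∀ i, V i)).hasStrictFDerivAt
      have a3 := (phzL (J i)).hasStrictFDerivAt.comp z₀ a2
      have a4 := HasStrictFDerivAt.comp (g := ρ i) z₀ (hr' i) p0.hasStrictFDerivAt
      have a5 := (ContinuousLinearMap.proj (R := ℝ) (φ := V) i ∘L .snd ℝ C _ ∘L
        .snd ℝ (L × K × (h → ℝ)) _).hasStrictFDerivAt (x := z₀)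
      refine (a3.clm_apply (a4.clm_apply a5)).congr_fderiv (ContinuousLinearMap.ext fun u => ?_)
      have e : r i (u.1.1, u.1.2.1) = r i (u.1.1, 0) + r i (0, u.1.2.1) := by
        rw [← map_add, Prod.mk_add_mk, add_zero, zero_add]
      have e0 : ∀ v, ρ i (0, 0) v = v := ρ0 i
      simp [z₀, p0, hd, hP, phzL_apply, phz_apply, e0, Prod.map, e]
      abel
    refine (b1.prodMk (hasStrictFDerivAt_pi'' (Φ' := .snd ℝ _ _ ∘L (d'.coprod P').coprod (.id ℝ _))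
      b2)).congr_fderiv (ContinuousLinearMap.ext fun u => Prod.ext ?_ rfl)
    rfl
  have h0' : bigS J S ρ z₀ = (x₀, ψ) := Prod.ext h0 (funext fun i => by
    show phz (J i) (Circle.exp 0) (ρ i 0 (ψ i)) = _
    rw [ρ0, Circle.exp_zero, Circle.coe_one, phz_one]; rfl)
  obtain ⟨B, hB⟩ := hasF (v := (x₀, ψ)) c1 c3
  have h4 := comp_zero hS' h0' hB.differentiableAt.hasFDerivAt hz
  obtain ⟨-, h6⟩ := lin_le (d := d') (σ := σ ∘L .fst ℝ _ _) hb hr (fr_bigF (v := (x₀, ψ))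
    c1 c3 h1 h2) h4 fun s ξ e => by
      have e1 := hi s.1 ξ (congrArg Prod.fst e)
      have e2 : ξ = 0 := hb.1 (by
        rw [map_zero, ContinuousLinearMap.comp_apply, ← show P s.1 = d ξ from congrArg Prod.fst e,
          e1, map_zero, map_zero])
      refine Prod.ext e1 (funext fun i => ?_)
      have e3 : r i (0, s.1) (ψ i) + s.2 i • J i (ψ i) = r i (ξ, 0) (ψ i) :=
        congrFun (congrArg Prod.snd e) i
      rw [e1, e2, add_eq_left, smul_eq_zero] at e3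
      refine e3.resolve_right fun k => hψ i ?_
      rw [← neg_eq_zero, ← hJ, k, map_zero]
  rw [Module.finrank_prod, Module.finrank_fintype_fun_eq_card, Nat.cast_add] at h6
  refine ⟨h0' ▸ hz 0, d'.coprod P', fun _ => rfl, fun θ i => ?_, fun v =>
    ⟨(h6 (by ring)).2 v, fun ⟨p, e⟩ => e ▸ h4 p⟩⟩
  show r i (0, 0) (ψ i) + (r i (0, 0) (ψ i) + θ i • J i (ψ i)) = _
  rw [show r i (0, 0) = 0 from map_zero _, _root_.zero_apply, zero_add, zero_add]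

/-- **the lower bound** from KER, injectivity of the rows on the symmetries and an estimate modulo
a compact operator on the kernel -/
theorem low_ker {B : C →L[ℝ] H'} {τ : C →L[ℝ] T} (hτ : ∀ ξ s, τ (d ξ + P s) = 0)
    (inj : ∀ ξ s, B (d ξ + P s) = 0 → d ξ + P s = 0) {Q : C →L[ℝ] Z} (hQ : IsCompactOperator Q)
    {G : ℝ} (est : ∀ v, fderiv ℝ f x₀ v = 0 → ‖v‖ ≤ G * (‖B v‖ + ‖Q v‖)) :
    ∀ c ≥ (0 : ℝ), ∃ K ≥ (0 : ℝ), ∀ᶠ v in 𝓝 (x₀, ψ), ∀ β ≥ (0 : ℝ),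
      ‖((B ∘L .fst ℝ _ _).prod (phR fun i => J i (ψ i))) (v - (x₀, ψ))‖ ≤
        β + c * ‖(τ ∘L .fst ℝ _ _) (v - (x₀, ψ))‖ → ‖v - (x₀, ψ)‖ ≤ K * (‖bigF f A v‖ + β) := by
  obtain ⟨z, Λ, l1, l2, l3⟩ := ker_abs hJ hψ hb hS h0 hρ ρ0 hi c1 c3 h1 h2 hr hz
  obtain ⟨D, hD⟩ := hasF (v := (x₀, ψ)) c1 c3
  let R := (B ∘L .fst ℝ _ _).prod (phR (C := C) fun i => J i (ψ i))
  let e := ContinuousLinearEquiv.ofBijective (σ.comp d) (LinearMap.ker_eq_bot.2 hb.1)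
    (LinearMap.range_eq_top.2 hb.2)
  set a := ‖(e.symm : H →L[ℝ] L) ∘L σ‖
  have a0 : 0 ≤ a := norm_nonneg _
  have e1 : ∀ ξ, ‖ξ‖ ≤ a * ‖d ξ‖ := fun ξ => by
    have := ((e.symm : H →L[ℝ] L) ∘L σ).le_opNorm (d ξ)
    rwa [show ((e.symm : H →L[ℝ] L) ∘L σ) (d ξ) = ξ from e.symm_apply_apply ξ] at this
  clear_value a
  have he : Est (R ∘L Λ) ((Q ∘L .fst ℝ _ _ ∘L Λ).prod (.snd ℝ _ _)) (a * (|G| + ‖P‖) + 1) :=
    fun p => by
    have b0 : fderiv ℝ f x₀ (Λ p).1 = 0 := by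
      have := (l3 _).2 ⟨p, rfl⟩
      rw [hD.fderiv] at this
      exact congrArg Prod.fst this
    set u := ‖(R ∘L Λ) p‖
    set w := ‖((Q ∘L .fst ℝ _ _ ∘L Λ).prod (.snd ℝ _ _)) p‖
    have u0 : 0 ≤ u := norm_nonneg _
    have w0 : 0 ≤ w := norm_nonneg _
    have b1 : ‖(Λ p).1‖ ≤ |G| * (u + w) := ((est _ b0).trans (mul_le_mul_of_nonneg_right
      (le_abs_self G) (by positivity))).trans (mul_le_mul_of_nonneg_left
        (add_le_add (norm_fst_le ((R ∘L Λ) p)) (norm_fst_le (((Q ∘L .fst ℝ _ _ ∘L Λ).prod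
          (.snd ℝ _ _)) p))) (abs_nonneg G))
    have b2 : ‖p.2‖ ≤ w := norm_snd_le (((Q ∘L .fst ℝ _ _ ∘L Λ).prod (.snd ℝ _ _)) p)
    have b3 : ‖d p.1‖ ≤ |G| * (u + w) + ‖P‖ * w := by
      rw [eq_sub_of_add_eq (l1 p).symm]
      exact (norm_sub_le _ _).trans (add_le_add b1 ((P.le_opNorm _).trans
        (mul_le_mul_of_nonneg_left ((norm_fst_le _).trans b2) (norm_nonneg _))))
    have b4 := (e1 p.1).trans (mul_le_mul_of_nonneg_left b3 a0)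
    have b5 : 0 ≤ a * ‖P‖ * u := by positivity
    have b6 : 0 ≤ a * (|G| + ‖P‖) * (u + w) := by positivity
    exact max_le (by nlinarith) (by nlinarith)
  have := FiniteDimensional.proper_real (K × (h → ℝ))
  have hc : IsCompactOperator ((Q ∘L .fst ℝ _ _ ∘L Λ).prod (.snd ℝ L (K × (h → ℝ)))) := by
    have k1 := (hQ.comp_clm (.fst ℝ C (∀ i, V i) ∘L Λ)).clm_comp (.inl ℝ Z (K × (h → ℝ)))
    have k2 := (isCompactOperator_of_locallyCompactSpace_dom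
      (ContinuousLinearMap.snd ℝ L (K × (h → ℝ)))).clm_comp (.inr ℝ Z (K × (h → ℝ)))
    refine Eq.mp (congrArg IsCompactOperator (funext fun p => ?_)) (k1.add k2)
    exact Prod.ext (by simp) (by simp)
  obtain ⟨c₀, c0, hc₀⟩ := he.bound_of_inj hc ((injective_iff_map_eq_zero _).2 fun ⟨ξ, s, θ⟩ k => by
    have k1 := inj ξ s (l1 (ξ, s, θ) ▸ congrArg Prod.fst k)
    obtain rfl := hi s (-ξ) (by rw [map_neg, eq_neg_iff_add_eq_zero, add_comm, k1])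
    rw [map_zero, add_zero] at k1
    obtain rfl : ξ = 0 := norm_le_zero_iff.1 (by simpa [k1] using e1 ξ)
    obtain rfl : θ = 0 := funext fun i => by
      have k2 : ⟪J i (ψ i), (Λ (0, 0, θ)).2 i⟫_ℝ = 0 := congrFun (congrArg Prod.snd k) i
      rw [l2, inner_smul_right, mul_eq_zero, inner_self_eq_zero] at k2
      refine k2.resolve_right fun k => hψ i ?_
      rw [← neg_eq_zero, ← hJ, k, map_zero]
    rfl)
  refine low_of hD.differentiableAt.hasFDerivAt z hr (mul_nonneg (norm_nonneg Λ) c0.le)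
    fun u hu => ?_
  obtain ⟨p, rfl⟩ := (l3 u).1 hu
  exact ⟨(congrArg τ (l1 p)).trans (hτ _ _), mul_assoc ‖Λ‖ _ _ ▸ (Λ.le_opNorm p).trans
    (mul_le_mul_of_nonneg_left (hc₀ p) (norm_nonneg _))⟩

end Crest.Agent.X212.Rad94
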