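import Crest.Agent.X212.Map77.IsA
import Crest.Agent.X212.Gb54.Ker

/-!
# Row 212, GL-WALL-PSC (helper94): INJ in the format
-/

set_option autoImplicit false
set_option linter.unusedSectionVars false
noncomputable section
open scoped Manifold ContDiff Topology InnerProductSpace
open MeasureTheory Set Function Filter

namespace Crest.Agent.X212.Rad94
open An An.Pre Sob92 Prm93 Mod61 Eqv71 Hol14 Cnt93 Ker54 Sym93 Map77 Nk89
open Fred93 (Fr)
open Grp76 (Nice hs_iff Pg_iff)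

variable {E : Type} [NormedAddCommGroup E] [NormedSpace ℝ E] [FiniteDimensional ℝ E]
  [MeasurableSpace E] [BorelSpace E]
  {HM : Type} [TopologicalSpace HM] {I : ModelWithCorners ℝ E HM} [I.Boundaryless]
  {M : Type} [TopologicalSpace M] [ChartedSpace HM M] [IsManifold I ∞ M]
  [MeasurableSpace M] [T2Space M] [BorelSpace M] [SecondCountableTopology M]
  {ι : Type} [Fintype ι]

section adj
variable {ι' V W : Type} [Fintype ι'] [NormedAddCommGroup V] [InnerProductSpace ℝ V]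
  [FiniteDimensional ℝ V] [NormedAddCommGroup W] [InnerProductSpace ℝ W] [FiniteDimensional ℝ W]
  {F : An.Fr I M ι'} {G : An.Fr I M ι} {A : Op M ι V W} {j k : ℕ}

theorem inner_val {S : ℝ} (hS : Sup F.toPre S) (hk : 4 ≤ k) (hj : 4 ≤ j) {p : M → V →L[ℝ] V}
    (x : F.H k p) (y : F.H j p) :
    Integrable (fun z => ⟪F.val k p x z, F.val j p y z⟫_ℝ) F.μ ∧
      ⟪F.incl k 0 p x, F.incl j 0 p y⟫_ℝ = ∫ z, ⟪F.val k p x z, F.val j p y z⟫_ℝ ∂F.μ := by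
  have e : (fun z => ⟪F.toL2 k p x z, F.toL2 j p y z⟫_ℝ) =ᵐ[F.μ]
      fun z => ⟪F.val k p x z, F.val j p y z⟫_ℝ := by
    filter_upwards [val_ae hS hk x, val_ae hS hj y] with z h1 h2
    rw [h1, h2]
  refine ⟨(L2.integrable_inner _ _).congr e, ?_⟩
  rw [← inner_toL2, L2.inner_def, toL2_incl (Nat.zero_le k), toL2_incl (Nat.zero_le j)]
  exact integral_congr_ae e

theorem adj_LH (h : Tw F G) (hμ : G.μ = F.μ) (hA : Nc F.toPre G.P A) (x : F.H (k + 1) A.p)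
    (y : F.H (j + 1) A.q) :
    ⟪F.incl k 0 A.q (LH F.toPre G.toPre k A.p A.q A x), F.incl (j + 1) 0 A.q y⟫_ℝ =
      ⟪F.incl (k + 1) 0 A.p x, F.incl j 0 A.p (LH F.toPre G.toPre j A.q A.p (A.adj G) y)⟫_ℝ := by
  obtain ⟨C, h1, h2⟩ := h.good hA
  have a : ∀ (x : F.H 1 A.p) (y : F.H 1 A.q),
      ⟪LH F.toPre G.toPre 0 A.p A.q A x, F.incl 1 0 A.q y⟫_ℝ =
        ⟪F.incl 1 0 A.p x, LH F.toPre G.toPre 0 A.q A.p (A.adj G) y⟫_ℝ := fun x y => by
    induction x, y using H_ind₂ with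
    | hP => exact isClosed_eq (by fun_prop) (by fun_prop)
    | h u w =>
      rw [RepT_toH (h.rep hA 0), incl_toH zero_le_one, incl_toH zero_le_one, inner_toH]
      refine Eq.trans ?_ ((congrArg (fun z => ⟪F.toH 0 A.p u, z⟫_ℝ)
        (RepT_toH (h.rep (h.nc_adj hA) 0) w)).trans (inner_toH _ _ _ _ _)).symm
      have := Ell97.adj_ip h2 u (Ell97.toT _ w)
      simp only [Pre.ip, hμ] at this ⊢
      exact this
  have b := a (F.incl (k + 1) 1 _ x) (F.incl (j + 1) 1 _ y)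
  rw [incl_incl (by omega) zero_le_one, incl_incl (by omega) zero_le_one,
    ← h.incl hA (Nat.zero_le k)] at b
  exact b.trans (congrArg _ (h.incl (h.nc_adj hA) (Nat.zero_le j) y).symm)

theorem pt_alg {κ : Type} [Fintype κ] [DecidableEq κ] {u v : Cf ι κ} {ζ : HS κ} {φ : ℝ}
    {c : ι → ℝ} (q1 : ∀ i, fa u i = φ • fa v i - (c i * φ) • ζ) (q2 : fp u = φ • fp v) :
    φ * ‖v‖ ^ 2 = ⟪u, v⟫_ℝ + ∑ i, c i * (φ * ⟪ζ, fa v i⟫_ℝ) := by
  have e : ⟪fa u, fa v⟫_ℝ = φ * ⟪fa v, fa v⟫_ℝ - ∑ i, c i * (φ * ⟪ζ, fa v i⟫_ℝ) := by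
    rw [PiLp.inner_apply, PiLp.inner_apply]
    simp only [q1, inner_sub_left, real_inner_smul_left, Finset.sum_sub_distrib,
      Finset.mul_sum, mul_assoc]
  rw [← real_inner_self_eq_norm_sq, inner2, inner2 u]
  rw [show ⟪s2 _ _ u, s2 _ _ v⟫_ℝ = φ * ⟪s2 _ _ v, s2 _ _ v⟫_ℝ from
    (congrArg (⟪·, fp v⟫_ℝ) q2).trans (real_inner_smul_left _ _ _)]
  linarith

end adj

variable {lam : Type} [Fintype lam]
  {T : Type} [NormedAddCommGroup T] [NormedSpace ℝ T] [FiniteDimensional ℝ T]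
  {𝔉 : Fam I M ι lam T} {o : Ref 𝔉} {r n m k : ℕ}

variable (k) in
/-- the Coulomb row with the drift `dr` vanishes on `v` -/
def Row0 (dr : ι → M → ℝ) (y : Pnt o r) (v : o.C r k) : Prop := ∀ x,
  𝔉.F0.val k _ (sig (Fs 𝔉) k y v) x +
    ∑ a, dr a x • o.Pg x (fa (𝔉.F0.val (k + 1) _ (sC o r k y.t v) x) a) = 0

/-- a weight for the drift `dr` at the parameter `t` -/
structure Wd (𝔉 : Fam I M ι lam T) (t : T) (dr : ι → M → ℝ) (φ : M → ℝ) : Prop where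
  cb : 𝔉.F0.Cb φ
  pos : ∀ x, 0 < φ x
  D : ∀ a x, (𝔉.G t).F.D a φ x = dr a x * φ x

variable (h : 𝔉.OK) (hk : 7 ≤ k)
include h hk

theorem val_sC (y : Pnt o r) (v : o.C r k) (x : M) :
    (∀ a, fa (𝔉.F0.val (k + 1) _ (sC o r k y.t v) x) a =
      ∑ b, 𝔉.S y.t x a b • 𝔉.F0.val _ _ v.1 x b) ∧
    fp (𝔉.F0.val (k + 1) _ (sC o r k y.t v) x) = 𝔉.F0.val _ _ v.2.1 x := by
  have e := val_SH h (by omega : 4 ≤ k + 1) y.ht (jC o r k v) x
  rw [val_jC h (by omega)] at e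
  refine ⟨fun a => (congrArg (fa · a) e).trans ?_, (congrArg fp e).trans ?_⟩
  · simp [SC]
  · simp [SC]

/-- **INJ**: the row with drift is injective on the directions of bounded gauge parameters -/
theorem inj_fmt {y : Pnt o r} {dr : ι → M → ℝ} {φ : M → ℝ} (w : Wd 𝔉 y.t dr φ) {ξ : M → o.m.A}
    (sm : Sm I ξ) (mem : ∀ x, o.Pg x (ξ x) = ξ x) (hξ : Nice 𝔉.F0.toPre fun x => φ x • ξ x)
    (η : 𝔉.F0.H (k + 2) o.Pg) {v : o.C r k} (a : In0 k y (ξ + 𝔉.F0.val _ _ η) 0 v)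
    (row : Row0 k dr y v) : v = 0 := by
  have S := h.sup
  have H := (adj_rem h).hy o y.ht
  have dζ : MDifferentiable I 𝓘(ℝ, o.m.A) (ξ + 𝔉.F0.val _ _ η) :=
    (sm.mdifferentiable (by simp)).add (md_val h (k := k + 1) (by omega) η)
  have mζ : ∀ x, o.Pg x ((ξ + 𝔉.F0.val _ _ η) x) = (ξ + 𝔉.F0.val _ _ η) x := fun x => by
    rw [Pi.add_apply, map_add, mem, val_proj S (by omega)]
  obtain ⟨U, hU⟩ : ∃ U : 𝔉.F0.H (k + 2) o.Pg, 𝔉.F0.val _ _ U =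
      fun x => φ x • (ξ + 𝔉.F0.val _ _ η) x := by
    obtain ⟨U, hU⟩ := (hs_iff h (p := o.Pg)).2 ⟨hξ, fun x => by rw [map_smul, mem]⟩ (k + 2) (by omega)
    refine ⟨U + smulH _ _ _ φ η, funext fun x => ?_⟩
    rw [val_add, Pi.add_apply, hU, val_smulH S (by omega) w.cb, Pi.add_apply, smul_add]
  generalize ξ + 𝔉.F0.val _ _ η = ζ at a dζ mζ hU
  have b := Gb54.in0_d h hk y U
  have e := DFunLike.congr_fun ((adj_rem h).sC_d (by omega) (Gb54.isD h hk y)) U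
  rw [ContinuousLinearMap.comp_apply] at e
  generalize (Gb54.gbM o h hk r).d (y.pt k) U = u at b e
  rw [hU] at b
  have key := adj_LH H.toTw rfl (H.nc_d0 (cb_uy h y)) (k := k + 1) (j := k) U (sC o r k y.t v)
  obtain ⟨i1, e1⟩ := inner_val S (by omega : 4 ≤ k + 1) (by omega : 4 ≤ k + 1) (sC o r k y.t u)
    (sC o r k y.t v)
  obtain ⟨i2, e2⟩ := inner_val S (by omega : 4 ≤ k + 2) (by omega : 4 ≤ k) U (sig (Fs 𝔉) k y v)
  have e3 := e1.symm.trans ((congrArg (⟪𝔉.F0.incl _ 0 _ ·, _⟫_ℝ) e).trans (key.trans e2))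
  have p : ∀ x, φ x * ‖𝔉.F0.val (k + 1) _ (sC o r k y.t v) x‖ ^ 2 =
      ⟪𝔉.F0.val (k + 1) _ (sC o r k y.t u) x, 𝔉.F0.val (k + 1) _ (sC o r k y.t v) x⟫_ℝ -
        ⟪𝔉.F0.val (k + 2) _ U x, 𝔉.F0.val k _ (sig (Fs 𝔉) k y v) x⟫_ℝ := fun x => by
    obtain ⟨u1, u2⟩ := val_sC h hk y u x
    obtain ⟨v1, v2⟩ := val_sC h hk y v x
    have rx := eq_neg_of_add_eq_zero_left (row x)
    generalize 𝔉.F0.val (k + 1) _ (sC o r k y.t u) x = u' at u1 u2 ⊢
    generalize 𝔉.F0.val (k + 1) _ (sC o r k y.t v) x = v' at v1 v2 rx ⊢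
    have q1 : ∀ i, fa u' i = φ x • fa v' i - (dr i x * φ x) • ζ x := fun i => by
      rw [u1, v1, ← w.D, (h.mix _ y.ht).D]
      simp only [Finset.smul_sum, Finset.sum_smul, ← Finset.sum_sub_distrib]
      refine Finset.sum_congr rfl fun c _ => ?_
      rw [b.α, a.α, Ker54.n0, Ker54.n0, Wz78.nab, Wz78.nab,
        dv_smul ((Cb.sm w.cb).mdifferentiable (by simp) x) (dζ x), map_smul, D_def, smul_eq_mul]
      module
    have q2 : fp u' = φ x • fp v' := by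
      rw [u2, v2, b.φ, a.φ, zero_smul, add_zero, add_zero, map_smul, _root_.smul_apply]
    have q3 : ∀ a, ⟪ζ x, o.Pg x a⟫_ℝ = ⟪ζ x, a⟫_ℝ := fun a =>
      (H.g.symm x _ _).symm.trans (congrArg (⟪·, a⟫_ℝ) (mζ x))
    rw [rx, hU, pt_alg q1 q2, inner_neg_right, sub_neg_eq_add, inner_sum]
    simp only [real_inner_smul_left, real_inner_smul_right, q3]
  have i3 : Integrable (fun x => φ x * ‖𝔉.F0.val (k + 1) _ (sC o r k y.t v) x‖ ^ 2) 𝔉.F0.μ :=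
    funext p ▸ i1.sub i2
  have e4 : ∫ x, φ x * ‖𝔉.F0.val (k + 1) _ (sC o r k y.t v) x‖ ^ 2 ∂𝔉.F0.μ = 0 := by
    rw [funext p, integral_sub i1 i2, e3, sub_self]
  rw [integral_eq_zero_iff_of_nonneg (fun x => mul_nonneg (w.pos x).le (sq_nonneg _)) i3] at e4
  refine sC_inj h y.ht (((Is.val S (by omega) _).congr (e4.mono fun x hx => ?_)).unique
    (by rw [map_zero]; exact Is.zero)) (a.z.trans (by simp))
  exact norm_eq_zero.1 (pow_eq_zero_iff two_ne_zero |>.1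
    ((mul_eq_zero.1 hx).resolve_left (w.pos x).ne'))

end Crest.Agent.X212.Rad94
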