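import Crest.Agent.X212.Rad94.Wka
import Crest.Agent.X212.Map77.IsA
import Crest.Agent.X212.Gb54.Ker

/-!
# Row 212, GL-WALL-PSC (helper94): KER in the format
-/

set_option autoImplicit false
set_option linter.unusedSectionVars false
noncomputable section
open scoped Manifold ContDiff Topology InnerProductSpace
open MeasureTheory Set Function Filter

namespace Crest.Agent.X212.Rad94
open An An.Pre Sob92 Prm93 Mod61 Eqv71 Hol14 Cnt93 Ker54 Sym93 Map77 Nk89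
open Fred93 (Fr)
open Grp76 (Nice hs_iff Pg_iff)

variable {E : Type} [NormedAddCommGroup E] [NormedSpace ℝ E] [FiniteDimensional ℝ E]
  [MeasurableSpace E] [BorelSpace E]
  {HM : Type} [TopologicalSpace HM] {I : ModelWithCorners ℝ E HM} [I.Boundaryless]
  {M : Type} [TopologicalSpace M] [ChartedSpace HM M] [IsManifold I ∞ M]
  [MeasurableSpace M] [T2Space M] [BorelSpace M] [SecondCountableTopology M]
  {ι : Type} [Fintype ι]

variable {lam : Type} [Fintype lam]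
  {T : Type} [NormedAddCommGroup T] [NormedSpace ℝ T] [FiniteDimensional ℝ T]
  {𝔉 : Fam I M ι lam T} {o : Ref 𝔉} {r n m k : ℕ}

variable (h : 𝔉.OK) (hk : 7 ≤ k)
include h hk

variable {hh : Type} [Fintype hh] {κ : hh → Cut M lam} {e : T → PtX M ι lam r n m}
  {σ : ∀ i, T → Pc r 𝔉.B (κ i)} {H Z : Type} [NormedAddCommGroup H] [NormedSpace ℝ H]
  [NormedAddCommGroup Z] [NormedSpace ℝ Z]

/-- **KER + assembly**: the lower bound when the symmetries exhaust the index -/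
theorem low_sym (hs : ∀ i, (κ i).supp ⊆ 𝔉.Om) {Al : (M → CL o.m.V o.m.V) → Circle → Prop}
    (Γ : GrpM o r k Al) {f : o.C r k → o.Y n m k}
    {A : ∀ i, o.C r k → CL (HH o (κ i)) (HH o (κ i))} (rf : RepF e f)
    (rA : ∀ i, RepC o k (σ i) (A i)) (ne : NatP o o (fun _ _ => True) e)
    (nσ : ∀ i, NatC o o (fun _ _ => True) (σ i)) {y : Pnt o r} {ψ : ∀ i, HH o (κ i)}
    (z : ZX e σ y ψ) (fre : y.Free Al) {K : Type} [NormedAddCommGroup K] [NormedSpace ℝ K]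
    [FiniteDimensional ℝ K] {ξ : K →ₗ[ℝ] M → o.m.A} {c : K →ₗ[ℝ] ℝ} (sy : Sy y ξ c)
    (mb : ∀ s, Mb o (ξ s)) (slc : Γ.Slc e (Module.finrank ℝ K + 2 * Fintype.card hh) y)
    (tan : Tan Γ y) (fr : ∀ i, Fr (evC (σ i) y) 0)
    (hr : Surjective (fderiv ℝ (bigF f A) (y.pt k, ψ))) {B : o.C r k →L[ℝ] H}
    (inj : ∀ s (η : 𝔉.F0.H (k + 2) o.Pg) v, In0 k y (𝔉.F0.val _ _ η + ξ s) (c s) v → B v = 0 → v = 0)
    {Q : o.C r k →L[ℝ] Z} (hQ : IsCompactOperator Q) {G : ℝ}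
    (est : ∀ v, fderiv ℝ f (y.pt k) v = 0 → ‖v‖ ≤ G * (‖B v‖ + ‖Q v‖)) : Is.LowB k e σ y ψ B := by
  have k3 : 3 ≤ k := by omega
  have k4 : 4 ≤ k := by omega
  have := FiniteDimensional.complete ℝ T
  have x0 : ∀ i, (κ i).x0 ∈ 𝔉.Om := fun i => hs i ⟨(0, 0), rfl⟩
  have hfr := (Γ.free_iff h k3).2 fre
  obtain ⟨D, -, -, hu, -, hF, -⟩ := slc hfr
  obtain ⟨Θ, V, h0, h1, h2, h3⟩ := exists_orb h sy.inf mb k3
  have JJ := fun i => JH_JH (cpC h o (x := (κ i).x0))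
  let R : ∀ i, Γ.G → CL (HH o (κ i)) (HH o (κ i)) := fun i g => rC o o (κ i) (Γ.u g (κ i).x0)
  let R' : ∀ i, K → CL (HH o (κ i)) (HH o (κ i)) := fun i s => rC o o (κ i) (uX (ξ s) (κ i).x0)
  have R1 : ∀ i a, R i 1 a = a := fun i a =>
    (congrArg (rC _ _ (κ i) · a) (Γ.u_one (x0 i))).trans (rC_p h a)
  have hU := (Mod61.isOpen_U h).mem_nhds (y.mem_U (k := k))
  have b0 : ∀ ξ' s, ∃ η : 𝔉.F0.H (k + 2) o.Pg,
      In0 k y (𝔉.F0.val _ _ η + ξ s) (c s) (D.d ξ' + V s) := fun ξ' s => by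
    obtain ⟨η, b⟩ := tan hfr D ξ'
    exact ⟨η, zero_add (c s) ▸ b.add (h2 s) (md_val h (k := k + 1) (by omega) η)
      ((Cb.sm (sy.inf s).cb).mdifferentiable (by simp))⟩
  refine Is.lowB_of h hk rf rA (low_ker (J := fun i => JC o (κ i)) (ψ := ψ)
    (ρ := fun i p => R i (D.e p.1) ∘L R' i p.2) JJ
    (fun i e => by simpa [e] using (z.2 i).1) D.bij (joint_der D h1 (h0 _))
    (by rw [Prod.fst_zero, Prod.snd_zero, h0, D.e_zero, one_smul]) (fun i => ?_) (fun i v => by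
      show R i (D.e 0) (rC o o (κ i) (uX (ξ 0) (κ i).x0) v) = v
      rw [D.e_zero, R1, map_zero, uX, Pi.zero_apply, map_zero, NormedSpace.exp_zero, one_mul,
        rC_p h])
    (fun s ξ' e => let ⟨_, b⟩ := tan hfr D ξ'; Sy.eq_zero h k3 sy (h2 s) (e ▸ b))
    ((rf.1.contDiffAt hU).differentiableAt (by simp))
    (fun i => ((rA i).1.contDiffAt hU).differentiableAt (by simp)) (hF _ rf)
    (fun i => (rA i).2 y ▸ fr i) hr (fun a => ?_)
    (fun ξ' s => let ⟨_, b⟩ := b0 ξ' s; congrArg Prod.snd b.z)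
    (fun ξ' s e => let ⟨η, b⟩ := b0 ξ' s; inj s η _ b e) hQ est)
  · obtain ⟨s, hs⟩ := hu (κ i).x0
    let L := rHL o.m.J (o.m.pp 𝔉.B (κ i).x0)
    let P := opL ∘L LinearMap.toContinuousLinearMap (LinearMap.proj (κ i).x0 ∘ₗ ξ) ∘L .snd ℝ Γ.L K
    have a1 : HasStrictFDerivAt NormedSpace.exp (1 : _ →L[ℝ] _) (P 0) := by
      rw [map_zero]; exact hasStrictFDerivAt_exp_zero
    exact ⟨_, (L.hasStrictFDerivAt.comp 0 (HasStrictFDerivAt.comp (f := Prod.fst) (0 : Γ.L × K) hs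
      hasStrictFDerivAt_fst)).clm_comp (L.hasStrictFDerivAt.comp 0
        ((a1.comp 0 P.hasStrictFDerivAt).mul_const' (o.m.p (κ i).x0)))⟩
  obtain ⟨y₁, e1, e2, e3⟩ := h3 a.2.1 y
  have me := fun i => (e3.mi h e2).me _ (x0 i)
  refine Prod.ext ?_ (Prod.ext (funext fun i => ?_) (funext fun i => ?_))
  · show f (D.e a.1 • Θ (a.2.1, y.pt k)) = 0
    rw [← e1, Γ.equivar h k4 (ne.mono fun _ _ _ => trivial) rf _ y₁.mem_U,
      ((rf.2 y₁).zero_iff h k4).2 (zr_of ne e2 trivial e3 z.1), map_zero]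
  · show A i (D.e a.1 • Θ (a.2.1, y.pt k)) (phz _ _ (R i _ (R' i _ (ψ i)))) = 0
    have b := nσ i y y₁ _ _ e2 trivial e3 1 (ψ i)
    rw [Rh_one h (me i), Rh_one h (me i), (z.2 i).2, map_zero, ← (rA i).2] at b
    rw [← e1, phz_comm ((rA i).J h (hs i) k3 trivial (nσ i) (Γ.inv_U _ _ y₁.mem_U)),
      (rA i).act h (hs i) k3 Γ (fun y y' w ζ t _ => nσ i y y' w ζ t trivial) _ y₁.mem_U, b,
      map_zero, map_zero]
  · show ‖phz _ _ (R i _ (R' i _ (ψ i)))‖ ^ 2 - 1 = 0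
    rw [norm_phz (JJ i) (JH_skew (cpC h o)), norm_rC h (Γ.mx _ (x0 i)), norm_rC h (me i),
      (z.2 i).1, one_pow, sub_self]

end Crest.Agent.X212.Rad94
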